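import Crest.Agent.N265.Q.Uni

/-! # Row 265, task Q-BND: numerics, finitely many levels -/

set_option autoImplicit false
set_option linter.dupNamespace false
noncomputable section
open MvPolynomial Module TensorProduct

namespace Crest.Agent.N265.M
open Crest.Agent.R274
open Defs_781 Lat_781 SnapA_99 SnapB_99 SnapE_99 Gen7_750 Xs1_781 SkDefs_474
open Alg GV Br N Fib _root_.Crest.Agent.N265.Pow
variable {Sg : Surf} (C : Ch.Choice Sg.V)

/-- degree of the quotients -/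
def dQ : ℕ := (2 * Ch.dg Sg.V C.b0).toNat
/-- constant term of the Hilbert polynomial of the quotients -/
def cQ (l : ℕ) : ℤ := 4 - l - 2 * Sg.V.chi (-C.b0)
/-- `chi_tw`, `dg_nonneg`, `PgQ.chi_zero` -/
theorem hp_eq (l : ℕ) (e : ℤ) : C.hp l e = HP Sg 2 (dQ C) (cQ C l) e := by
  have h := Ch.dg_nonneg C.hasSec
  rw [Ch.Choice.hp, HP, dQ, cQ, Int.toNat_of_nonneg (by omega), Ch.chi_tw, Ch.dg_neg,
    (pgq Sg).chi_zero]
  push_cast
  ring
theorem fit_iff {l : ℕ} {P : Par (r2 Sg)} (hd : P.d = dQ C) (hc : P.c = cQ C l) {β₁ β₂ : Sg.V.G}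
    {n₁ n₂ : ℕ} : P.Fit β₁ β₂ n₁ n₂ ↔ C.Hilb β₁ β₂ (n₁ + n₂ : ℕ) l := by
  refine forall_congr' fun e => ?_
  have h : P.hp e = C.hp l e := by
    rw [hp_eq, ← hd, ← hc]
    rfl
  rw [h, Nat.cast_add]
  constructor <;> intro h <;> linarith
/-- `l ≤ nTop β₁ β₂`; a pair of ideals of types `(β₁, nTop)`, `(β₂, 0)` has the Hilbert polynomial
of level `0`, so it is `m₀`-regular (`exists_par`, `regL_pair`); `finite_classes` -/
theorem exists_lmax : ∃ m : ℕ, ∀ {l β₁ β₂ n₁ n₂}, OK C l β₁ β₂ n₁ n₂ → l ≤ m := by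
  obtain ⟨m₀, hm, -⟩ := exists_par Sg (dQ C) (cQ C 0)
  obtain ⟨T, hT⟩ := finite_classes Sg m₀
  refine ⟨(T ×ˢ T).sup fun γ => (C.nTop γ.1 γ.2).toNat, fun {l β₁ β₂ n₁ n₂} h => ?_⟩
  obtain ⟨h1, h2⟩ := C.hilb_iff.1 h.hilb
  obtain ⟨I₁, le₁, t₁⟩ := exists_of_hasSec h.s₁ (n₁ + n₂ + l)
  obtain ⟨I₂, le₂, t₂⟩ := exists_of_hasSec h.s₂ 0
  have h3 : C.Hilb β₁ β₂ (n₁ + n₂ + l : ℕ) (0 : ℕ) := C.hilb_iff.2 ⟨h1, by omega⟩
  obtain ⟨r₁, r₂⟩ := regL_pair.1 (hm _ (pair_le.2 ⟨le₁, le₂⟩) (funext fun e => by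
    rw [cL_pair, t₁.cL, t₂.cL, ← hp_eq, ← h3 e]
    push_cast
    ring))
  obtain ⟨γ₁, m₁, e₁⟩ := hT _ _ _ t₁ le₁ r₁
  obtain ⟨γ₂, m₂, e₂⟩ := hT _ _ _ t₂ le₂ r₂
  refine le_trans ?_ (Finset.le_sup (f := fun γ : Sg.V.G × Sg.V.G => (C.nTop γ.1 γ.2).toNat)
    (Finset.mk_mem_product m₁ m₂))
  have h4 : C.nTop γ₁ γ₂ = C.nTop β₁ β₂ := by
    rw [Ch.Choice.nTop, Ch.Choice.nTop, e₁.neg.chi, e₂.neg.chi]
  change l ≤ (C.nTop γ₁ γ₂).toNat
  omega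
theorem _root_.Crest.Agent.N265.K.subsingleton_empty (B : Finset ℕ) :
    Subsingleton (K (Spc.empty B)) := by
  refine subsingleton_of_forall_eq 0 fun a => ?_
  obtain ⟨A, A', rfl⟩ := K.exists_sub a
  have h : ∀ x, x ∉ (Spc.empty B).pts := fun _ => id
  rw [A.kl_eq_kc, A'.kl_eq_kc, kc_of_bot fun x hx => (h x hx).elim,
    kc_of_bot fun x hx => (h x hx).elim, sub_self]
/-- levels without fixed types: take the empty space -/
theorem QL_of_empty {p l b : ℕ} (hp : 2 ≤ p) (h : ∀ β₁ β₂ n₁ n₂, ¬ OK C l β₁ β₂ n₁ n₂) :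
    Nonempty (QL C p l b) :=
  ⟨{ Y := Spc.empty {b}, Q := Spc.empty {b}, n := 0, r := 0, V := ∅
     hY := fun _ hx => hx.elim
     hV := ⟨fun _ hx => (Finset.notMem_empty _ hx).elim, fun _ hx => hx.elim⟩
     E := Bun.zero _
     hE := fun _ hx => hx.elim
     s := fun i => i.elim
     cone := ⟨⟨rfl, subset_rfl⟩, fun i => i.elim, fun _ hx => hx.elim, fun _ hx => hx.elim⟩
     B := rfl
     L := fun _ => (r2 Sg).O
     fam := ⟨hp, fun _ hx => hx.elim, fun _ hx => hx.elim, ⟨0, 0, fun _ hx => hx.elim⟩, fun j _ =>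
       (IsAB.bot ((r2 Sg).in_G j _)).congr fun _ hx => hx.elim⟩
     tv := (K.subsingleton_empty _).elim _ _
     U := fun o => (h _ _ _ _ o).elim
     sub := fun o => (h _ _ _ _ o).elim
     eqv := fun o => (h _ _ _ _ o).elim
     mem := fun o => (h _ _ _ _ o).elim
     cover := fun _ hx => hx.elim
     ht := fun o => (h _ _ _ _ o).elim }⟩

end Crest.Agent.N265.M
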