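import Crest.Agent.N265.Q.Defs

/-!
# Row 265, blocks QA, QB: one regularity bound for all levels, and the points of the Quot scheme
-/

set_option autoImplicit false
set_option linter.dupNamespace false
noncomputable section
open MvPolynomial Module TensorProduct Filter

namespace Crest.Agent.N265.M
open Crest.Agent.R274
open Defs_781 Lat_781 SnapA_99 SnapB_99 SnapE_99 Gen7_750 Xs1_781 SkDefs_474
open Alg GV Br N Fib _root_.Crest.Agent.N265.Pow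

section gen
variable {k F : Type} [Field k] [Field F] [Algebra k F] {n : ℕ} {c : Coord k F n}
  {V : Type} [AddCommGroup V] [Module k V] [Module F V] [IsScalarTower k F V]
/-- the constant term of the Hilbert polynomial of a quotient of degree `d` is bounded below -/
theorem exists_c_bound [Infinite k] (j0 : ℤ) (d : ℕ) : ∃ c1 : ℤ, ∀ (K M : Lat c V) (c0 : ℤ),
    (∀ e, j0 ≤ e → Gm M (e + 1) = T1 c • Gm M e) → K.toFam.LE M.toFam →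
    (∀ᶠ e in atTop, qd K M e = d * e + c0) → c1 ≤ c0 := by
  obtain ⟨m0, -, H⟩ := unif_reg (c := c) (V := V) j0 0 d
  refine ⟨-(d * m0), fun K M c0 hM h hev => ?_⟩
  obtain ⟨l, hl, hl0, hz⟩ := exists_nzd K M
  have h' := cut_le h hl
  have c1 := fun e => cutG_le_cut K M l e
  have e1 : ∀ j, qd K M (j + 1) = qd K M j + qd (cut K M l) M (j + 1) +
      ((finrank k (Gm (cut K M l) (j + 1)) : ℤ) - finrank k (cutG K M l (j + 1))) := fun j => by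
    have := finrank_cutG h hl hl0 hz j
    unfold qd
    omega
  have e2 : ∀ᶠ e in atTop, qd (cut K M l) M (e + 1) = d :=
    ((Gm_cut K M l).and (hev.and ((tendsto_atTop_add_const_right _ 1 tendsto_id).eventually
      hev))).mono fun e ⟨h1, h2, h3⟩ => by
        have h4 := e1 e
        rw [fr_of_le (c1 _) fun z hz => mem_cutG.2 (h1 z hz), h2] at h4
        rw [id] at h3
        rw [h3] at h4
        linarith
  have e3 : ∀ᶠ e in atTop, qd (cut K M l) M e = d :=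
    ((tendsto_atTop_add_const_right _ (-1) tendsto_id).eventually e2).mono fun e he => by
      rwa [id, neg_add_cancel_right] at he
  obtain ⟨b, hb1, hb2, hb3⟩ := (e3.and (hev.and (eventually_ge_atTop m0))).exists
  have H := (H _ M hM h' (e3.mono fun e he => by rw [he]; simp)).resolve_left fun hc => by
    have := hc b hb3
    rw [hb1] at this
    simp at this
  have key : ∀ e, m0 ≤ e → qd (cut K M l) M e = qd (cut K M l) M m0 := fun e he => by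
    induction e, he using Int.leInduction with
    | base => rfl
    | succ e he ih => rw [(H e he).2, ih, Nat.cast_zero, add_zero]
  have h5 := grow (f := qd K M) (s := d) hb3 fun j hj _ => by
    rw [e1, key _ (by omega), ← key b hb3, hb1]
    linarith [fr_nonneg (c1 (j + 1))]
  have h6 : 0 ≤ qd K M m0 := fr_nonneg (Gm_mono h m0)
  rw [hb2] at h5
  linarith
end gen

variable {Sg : Surf}
namespace Amb
variable (𝔞 : Amb Sg)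
lemma finrank_Gm_O {e : ℤ} (he : 1 ≤ e) :
    (finrank ℂ (Gm 𝔞.O.toLat e) : ℤ) = Fintype.card 𝔞.ι * Sg.V.chi (e • Sg.V.h) := by
  rw [𝔞.reg_O.finrank_eq (by omega), cL_O]
theorem exists_c1 (d : ℕ) : ∃ c1 : ℤ, ∀ (K : XL Sg 𝔞.M) (c : ℤ), LeL K 𝔞.O →
    cL K.toLat = HP Sg (Fintype.card 𝔞.ι) d c → c1 ≤ c := by
  obtain ⟨c1, H⟩ := exists_c_bound (c := Sg.V.X.toCoord) (V := 𝔞.M) 2 d
  refine ⟨c1, fun K c hK hc => H K.toLat 𝔞.O.toLat c (fun e he => 𝔞.reg_O.gen he) hK ?_⟩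
  refine ((ev_cL K.toLat).and (eventually_ge_atTop 1)).mono fun e he => ?_
  rw [qd, 𝔞.finrank_Gm_O he.2, ← he.1, hc, HP]
  ring
/-- coordinates of a lattice -/
def crd (K : XL Sg 𝔞.M) : XL Sg (𝔞.ι → Sg.F) := comapX K 𝔞.e.symm.toLinearMap 𝔞.e.symm.injective
/-- a lattice from its coordinates -/
def ofc (K : XL Sg (𝔞.ι → Sg.F)) : XL Sg 𝔞.M := comapX K 𝔞.e.toLinearMap 𝔞.e.injective
variable {𝔞}
lemma crd_le {K : XL Sg 𝔞.M} (h : LeL K 𝔞.O) : LeL (𝔞.crd K) (OP Sg.V.X 𝔞.ι) := fun I hI x hx => by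
  have h1 : 𝔞.e (𝔞.e.symm x) ∈ (OP Sg.V.X 𝔞.ι).M I := h I hI hx
  rwa [LinearEquiv.apply_symm_apply] at h1
lemma ofc_le {K : XL Sg (𝔞.ι → Sg.F)} (h : LeL K (OP Sg.V.X 𝔞.ι)) : LeL (𝔞.ofc K) 𝔞.O :=
  fun I hI _ hx => h I hI hx
lemma ofc_crd (K : XL Sg 𝔞.M) : EqL (𝔞.ofc (𝔞.crd K)) K := fun I _ => Submodule.ext fun x => by
  change 𝔞.e.symm (𝔞.e x) ∈ K.M I ↔ _
  rw [LinearEquiv.symm_apply_apply]
variable (𝔞)
/-- sections as coordinate vectors -/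
def inc' (j : ℕ) : (𝔞.G j).V →ₗ[ℂ] (𝔞.ι → Sg.F) := kl ℂ 𝔞.e.toLinearMap ∘ₗ 𝔞.inc j
lemma inc'_apply (j : ℕ) (w : (𝔞.G j).V) : 𝔞.inc' j w = 𝔞.e (𝔞.inc j w) := rfl
lemma inc'_inj (j : ℕ) : Function.Injective (𝔞.inc' j) := 𝔞.e.injective.comp (𝔞.inc_inj j)
lemma pc_ofc (K : XL Sg (𝔞.ι → Sg.F)) (j : ℕ) :
    𝔞.pc (𝔞.ofc K) j = (Gm K.toLat j).comap (𝔞.inc' j) :=
  Submodule.ext fun _ => mem_Gm_comap (hg := 𝔞.e.injective)
lemma map_inc'_le (j : ℕ) (U : Submodule ℂ (𝔞.G j).V) :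
    U.map (𝔞.inc' j) ≤ Gm (OP Sg.V.X 𝔞.ι).toLat j := by
  rintro _ ⟨w, -, rfl⟩
  refine mem_Gm_OP.2 fun a => ?_
  rw [inc'_apply, e_inc]
  exact SA_mem_AA _
lemma finrank_map_inc' (j : ℕ) (U : Submodule ℂ (𝔞.G j).V) :
    finrank ℂ (U.map (𝔞.inc' j)) = finrank ℂ U :=
  (Submodule.equivMapOfInjective _ (𝔞.inc'_inj j) _).finrank_eq.symm

/-- the degrees `p` and `p + 3, …, q₀` determine a point -/
def Pts (p d : ℕ) (c : ℤ) (q0 : ℕ) : Prop := ∀ (J : Finset ℕ) (hp : p ∈ J), (∀ j ∈ J, p ≤ j) →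
  (∀ j, p + 3 ≤ j → j ≤ q0 → j ∈ J) → ∀ U : ∀ j : J, Submodule ℂ (𝔞.G j.1).V,
    (∀ j : J, (finrank ℂ (U j) : ℤ) = HP Sg (Fintype.card 𝔞.ι) d c j.1) →
    (∀ j : J, p < j.1 → ∀ s ∈ SA Sg (j.1 - p), ∀ u ∈ U ⟨p, hp⟩,
      s • 𝔞.inc p u ∈ (U j).map (𝔞.inc j.1)) →
    ∃ K : XL Sg 𝔞.M, LeL K 𝔞.O ∧ cL K.toLat = HP Sg (Fintype.card 𝔞.ι) d c ∧
      ∀ j : J, 𝔞.pc K j.1 = U j

theorem exists_m0 (d : ℕ) (c : ℤ) : ∃ m0 : ℕ, 2 ≤ m0 ∧ ∀ p ≥ m0,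
    (∀ K : XL Sg 𝔞.M, LeL K 𝔞.O → cL K.toLat = HP Sg (Fintype.card 𝔞.ι) d c → RegL K.toLat p) ∧
    ∃ q0, 𝔞.Pts p d c q0 := by
  obtain ⟨m0, hm0, H1, H2⟩ := reg_quot Sg 𝔞.ι d c
  refine ⟨m0.toNat, by omega, fun p hp => ⟨fun K hK hc => ?_, ?_⟩⟩
  · have h1 := (H1 (𝔞.crd K) (crd_le hK) (Eventually.of_forall fun e => by
      rw [crd, cL_comapX, hc])).1
    exact regL_congr (ofc_crd K) (regL_comapX 𝔞.e (h1.mono (by omega)))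
  obtain ⟨q0, hq0⟩ := persist (fun j : ℕ => AA Sg.V.X (j + 3 : ℕ)) (Gm (OP Sg.V.X 𝔞.ι).toLat p)
    fun j => HP Sg (Fintype.card 𝔞.ι) d c ((j + 3 : ℕ) + p)
  refine ⟨q0 + 3 + p, fun J hJ h0 h3 U h1 h2 => ?_⟩
  have hle : ∀ (i : ℕ) (j : J), j.1 = i + p →
      AA Sg.V.X i • (U ⟨p, hJ⟩).map (𝔞.inc' p) ≤ (U j).map (𝔞.inc' j.1) := fun i j hj => by
    rcases Nat.eq_zero_or_pos i with rfl | hi
    · obtain rfl : j = ⟨p, hJ⟩ := Subtype.ext (by simpa using hj)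
      rw [Nat.cast_zero, AA_zero, Submodule.one_smul]
    rw [Submodule.smul_le]
    rintro s hs _ ⟨u, hu, rfl⟩
    rw [← SA_eq, show i = j.1 - p by omega] at hs
    obtain ⟨w, hw, e⟩ := h2 j (by omega) s hs u hu
    exact ⟨w, hw, by rw [inc'_apply, inc'_apply, e, map_smul]⟩
  have h4 := hq0 _ (𝔞.map_inc'_le p (U ⟨p, hJ⟩)) fun i hi => by
    have h5 := hle (i + 3) ⟨i + 3 + p, h3 _ (by omega) (by omega)⟩ rfl
    have h6 := h1 ⟨i + 3 + p, h3 _ (by omega) (by omega)⟩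
    rw [← finrank_map_inc', Nat.cast_add] at h6
    rw [← h6]
    exact Nat.cast_le.2 (Submodule.finrank_mono h5)
  obtain ⟨h5, h6, h7⟩ := H2 p (by omega) _ (𝔞.map_inc'_le p (U ⟨p, hJ⟩))
    (by rw [finrank_map_inc', h1 ⟨p, hJ⟩])
    ((eventually_ge_atTop 3).mono fun j hj => by
      obtain ⟨i, rfl⟩ : ∃ i : ℕ, j = (i + 3 : ℕ) := ⟨(j - 3).toNat, by omega⟩
      exact h4 i)
  refine ⟨𝔞.ofc _, ofc_le (genS_le (𝔞.map_inc'_le p (U ⟨p, hJ⟩))), by rw [ofc, cL_comapX, h6],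
    fun j => ?_⟩
  obtain ⟨i, hi⟩ : ∃ i : ℕ, j.1 = i + p := ⟨j.1 - p, by have := h0 j.1 j.2; omega⟩
  have h8 : Gm (genS Sg.V.X ((U ⟨p, hJ⟩).map (𝔞.inc' p)) p).toLat j.1 = (U j).map (𝔞.inc' j.1) := by
    refine Submodule.eq_of_le_of_finrank_eq ?_ (Nat.cast_injective (R := ℤ) ?_)
    · have h9 := h7 i
      rw [← Nat.cast_add, ← hi] at h9
      exact h9.le.trans (hle i j hi)
    · rw [h5.finrank_eq (by omega), h6, finrank_map_inc', h1]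
  rw [pc_ofc, h8, Submodule.comap_map_eq_of_injective (𝔞.inc'_inj _)]

/-- **one regularity bound for all levels** -/
theorem exists_p (d : ℕ) (c0 : ℤ) : ∃ (p0 : ℕ) (c1 : ℤ), 2 ≤ p0 ∧
    (∀ (K : XL Sg 𝔞.M) (c : ℤ), LeL K 𝔞.O → cL K.toLat = HP Sg (Fintype.card 𝔞.ι) d c → c1 ≤ c) ∧
    ∀ p ≥ p0, ∀ c, c1 ≤ c → c ≤ c0 →
      (∀ K : XL Sg 𝔞.M, LeL K 𝔞.O → cL K.toLat = HP Sg (Fintype.card 𝔞.ι) d c → RegL K.toLat p) ∧
      ∃ q0, 𝔞.Pts p d c q0 := by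
  obtain ⟨c1, h1⟩ := 𝔞.exists_c1 d
  choose m0 _ hm using 𝔞.exists_m0 d
  refine ⟨max 2 ((Finset.Icc c1 c0).sup m0), c1, le_max_left _ _, h1, fun p hp c hc hc' =>
    hm c p ?_⟩
  exact ((Finset.le_sup (Finset.mem_Icc.2 ⟨hc, hc'⟩)).trans (le_max_right _ _)).trans hp
/-- all sublattices of degree `d` and constant term `≤ c0` are `p`-regular -/
theorem exists_reg (d : ℕ) (c0 : ℤ) : ∃ p0 : ℕ, 2 ≤ p0 ∧ ∀ p ≥ p0, ∀ c ≤ c0, ∀ K : XL Sg 𝔞.M,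
    LeL K 𝔞.O → cL K.toLat = HP Sg (Fintype.card 𝔞.ι) d c → RegL K.toLat p := by
  obtain ⟨p0, c1, h2, h1, H⟩ := 𝔞.exists_p d c0
  exact ⟨p0, h2, fun p hp c hc K hK e => (H p hp c (h1 K c hK e) hc).1 K hK e⟩
end Amb

lemma HP_nonneg {r : ℕ} (hr : 0 < r) (d : ℕ) (c : ℤ) :
    ∃ m₀ : ℕ, ∀ m : ℕ, m₀ ≤ m → 0 ≤ HP Sg r d c m := by
  set a : ℤ := 2 * r * (Sg.V.chi Sg.V.h - Sg.V.chi 0) - 2 * d with ha
  set b : ℤ := 2 * r * Sg.V.chi 0 - 2 * c with hb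
  refine ⟨a.natAbs + b.natAbs + 2, fun m hm => ?_⟩
  have h1 := Ch.chi_nsmul Sg.V Sg.V.h m
  have h2 : 1 ≤ (r : ℤ) * Ch.ip Sg.V Sg.V.h Sg.V.h :=
    mul_pos (Nat.cast_pos.2 hr) (Ch.dg_h_pos Sg.V)
  have h3 : 2 * HP Sg r d c m =
      (r * Ch.ip Sg.V Sg.V.h Sg.V.h) * (m * (m - 1)) + a * m + b := by
    rw [HP, natCast_zsmul, ha, hb]
    linear_combination r * h1
  have h4 : (0 : ℤ) ≤ m * (m - 1) := mul_nonneg (by omega) (by omega)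
  have h5 : (0 : ℤ) ≤ m * (m - 2 + a) := mul_nonneg (by omega) (by omega)
  have h6 : (0 : ℤ) ≤ m + b := by omega
  nlinarith

theorem Amb.exists_par (𝔞 : Amb Sg) (hr : 0 < Fintype.card 𝔞.ι) (d : ℕ) (c : ℤ) : ∃ m₀ : ℕ,
    (∀ K : XL Sg 𝔞.M, LeL K 𝔞.O → cL K.toLat = HP Sg (Fintype.card 𝔞.ι) d c → RegL K.toLat m₀) ∧
    ∀ p ≥ m₀, ∀ b ≠ 0, ∃ P : Par 𝔞, P.p = p ∧ P.d = d ∧ P.c = c ∧ P.b = b := by
  obtain ⟨m0, h2, H⟩ := 𝔞.exists_m0 d c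
  obtain ⟨m1, h1⟩ := HP_nonneg (Sg := Sg) hr d c
  refine ⟨max m0 m1, (H _ (le_max_left _ _)).1, fun p hp b hb => ?_⟩
  obtain ⟨hreg, q0, hq⟩ := H p ((le_max_left _ _).trans hp)
  refine ⟨⟨p, max q0 (5 + p), d, c, b, hb, h2.trans ((le_max_left _ _).trans hp), le_max_right _ _,
    hreg, fun U hU hs => ?_⟩, rfl, rfl, rfl, rfl⟩
  obtain ⟨K, k1, k2, k3⟩ := hq _ (Finset.mem_insert_self _ _) (fun j hj => JJ.le ⟨j, hj⟩)
    (fun j h3 h4 => Finset.mem_insert_of_mem (Finset.mem_Icc.2 ⟨h3, h4.trans (le_max_left _ _)⟩))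
    U (fun j => by
      rw [hU j, Int.toNat_of_nonneg (h1 _ (((le_max_right _ _).trans hp).trans (JJ.le j)))])
    fun j hj s hs' u hu => ⟨_, hs (JJ.bot _ _) j ⟨s, (Arw_of_lt hj).ge hs'⟩ u hu, 𝔞.inc_act _ _⟩
  exact ⟨K, k1, k2, funext k3⟩

/-- the statement `exists_par` of `Q/Pts` -/
theorem exists_par' (Sg : Surf) (d : ℕ) (c : ℤ) : ∃ m₀ : ℕ,
    (∀ K : XL Sg (Fin 2 → Sg.F), LeL K (r2 Sg).O → cL K.toLat = HP Sg 2 d c → RegL K.toLat m₀) ∧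
    ∀ p ≥ m₀, ∀ b ≠ 0, ∃ P : Par (r2 Sg), P.p = p ∧ P.d = d ∧ P.c = c ∧ P.b = b :=
  (r2 Sg).exists_par Fintype.card_pos d c

end Crest.Agent.N265.M
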