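import Crest.Agent.N265.Q.Coc0
import Crest.Agent.N265.M.TV

/-! # Row 265, task Q-COC: cocycles of the quiver and `Hom(B, O/K)` -/

set_option autoImplicit false
set_option linter.dupNamespace false
noncomputable section
open MvPolynomial Module TensorProduct

namespace Crest.Agent.N265.M
open Crest.Agent.R274
open Defs_781 Lat_781 SnapA_99 SnapB_99 SnapE_99 Gen7_750 Xs1_781 SkDefs_474
open Alg GV Br N Fib _root_.Crest.Agent.N265.Pow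
open Cc
open Hm (Ix fu fc fΛ fu_mem sum_fc tens_ind mem_homMap_fu co_mem)
variable {Sg : Surf} {𝔞 𝔟 : Amb Sg} {p q : ℕ}

namespace Amb
variable {K : XL Sg 𝔞.M} {K' : XL Sg 𝔟.M}
/-- relations of degree two suffice (the second syzygy lattice is `2`-regular) -/
theorem mem_Hb_of_two (le : LeL K 𝔞.O) (hr : RegL K.toLat p) (hp : 2 ≤ p) {θ : (𝔞.HG 𝔟 p).V}
    (h : ∀ t : ((𝔞.G p).V ⊗[ℂ] SA Sg 3) ⊗[ℂ] SA Sg 2, t ∈ tens (𝔞.KK K p 3) ⊤ → mm _ 3 2 t = 0 →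
      𝔟.mul (3 + p) 2 (LinearMap.rTensor _ θ t) ∈ 𝔟.pc K' (2 + (3 + p))) :
    θ ∈ 𝔞.Hb 𝔟 K K' p :=
  have _ := hp
  fun k => hb_iff.2 (hb_of_two le hr (hb_iff.1 h) k)
/-- the syzygies are generated in degree three -/
theorem map_mm_KK (le : LeL K 𝔞.O) (hr : RegL K.toLat p) (hp : 2 ≤ p) (k : ℕ) :
    (tens (𝔞.KK K p 3) ⊤).map (mm _ 3 k) = 𝔞.KK K p (k + 3) :=
  have _ := hp
  map_mm le hr k

variable (𝔞 p q) in
/-- zero-cochains that vanish in the lowest degree -/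
def En1 : Submodule ℂ (Quiv.En (𝔞.GJ p q)).V :=
  LinearMap.ker (LinearMap.proj (R := ℂ) (φ := fun j => ((𝔞.GJ p q j).hom (𝔞.GJ p q j)).V)
    (JJ.bot p q))
variable (𝔞 p q) in
/-- zero-cochains preserving all pieces -/
def stabs (K : XL Sg 𝔞.M) : Submodule ℂ (Quiv.En (𝔞.GJ p q)).V :=
  Submodule.pi Set.univ fun j => homMap (𝔞.pcs p q K j) (𝔞.pcs p q K j)
/-- `c ↦ (w ⊗ a ↦ c (p, 3 + p) a w)` -/
theorem exists_toH (hq : 3 + p ≤ q) : ∃ ψ : (𝔞.qv p q).C.V →ₗ[ℂ] (𝔞.HG 𝔞 p).V,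
    Deg0 (𝔞.qv p q).C (𝔞.HG 𝔞 p) ψ ∧ ∀ c w (a : SA Sg 3),
      ψ c (w ⊗ₜ a) = c (JJ.bot p q, JJ.mk' 3 le_rfl hq) ⟨a.1, (Arw_add p three_pos).ge a.2⟩ w := by
  let ψ : (𝔞.qv p q).C.V →ₗ[ℂ] (𝔞.HG 𝔞 p).V :=
    { toFun := fun c => TensorProduct.lift ((c (JJ.bot p q, JJ.mk' 3 le_rfl hq) ∘ₗ
        Submodule.inclusion (Arw_add p three_pos).ge).flip)
      map_add' := fun _ _ => TensorProduct.ext' fun _ _ => rfl
      map_smul' := fun _ _ => TensorProduct.ext' fun _ _ => rfl }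
  exact ⟨ψ, fun c => TensorProduct.ext' fun _ _ => rfl, fun _ _ _ => rfl⟩

/-! ### tools -/
section tools
/-- a component of a one-cochain -/
def cv (c : (𝔞.qv p q).C.V) (j j' : JJ p q) :
    Arw Sg j.1 j'.1 →ₗ[ℂ] (𝔞.G j.1).V →ₗ[ℂ] (𝔞.G j'.1).V := c (j, j')
/-- a component from the lowest degree -/
def cb (c : (𝔞.qv p q).C.V) (j : JJ p q) :
    Arw Sg p j.1 →ₗ[ℂ] (𝔞.G p).V →ₗ[ℂ] (𝔞.G j.1).V := c (JJ.bot p q, j)
/-- a component of a zero-cochain -/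
def ez (φ : (Quiv.En (𝔞.GJ p q)).V) (j : JJ p q) : (𝔞.G j.1).V →ₗ[ℂ] (𝔞.G j.1).V := φ j
/-- the lowest component of a zero-cochain -/
def eb (φ : (Quiv.En (𝔞.GJ p q)).V) : (𝔞.G p).V →ₗ[ℂ] (𝔞.G p).V := φ (JJ.bot p q)
variable {c : (𝔞.qv p q).C.V} {φ : (Quiv.En (𝔞.GJ p q)).V}
lemma mem_den : c ∈ (𝔞.qv p q).den (𝔞.pcs p q K) ↔ ∀ (j j' : JJ p q) (a : Arw Sg j.1 j'.1),
    ∀ u ∈ 𝔞.pc K j.1, cv c j j' a u ∈ 𝔞.pc K j'.1 := Iff.rfl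
lemma mem_Zc : c ∈ (𝔞.qv p q).Zc (𝔞.pcs p q K) ↔ ∀ (j j' j'' : JJ p q) (a : Arw Sg j'.1 j''.1)
    (a' : Arw Sg j.1 j'.1) (a'' : Arw Sg j.1 j''.1), a''.1 = a.1 * a'.1 → ∀ u ∈ 𝔞.pc K j.1,
    cv c j j'' a'' u - 𝔞.act j'.1 j''.1 a (cv c j j' a' u) - cv c j' j'' a (𝔞.act j.1 j'.1 a' u) ∈
      𝔞.pc K j''.1 := Iff.rfl
lemma Zc_bot (hc : c ∈ (𝔞.qv p q).Zc (𝔞.pcs p q K)) (j j' : JJ p q) (a : Arw Sg j.1 j'.1)
    (a' : Arw Sg p j.1) {u : (𝔞.G p).V} (hu : u ∈ 𝔞.pc K p) :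
    cb c j' ⟨_, arw_arw a.2 a'.2⟩ u - 𝔞.act j.1 j'.1 a (cb c j a' u) -
      cv c j j' a (𝔞.act p j.1 a' u) ∈ 𝔞.pc K j'.1 :=
  mem_Zc.1 hc (JJ.bot p q) j j' a a' ⟨_, arw_arw a.2 a'.2⟩ rfl u hu
lemma cb_δ (j : JJ p q) (a : Arw Sg p j.1) (u : (𝔞.G p).V) :
    cb ((𝔞.qv p q).δ φ) j a u = 𝔞.act p j.1 a (eb φ u) - ez φ j (𝔞.act p j.1 a u) := rfl
lemma cb_sub (c c' : (𝔞.qv p q).C.V) (j : JJ p q) (a : Arw Sg p j.1) (u : (𝔞.G p).V) :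
    cb (c - c') j a u = cb c j a u - cb c' j a u := rfl
lemma mem_stabs : φ ∈ 𝔞.stabs p q K ↔ ∀ j : JJ p q, ∀ u ∈ 𝔞.pc K j.1, ez φ j u ∈ 𝔞.pc K j.1 :=
  ⟨fun h j => h j trivial, fun h j _ => h j⟩
lemma mem_En1 : φ ∈ 𝔞.En1 p q ↔ eb φ = 0 := Iff.rfl
lemma act_eq_mul {j k : ℕ} (hk : 0 < k) (a : SA Sg k) (w : (𝔞.G j).V) :
    𝔞.act j (k + j) ⟨a.1, (Arw_add j hk).ge a.2⟩ w = 𝔞.mul j k (w ⊗ₜ a) :=
  funext fun i => Subtype.ext (by rw [act_val, mul_tmul, mulA_val, mul_comm])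
lemma JJ_big {j : JJ p q} (h : p < j.1) : 3 + p ≤ j.1 := by
  rcases j.cases with e | e
  · exact absurd (congrArg Subtype.val e) h.ne'
  · omega
/-- a cocycle is trivial if it is trivial on the arrows from the lowest degree -/
lemma den_of_base (le : LeL K 𝔞.O) (hr : RegL K.toLat p) (hc : c ∈ (𝔞.qv p q).Zc (𝔞.pcs p q K))
    (h : ∀ (j : JJ p q) (a : Arw Sg p j.1), ∀ u ∈ 𝔞.pc K p, cb c j a u ∈ 𝔞.pc K j.1) :
    c ∈ (𝔞.qv p q).den (𝔞.pcs p q K) := mem_den.2 fun j j' a u hu => by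
  obtain rfl | hj := j.cases
  · exact h j' a u hu
  obtain ⟨b, rfl⟩ := exists_sum le hr (show p < j.1 by omega) hu
  rw [map_sum]
  refine Submodule.sum_mem _ fun l _ => ?_
  have h2 := sub_mem (sub_mem (h j' ⟨_, arw_arw a.2 (b l).2⟩ _ (fu_mem _ l))
    (act_mem a (h j (b l) _ (fu_mem _ l)))) (Zc_bot hc j j' a (b l) (fu_mem _ l))
  rwa [sub_sub_cancel] at h2

/-- `b ↦ ∑ c (b l) (u l)` -/
lemma exists_γ (K : XL Sg 𝔞.M) {j : ℕ} (c' : Arw Sg p j →ₗ[ℂ] (𝔞.G p).V →ₗ[ℂ] (𝔞.G j).V) :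
    ∃ γ : (Ix (𝔞.pc K p) → Sg.F) →ₗ[ℂ] (𝔞.G j).V, (j = p → γ = 0) ∧
      ∀ a : Arw Sg p j, ∀ u ∈ 𝔞.pc K p, γ (a.1 • fΛ Sg (𝔞.pc K p) u) = c' a u := by
  obtain ⟨r, hr⟩ := exists_ret (Arw Sg p j)
  refine ⟨∑ l, c'.flip (fu _ l) ∘ₗ r ∘ₗ LinearMap.proj l, fun h => ?_, fun a u hu => ?_⟩
  · refine Finset.sum_eq_zero fun l _ => LinearMap.ext fun b => ?_
    have : r (b l) = 0 := Subtype.ext ((Arw_of_le h.le).le (r (b l)).2)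
    change c' (r (b l)) _ = 0
    rw [this, map_zero, LinearMap.zero_apply]
  · conv_rhs => rw [← sum_fc hu, map_sum]
    rw [LinearMap.sum_apply]
    refine Finset.sum_congr rfl fun l _ => ?_
    have : (a.1 • fΛ Sg (𝔞.pc K p) u) l = (fc (𝔞.pc K p) u l • a : Arw Sg p j) := by
      simp [fΛ, Algebra.smul_def, mul_comm]
    change c' (r ((a.1 • fΛ Sg (𝔞.pc K p) u) l)) _ = _
    rw [this, hr, map_smul, map_smul, LinearMap.smul_apply]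
lemma mul_KK {s : (𝔞.G p).V ⊗[ℂ] SA Sg 3} (hs : s ∈ 𝔞.KK K p 3) : 𝔞.mul p 3 s = 0 :=
  (𝔞.ker_mul p 3).ge hs.2

section three
variable (hq : 3 + p ≤ q)
/-- the degree `3 + p` -/
def j3 : JJ p q := JJ.mk' 3 le_rfl hq
/-- the component `p → 3 + p` -/
def cb3 (c : (𝔞.qv p q).C.V) : Arw Sg p (3 + p) →ₗ[ℂ] (𝔞.G p).V →ₗ[ℂ] (𝔞.G (3 + p)).V :=
  c (JJ.bot p q, j3 hq)
/-- the components from `3 + p` -/
def c3 (c : (𝔞.qv p q).C.V) (j : JJ p q) :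
    Arw Sg (3 + p) j.1 →ₗ[ℂ] (𝔞.G (3 + p)).V →ₗ[ℂ] (𝔞.G j.1).V := c (j3 hq, j)
/-- the component in degree `3 + p` -/
def e3 (φ : (Quiv.En (𝔞.GJ p q)).V) : (𝔞.G (3 + p)).V →ₗ[ℂ] (𝔞.G (3 + p)).V := φ (j3 hq)
/-- the map of `exists_toH` -/
def IsH (ψ : (𝔞.qv p q).C.V →ₗ[ℂ] (𝔞.HG 𝔞 p).V) : Prop := ∀ c w (a : SA Sg 3),
  ψ c (w ⊗ₜ a) = cb3 hq c ⟨a.1, (Arw_add p three_pos).ge a.2⟩ w
lemma cb3_δ (a : Arw Sg p (3 + p)) (u : (𝔞.G p).V) : cb3 hq ((𝔞.qv p q).δ φ) a u =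
    𝔞.act p (3 + p) a (eb φ u) - e3 hq φ (𝔞.act p (3 + p) a u) := rfl
lemma Zc_three (hc : c ∈ (𝔞.qv p q).Zc (𝔞.pcs p q K)) (j : JJ p q) (a : Arw Sg (3 + p) j.1)
    (a' : Arw Sg p (3 + p)) {u : (𝔞.G p).V} (hu : u ∈ 𝔞.pc K p) :
    cb c j ⟨_, arw_arw a.2 a'.2⟩ u - 𝔞.act (3 + p) j.1 a (cb3 hq c a' u) -
      c3 hq c j a (𝔞.act p (3 + p) a' u) ∈ 𝔞.pc K j.1 := Zc_bot hc (j3 hq) j a a' hu
end three

variable {hq : 3 + p ≤ q} {ψ : (𝔞.qv p q).C.V →ₗ[ℂ] (𝔞.HG 𝔞 p).V} (hψ : IsH hq ψ)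
include hψ
lemma toH_δ (s : (𝔞.G p).V ⊗[ℂ] SA Sg 3) : ψ ((𝔞.qv p q).δ φ) s =
    𝔞.res 𝔞 p (eb φ) s - e3 hq φ (𝔞.mul p 3 s) := by
  induction s using TensorProduct.induction_on with
  | zero => simp only [map_zero, sub_zero]
  | add s s' h h' => simp only [map_add, h, h', add_sub_add_comm]
  | tmul w a =>
    rw [hψ, cb3_δ, act_eq_mul three_pos, act_eq_mul three_pos]
    rfl
lemma toH_den (hc : c ∈ (𝔞.qv p q).den (𝔞.pcs p q K)) {s : (𝔞.G p).V ⊗[ℂ] SA Sg 3}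
    (hs : s ∈ tens (𝔞.pc K p) ⊤) : ψ c s ∈ 𝔞.pc K (3 + p) := by
  refine tens_ind hs (by rw [map_zero]; exact zero_mem _) (fun u hu a _ => ?_) fun _ _ h h' => by
    rw [map_add]; exact add_mem h h'
  rw [hψ]
  exact mem_den.1 hc (JJ.bot p q) (j3 hq) _ u hu
lemma γ_three {γ : (Ix (𝔞.pc K p) → Sg.F) →ₗ[ℂ] (𝔞.G (3 + p)).V}
    (hγ : ∀ a : Arw Sg p (3 + p), ∀ u ∈ 𝔞.pc K p, γ (a.1 • fΛ Sg (𝔞.pc K p) u) = cb3 hq c a u)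
    {s : (𝔞.G p).V ⊗[ℂ] SA Sg 3} (hs : s ∈ tens (𝔞.pc K p) ⊤) :
    γ (Hm.co (𝔞.pc K p) 3 s) = ψ c s := by
  refine tens_eqOn (f := γ ∘ₗ Hm.co (𝔞.pc K p) 3) (fun u hu a _ => ?_) hs
  rw [hψ]
  exact hγ ⟨a.1, _⟩ u hu
/-- the cocycle relation on the syzygies of degree three -/
lemma γ_smul {j : JJ p q} {γ : (Ix (𝔞.pc K p) → Sg.F) →ₗ[ℂ] (𝔞.G j.1).V}
    (hc : c ∈ (𝔞.qv p q).Zc (𝔞.pcs p q K)) (hγ : ∀ a : Arw Sg p j.1, ∀ u ∈ 𝔞.pc K p,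
      γ (a.1 • fΛ Sg (𝔞.pc K p) u) = cb c j a u) (b : Arw Sg (3 + p) j.1)
    {s : (𝔞.G p).V ⊗[ℂ] SA Sg 3} (hs : s ∈ 𝔞.KK K p 3) :
    γ (b.1 • Hm.co (𝔞.pc K p) 3 s) - 𝔞.act (3 + p) j.1 b (ψ c s) ∈ 𝔞.pc K j.1 := by
  have key : γ (b.1 • Hm.co (𝔞.pc K p) 3 s) - 𝔞.act (3 + p) j.1 b (ψ c s) -
      c3 hq c j b (𝔞.mul p 3 s) ∈ 𝔞.pc K j.1 := by
    refine tens_ind hs.1 (by simp only [map_zero, smul_zero, sub_zero, zero_mem])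
      (fun u hu a _ => ?_) fun _ _ h h' => by
        simpa only [map_add, smul_add, add_sub_add_comm] using add_mem h h'
    have ha : a.1 ∈ Arw Sg p (3 + p) := (Arw_add p three_pos).ge a.2
    rw [hψ, ← act_eq_mul three_pos, Hm.co, mF_tmul, smul_smul, hγ ⟨_, arw_arw b.2 ha⟩ u hu]
    exact Zc_three hq hc j b ⟨_, ha⟩ hu
  rwa [mul_KK hs, map_zero, sub_zero] at key
lemma toH_mem_Hb (le : LeL K 𝔞.O) (hr : RegL K.toLat p) (h5 : 5 + p ≤ q)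
    (hc : c ∈ (𝔞.qv p q).Zc (𝔞.pcs p q K)) : ψ c ∈ 𝔞.Hb 𝔞 K K p := fun k => by
  refine hb_iff.2 (hb_of_two le hr (fun b hb h0 => ?_) k)
  let j : JJ p q := ⟨2 + (3 + p), Finset.mem_insert_of_mem (Finset.mem_Icc.2 ⟨by omega, by omega⟩)⟩
  obtain ⟨γ, -, hγ⟩ := exists_γ K (cb c j)
  have h1 := Submodule.sum_mem (𝔞.pc K j.1) (t := Finset.univ) fun a _ => γ_smul hψ hc hγ
    ⟨b a, mem_arw rfl two_pos (mem_PP.1 hb a)⟩ (fu_mem (𝔞.KK K p 3) a)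
  rw [Finset.sum_sub_distrib, ← map_sum, ← Fintype.linearCombination_apply Sg.F (gk 𝔞 K p), h0,
    map_zero, zero_sub, neg_mem_iff, mem_pc, map_sum] at h1
  rw [Fintype.linearCombination_apply]
  exact (Finset.sum_congr rfl fun a _ => 𝔞.inc_act _ _).subst (motive := (· ∈ _)) h1
/-- a cocycle that is trivial on the syzygies of degree three is a coboundary -/
lemma exists_δ (le : LeL K 𝔞.O) (hr : RegL K.toLat p) (hc : c ∈ (𝔞.qv p q).Zc (𝔞.pcs p q K))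
    (h : ψ c ∈ 𝔞.den 𝔞 K K p) :
    ∃ φ ∈ 𝔞.En1 p q, c - (𝔞.qv p q).δ φ ∈ (𝔞.qv p q).den (𝔞.pcs p q K) := by
  choose γ h0 hγ using fun j => exists_γ K (cb c j)
  obtain ⟨σ, hσ, -⟩ := exists_σ le hr
  have key : ∀ (j : JJ p q) k, j.1 = k + (3 + p) → ∀ b ∈ PP Sg _ k,
      γ j (πK 𝔞 K p b) ∈ 𝔞.pc K j.1 := fun j k e b hb => by
    rw [Fintype.linearCombination_apply, map_sum]
    refine Submodule.sum_mem _ fun a _ => ?_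
    have h3 := fu_mem (𝔞.KK K p 3) a
    rcases k.eq_zero_or_pos with rfl | hk
    · obtain rfl : j = j3 hq := Subtype.ext (e.trans (zero_add _))
      obtain ⟨r, hr⟩ := const_of_mem (mem_PP.1 hb a)
      rw [hr, smul_assoc, one_smul, map_smul]
      exact Submodule.smul_mem _ _ ((γ_three hψ (hγ (j3 hq)) h3.1).symm.subst
        (motive := (· ∈ 𝔞.pc K (3 + p))) (h _ h3))
    · have h1 := γ_smul hψ hc (hγ j) ⟨b a, mem_arw e hk (mem_PP.1 hb a)⟩ h3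
      exact (Submodule.sub_mem_iff_left _ (act_mem _ (h _ h3))).1 h1
  obtain ⟨φ, hφ⟩ : ∃ φ : (Quiv.En (𝔞.GJ p q)).V, ∀ j, ez φ j = -(γ j ∘ₗ σ j.1 ∘ₗ 𝔞.inc j.1) :=
    ⟨fun j => -(γ j ∘ₗ σ j.1 ∘ₗ 𝔞.inc j.1), fun _ => rfl⟩
  have hb : eb φ = 0 := (fun (j : JJ p q) (e : j.1 = p) => show ez φ j = 0 by
    rw [hφ, h0 _ e, LinearMap.zero_comp]
    exact LinearMap.ext fun _ => neg_zero) (JJ.bot p q) rfl
  refine ⟨φ, hb, den_of_base le hr (sub_mem hc (Quiv.δ_mem_Zc _ _ _)) fun j a u hu => ?_⟩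
  have e : cb (c - (𝔞.qv p q).δ φ) j a u =
      γ j (a.1 • fΛ Sg (𝔞.pc K p) u - σ j.1 (a.1 • 𝔞.inc p u)) := by
    rw [map_sub, hγ j a u hu, ← inc_act, cb_sub, cb_δ, hb, hφ, LinearMap.zero_apply, map_zero,
      zero_sub, LinearMap.neg_apply, neg_neg]
    rfl
  rw [e]
  obtain h1 | ⟨k, hk, e1, ha⟩ := arw_cases a.2
  · rw [h1, zero_smul, zero_smul, map_zero, sub_zero, map_zero]; exact zero_mem _
  have := JJ_big (j := j) (by omega)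
  obtain ⟨k, rfl⟩ : ∃ k', k = k' + 3 := ⟨k - 3, by omega⟩
  have h2 := hσ _ _ e1 _ (arw_smul a.2 (mem_pc.1 hu))
  obtain ⟨b, hb, e2⟩ := exists_πK le hr (k := k)
    (sub_mem (smul_PP (add_zero _).symm ha (fΛ_mem u)) h2.1)
    (by rw [map_sub, h2.2, map_smul, πU_fΛ hu, sub_self])
  rw [← e2]
  exact key j k (by omega) b hb
omit hψ in
lemma exists_Θ {θ : (𝔞.HG 𝔞 p).V} (h : θ ∈ 𝔞.Hb 𝔞 K K p) :
    ∃ Θ : ℕ → (Ix (𝔞.pc K p) → Sg.F) →ₗ[ℂ] 𝔞.M, Θ p = 0 ∧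
      (∀ (j : ℕ) x, Θ j x ∈ Gm 𝔞.O.toLat j) ∧ ∀ j k : ℕ, j = k + (3 + p) → ∀ b ∈ PP Sg _ k,
        Θ j (πK 𝔞 K p b) - ψθ 𝔞 𝔞 K p θ b ∈ Gm K.toLat j := by
  choose s s1 s2 using fun k => exists_sec ((πK 𝔞 K p).restrictScalars ℂ) (PP Sg _ k)
  refine ⟨fun j => if 3 + p ≤ j then (ψθ 𝔞 𝔞 K p θ).restrictScalars ℂ ∘ₗ s (j - (3 + p)) else 0,
    if_neg (by omega), fun j x => ?_, ?_⟩
  · by_cases hj : 3 + p ≤ j
    · simp only [if_pos hj]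
      exact lc_mem (Nat.sub_add_cancel hj).symm (fun _ => inc_mem_O _ _) (s1 _ x)
    · simp only [if_neg hj]
      exact zero_mem _
  · rintro _ k rfl b hb
    simp only [if_pos (Nat.le_add_left _ _), Nat.add_sub_cancel]
    have := hb_iff.1 (h k) _ (sub_mem (s1 k (πK 𝔞 K p b)) hb)
      ((map_sub _ _ _).trans (sub_eq_zero.2 (s2 k b hb)))
    rwa [map_sub] at this
omit hψ in
lemma exists_c (σ : ℕ → 𝔞.M →ₗ[ℂ] (Ix (𝔞.pc K p) → Sg.F))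
    {Θ : ℕ → (Ix (𝔞.pc K p) → Sg.F) →ₗ[ℂ] 𝔞.M} (Θ1 : ∀ (j : ℕ) x, Θ j x ∈ Gm 𝔞.O.toLat j)
    (j j' : ℕ) : ∃ c : Arw Sg j j' →ₗ[ℂ] (𝔞.G j).V →ₗ[ℂ] (𝔞.G j').V, ∀ a u, 𝔞.inc j' (c a u) =
      Θ j' (a.1 • σ j (𝔞.inc j u)) - a.1 • Θ j (σ j (𝔞.inc j u)) := by
  obtain ⟨r, -, hr⟩ := exists_lam 𝔞 j'
  exact ⟨LinearMap.mk₂ ℂ (fun (a : Arw Sg j j') u =>
      r (Θ j' (a.1 • σ j (𝔞.inc j u)) - a.1 • Θ j (σ j (𝔞.inc j u))))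
    (fun a a' u => by simp only [Submodule.coe_add, add_smul, map_add, map_sub]; abel)
    (fun t a u => by simp only [Submodule.coe_smul, smul_assoc, map_smul, ← smul_sub])
    (fun a u u' => by simp only [smul_add, map_add, map_sub]; abel)
    fun t a u => by simp only [map_smul, smul_comm a.1 t, ← smul_sub],
    fun a u => hr _ (sub_mem (Θ1 _ _) (arw_smul a.2 (Θ1 _ _)))⟩
/-- every element of `Hb` comes from a cocycle -/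
lemma exists_coc (le : LeL K 𝔞.O) (hr : RegL K.toLat p) {θ : (𝔞.HG 𝔞 p).V}
    (h : θ ∈ 𝔞.Hb 𝔞 K K p) : ∃ c ∈ (𝔞.qv p q).Zc (𝔞.pcs p q K), θ - ψ c ∈ 𝔞.den 𝔞 K K p := by
  obtain ⟨σ, hσ, σ0⟩ := exists_σ le hr
  obtain ⟨Θ, Θ0, Θ1, Θ2⟩ := exists_Θ h
  choose c' hc' using exists_c σ Θ1
  obtain ⟨c, hc⟩ : ∃ c : (𝔞.qv p q).C.V, ∀ j j', cv c j j' = c' j.1 j'.1 :=
    ⟨fun e => c' e.1.1 e.2.1, fun _ _ => rfl⟩
  refine ⟨c, mem_Zc.2 fun j j' j'' a a' a'' e u hu => ?_, mem_homMap_fu.2 fun a => ?_⟩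
  · have e1 : 𝔞.inc j''.1 (cv c j j'' a'' u - 𝔞.act j'.1 j''.1 a (cv c j j' a' u) -
        cv c j' j'' a (𝔞.act j.1 j'.1 a' u)) =
        Θ j''.1 (a.1 • (a'.1 • σ j.1 (𝔞.inc j.1 u) - σ j'.1 (a'.1 • 𝔞.inc j.1 u))) -
        a.1 • Θ j'.1 (a'.1 • σ j.1 (𝔞.inc j.1 u) - σ j'.1 (a'.1 • 𝔞.inc j.1 u)) := by
      rw [map_sub, map_sub, inc_act, hc, hc, hc, hc', hc', hc', inc_act, e]
      simp only [mul_smul, smul_sub, map_sub]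
      abel
    rw [mem_pc, e1]
    obtain h1 | ⟨k', hk', e', ha'⟩ := arw_cases a'.2
    · simp only [h1, zero_smul, map_zero, sub_zero, smul_zero, zero_mem]
    obtain h1 | ⟨k'', -, e'', ha⟩ := arw_cases a.2
    · simp only [h1, zero_smul, map_zero, sub_zero, zero_mem]
    have hj := j.le
    have := JJ_big (j := j') (by omega)
    obtain ⟨k, ek⟩ : ∃ k, j'.1 = k + (3 + p) := ⟨j'.1 - (3 + p), by omega⟩
    have h2 := hσ _ _ (Nat.sub_add_cancel hj).symm _ (mem_pc.1 hu)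
    have h3 := hσ j'.1 (k + 3) (by omega) _ (arw_smul a'.2 (mem_pc.1 hu))
    obtain ⟨b, hb, e2⟩ := exists_πK le hr (k := k)
      (sub_mem (smul_PP (by omega) ha' h2.1) h3.1)
      (by rw [map_sub, h3.2, map_smul, h2.2, sub_self])
    have h4 := sub_mem (Θ2 j''.1 (k'' + k) (by omega) _ (smul_PP rfl ha hb))
      (arw_smul a.2 (Θ2 j'.1 k ek b hb))
    rwa [map_smul (πK 𝔞 K p), map_smul (ψθ 𝔞 𝔞 K p θ), smul_sub, sub_sub_sub_cancel_right,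
      e2] at h4
  · have e0 : cb3 hq c = c' p (3 + p) := hc (JJ.bot p q) (j3 hq)
    have e1 : ∀ t : (𝔞.G p).V ⊗[ℂ] SA Sg 3,
        𝔞.inc (3 + p) (ψ c t) = Θ (3 + p) (Hm.co (𝔞.pc K p) 3 t) := fun t => by
      induction t using TensorProduct.induction_on with
      | zero => simp only [map_zero]
      | add s s' h h' => simp only [map_add, h, h']
      | tmul w a =>
        rw [hψ, e0, hc', Θ0, LinearMap.zero_apply, smul_zero, sub_zero, σ0]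
        rfl
    have h1 := Θ2 (3 + p) 0 (zero_add _).symm (Pi.single a 1) (mem_PP.2 fun l => by
      rw [Pi.single_apply]
      split_ifs
      exacts [one_mem_SA, zero_mem _])
    rw [Fintype.linearCombination_apply_single, Fintype.linearCombination_apply_single, one_smul,
      one_smul, ← e1, ← map_sub, ← neg_mem_iff, ← map_neg, neg_sub] at h1
    exact h1
end tools

variable (le : LeL K 𝔞.O) (hr : RegL K.toLat p) (hp : 2 ≤ p) (hq : 5 + p ≤ q)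
include le hr hp hq
/-- a module homomorphism `K → O/K` in the degrees `JJ` is multiplicative in degree `p` -/
theorem mem_Tv_of_δ {φ : (Quiv.En (𝔞.GJ p q)).V}
    (h : (𝔞.qv p q).δ φ ∈ (𝔞.qv p q).den (𝔞.pcs p q K)) : φ (JJ.bot p q) ∈ 𝔞.Tv 𝔞 K K p := by
  have _ := le; have _ := hr; have _ := hp
  obtain ⟨ψ, -, hψ⟩ := exists_toH (𝔞 := 𝔞) (p := p) (q := q) (by omega)
  replace hψ : IsH (by omega) ψ := hψ
  intro s hs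
  have := toH_den hψ h hs.1
  rwa [toH_δ hψ, mul_KK hs, map_zero, sub_zero] at this
/-- and it is determined by its degree `p` part (`map_mul_pc`) -/
theorem mem_stabs_of_δ {φ : (Quiv.En (𝔞.GJ p q)).V}
    (h : (𝔞.qv p q).δ φ ∈ (𝔞.qv p q).den (𝔞.pcs p q K))
    (h0 : φ (JJ.bot p q) ∈ 𝔞.stab 𝔞 K K p) : φ ∈ 𝔞.stabs p q K := by
  have _ := hp; have _ := hq
  refine mem_stabs.2 fun j u hu => ?_
  obtain rfl | hj := j.cases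
  · exact h0 u hu
  obtain ⟨b, rfl⟩ := exists_sum le hr (show p < j.1 by omega) hu
  rw [map_sum]
  refine Submodule.sum_mem _ fun l _ => ?_
  have h1 : cb _ j (b l) _ ∈ _ := mem_den.1 h (JJ.bot p q) j (b l) _ (fu_mem _ l)
  have h2 : eb φ _ ∈ 𝔞.pc K p := h0 _ (fu_mem _ l)
  have h3 := sub_mem (act_mem (b l) h2) h1
  rwa [cb_δ, sub_sub_cancel] at h3
omit le hr hp hq in
theorem δ_mem_den_of_stabs {φ : (Quiv.En (𝔞.GJ p q)).V} (h : φ ∈ 𝔞.stabs p q K) :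
    (𝔞.qv p q).δ φ ∈ (𝔞.qv p q).den (𝔞.pcs p q K) := mem_den.2 fun j j' a u hu =>
  sub_mem (act_mem a (mem_stabs.1 h j u hu)) (mem_stabs.1 h j' _ (act_mem a hu))
/-- `0 → ⊕_{j > p} Hom(U_j, F_j) → Zc / den → Hb / den → 0`.
Kernel: if `c (p, 3+p)` is zero on `KK 3` then `c (p, k+p)` is zero on `KK k = A KK 3` (cocycle
relation), so it factors as `-φ_(k+p) ∘ mul` on `U_p ⊗ A_k` modulo `U`; `c - δ φ` vanishes on the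
arrows from `p`, hence everywhere (`U_j = A U_p`).  Image: cocycles give the relations of degree two
(`mem_Hb_of_two`); conversely `θ ∈ Hb` defines `θ_k` on `KK k`, `k ≥ 3`, modulo `U` (`map_mm_KK`);
extend `θ_k` linearly to `c (p, k+p)` and put `c (j, j') a (a' u) = c (a a') u - a c (a') u`
(through a linear section of `U_p ⊗ A_(j-p) → U_j`). -/
theorem ses_coc {ψ : (𝔞.qv p q).C.V →ₗ[ℂ] (𝔞.HG 𝔞 p).V} (hψ : ∀ c w (a : SA Sg 3),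
      ψ c (w ⊗ₜ a) = c (JJ.bot p q, JJ.mk' 3 le_rfl (by omega))
        ⟨a.1, (Arw_add p three_pos).ge a.2⟩ w) :
    SqInj (V := Quiv.En (𝔞.GJ p q)) (W := (𝔞.qv p q).C) (𝔞.En1 p q) (𝔞.En1 p q ⊓ 𝔞.stabs p q K)
      ((𝔞.qv p q).den (𝔞.pcs p q K)) (𝔞.qv p q).δ ∧
    SqEx (V := Quiv.En (𝔞.GJ p q)) (W := (𝔞.qv p q).C) (U := 𝔞.HG 𝔞 p) (𝔞.En1 p q)
      ((𝔞.qv p q).Zc (𝔞.pcs p q K)) ((𝔞.qv p q).den (𝔞.pcs p q K)) (𝔞.den 𝔞 K K p)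
      (𝔞.qv p q).δ ψ ∧
    SqSurj (V := (𝔞.qv p q).C) (W := 𝔞.HG 𝔞 p) ((𝔞.qv p q).Zc (𝔞.pcs p q K)) (𝔞.Hb 𝔞 K K p)
      (𝔞.den 𝔞 K K p) ψ := by
  replace hψ : IsH (by omega) ψ := hψ
  refine ⟨le_antisymm (fun φ h => ⟨h.1, mem_stabs_of_δ le hr hp hq h.2
      ((mem_En1.1 h.1).symm.subst (motive := (· ∈ 𝔞.stab 𝔞 K K p)) (zero_mem _))⟩)
    fun φ h => ⟨h.1, δ_mem_den_of_stabs h.2⟩, le_antisymm (sup_le ?_ ?_) ?_,
    le_antisymm (sup_le ?_ den_le_Hb) ?_⟩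
  · rintro _ ⟨φ, hφ, rfl⟩
    refine ⟨Quiv.δ_mem_Zc _ _ _, fun s hs => ?_⟩
    rw [toH_δ hψ, mul_KK hs, mem_En1.1 hφ, map_zero, map_zero, LinearMap.zero_apply, sub_zero]
    exact zero_mem _
  · exact fun c hc => ⟨Quiv.den_le_Zc _ (𝔞.isSub_pcs p q K) hc, fun s hs => toH_den hψ hc hs.1⟩
  · intro c hc
    obtain ⟨φ, hφ, h⟩ := exists_δ hψ le hr hc.1 hc.2
    exact Submodule.mem_sup.2 ⟨_, ⟨φ, hφ, rfl⟩, _, h, add_sub_cancel _ _⟩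
  · rintro _ ⟨c, hc, rfl⟩
    exact toH_mem_Hb hψ le hr hq hc
  · intro θ h
    obtain ⟨c, hc, h⟩ := exists_coc hψ le hr h
    exact Submodule.mem_sup.2 ⟨_, ⟨c, hc, rfl⟩, _, h, add_sub_cancel _ _⟩
end Amb

namespace LFam
variable {X : Spc} {L : Pt → XL Sg 𝔞.M}
lemma isAB_pcs (h : LFam 𝔞 X p L) (j : JJ p q) :
    IsAB X (𝔞.GJ p q j) fun x => 𝔞.pcs p q (L x) j := h.ab _ j.le
lemma isAB_stabs (h : LFam 𝔞 X p L) : IsAB X (Quiv.En (𝔞.GJ p q)) fun x => 𝔞.stabs p q (L x) :=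
  IsAB.pi fun j => (h.isAB_pcs j).homMap (h.isAB_pcs j)
/-- kernel and image of a coordinate projection -/
lemma proj_aux {J : Type} [Fintype J] [DecidableEq J] {V : J → GV} {P : ∀ j, Pt → Submodule ℂ (V j).V}
    (h : ∀ j, IsAB X (V j) (P j)) (o : J) :
    (IsAB X (GV.pi V) fun x => LinearMap.ker (LinearMap.proj (R := ℂ) (φ := fun j => (V j).V) o) ⊓
      Submodule.pi Set.univ fun j => P j x) ∧ ∑ j, kc X (V j) (P j) =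
      kc X (GV.pi V) (fun x => LinearMap.ker (LinearMap.proj (R := ℂ) (φ := fun j => (V j).V) o) ⊓
        Submodule.pi Set.univ fun j => P j x) + kc X (V o) (P o) := by
  have hφ : IsRM X (GV.pi V) (V o) fun _ => LinearMap.proj o := IsRM.const fun _ => rfl
  have hm := (h o).congr (L' := fun x => (Submodule.pi Set.univ fun j => P j x).map
    (LinearMap.proj (R := ℂ) (φ := fun j => (V j).V) o)) fun x _ => (map_proj_pi (fun j => P j x) o).symm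
  refine ⟨((IsAB.pi h).ker_of_map hφ hm).congr fun _ _ => inf_comm _ _, ?_⟩
  rw [← kc_pi h, kc_map (IsAB.pi h) hφ hm]
  exact congrArg₂ _ (kc_congr fun _ _ => inf_comm _ _)
    (kc_congr fun x _ => map_proj_pi (fun j => P j x) o)
lemma in_En (X : Spc) (j : JJ p q) : ((𝔞.GJ p q j).hom (𝔞.GJ p q j)).In X.B :=
  (𝔞.in_G _ _).hom (𝔞.in_G _ _)
lemma isAB_En1 (X : Spc) : IsAB X (Quiv.En (𝔞.GJ p q)) fun _ => 𝔞.En1 p q :=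
  (proj_aux (fun j => IsAB.top (in_En X j)) (JJ.bot p q)).1.congr fun _ _ => by
    rw [Submodule.pi_top, inf_top_eq]; rfl
lemma isAB_En1_inf (h : LFam 𝔞 X p L) :
    IsAB X (Quiv.En (𝔞.GJ p q)) fun x => 𝔞.En1 p q ⊓ 𝔞.stabs p q (L x) :=
  (proj_aux (fun j => (h.isAB_pcs j).homMap (h.isAB_pcs j)) (JJ.bot p q)).1
/-- cogenerated (`cog_Zc`) of locally constant rank (`ses_coc`, `isAB_Hb`) -/
theorem isAB_Zc (h : LFam 𝔞 X p L) (hq : 5 + p ≤ q) :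
    IsAB X (𝔞.qv p q).C fun x => (𝔞.qv p q).Zc (𝔞.pcs p q (L x)) := by
  obtain ⟨ψ, -, hψ⟩ := Amb.exists_toH (𝔞 := 𝔞) (p := p) (q := q) (by omega)
  exact isAB_mid (φ := fun _ => (𝔞.qv p q).δ) (ψ := fun _ => ψ) (isAB_En1 X) h.isAB_En1_inf
    ((𝔞.qv p q).cog_Zc h.isAB_pcs) ((𝔞.qv p q).eqv_Zc h.isAB_pcs) ((𝔞.qv p q).isAB_den h.isAB_pcs)
    (h.isAB_Hb h) (h.isAB_den h) fun x hx => Amb.ses_coc (h.le x hx) (h.reg x hx) h.two hq hψ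
/-- `kq3`, `kc_pi`, `kq_hom_top` -/
theorem kc_Zc (h : LFam 𝔞 X p L) (hq : 5 + p ≤ q) :
    kc X (𝔞.qv p q).C (fun x => (𝔞.qv p q).Zc (𝔞.pcs p q (L x))) -
      kc X (𝔞.qv p q).C (fun x => (𝔞.qv p q).den (𝔞.pcs p q (L x))) + hmc 𝔞 𝔞 X p L L =
    ∑ j : JJ p q, K.dual X (ucl 𝔞 X L j.1) * (kc X (𝔞.G j.1) (fun _ => ⊤) - ucl 𝔞 X L j.1) +
      hbc 𝔞 𝔞 X p L L := by
  obtain ⟨ψ, d0, hψ⟩ := Amb.exists_toH (𝔞 := 𝔞) (p := p) (q := q) (by omega)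
  have h1 := kq3 (isAB_En1 X) h.isAB_En1_inf (h.isAB_Zc hq) ((𝔞.qv p q).isAB_den h.isAB_pcs)
    (h.isAB_Hb h) (h.isAB_den h) (IsRM.const (𝔞.qv p q).deg0_δ) (IsRM.const d0)
    fun x hx => Amb.ses_coc (h.le x hx) (h.reg x hx) h.two hq hψ
  have h2 := (proj_aux (fun j => IsAB.top (in_En (𝔞 := 𝔞) X j)) (JJ.bot p q)).2
  have h3 := (proj_aux (fun j => (h.isAB_pcs j).homMap (h.isAB_pcs j)) (JJ.bot p q)).2
  have h4 : ∑ j : JJ p q, K.dual X (ucl 𝔞 X L j.1) * (kc X (𝔞.G j.1) (fun _ => ⊤) - ucl 𝔞 X L j.1) =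
      _ := (Finset.sum_congr rfl fun j _ =>
        (kq_hom_top (h.isAB_pcs j) (h.isAB_pcs j)).symm).trans (Finset.sum_sub_distrib _ _)
  rw [h2, h3, kc_congr (L' := fun _ => 𝔞.En1 p q) fun _ _ => by
    rw [Submodule.pi_top, inf_top_eq]; rfl, add_sub_add_comm] at h4
  rw [h1, h4, add_right_comm]
  rfl
end LFam

end Crest.Agent.N265.M
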