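import Crest.Agent.N265.Q.Defs
import Crest.Agent.N265.Fib.H2

/-! # Row 265, task Q-COC, tools: first and second syzygies in coordinates -/

set_option autoImplicit false
set_option linter.dupNamespace false
noncomputable section
open MvPolynomial Module TensorProduct

namespace Crest.Agent.N265.M.Cc
open Crest.Agent.R274
open Defs_781 Lat_781 SnapA_99 SnapB_99 SnapE_99 Gen7_750 Xs1_781 SkDefs_474
open Alg Br N Fib Fib.Hz Hm Hx _root_.Crest.Agent.N265.Pow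

section LA
variable {E F : Type} [AddCommGroup E] [Module ℂ E] [AddCommGroup F] [Module ℂ F]
/-- a linear section on a subspace -/
lemma exists_sec (f : E →ₗ[ℂ] F) (P : Submodule ℂ E) :
    ∃ s : F →ₗ[ℂ] E, (∀ y, s y ∈ P) ∧ ∀ x ∈ P, f (s (f x)) = f x := by
  obtain ⟨s, hs⟩ := (f.domRestrict P).rangeRestrict.exists_rightInverse_of_surjective
    (LinearMap.range_rangeRestrict _)
  obtain ⟨g, hg⟩ := s.exists_extend
  refine ⟨P.subtype ∘ₗ g, fun y => (g y).2, fun x hx => ?_⟩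
  have h1 := LinearMap.congr_fun hg ⟨f x, ⟨x, hx⟩, rfl⟩
  have h2 := congrArg Subtype.val (LinearMap.congr_fun hs ⟨f x, ⟨x, hx⟩, rfl⟩)
  exact (congrArg (fun z : P => f z) h1).trans h2
lemma exists_ret (P : Submodule ℂ E) : ∃ r : E →ₗ[ℂ] P, ∀ x : P, r x = x :=
  (P.subtype.exists_leftInverse_of_injective P.ker_subtype).imp fun _ h => LinearMap.congr_fun h
lemma map_proj_pi {ι : Type} [DecidableEq ι] {M : ι → Type} [∀ i, AddCommGroup (M i)]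
    [∀ i, Module ℂ (M i)] (P : ∀ i, Submodule ℂ (M i)) (i : ι) :
    (Submodule.pi Set.univ P).map (LinearMap.proj i) = P i := by
  refine le_antisymm (Submodule.map_le_iff_le_comap.2 fun x hx => hx i trivial) fun v hv =>
    ⟨Pi.single i v, fun j _ => ?_, Pi.single_eq_same i v⟩
  by_cases h : j = i
  · subst h; rwa [Pi.single_eq_same]
  · rw [Pi.single_eq_of_ne h]; exact zero_mem _
end LA

/-- the middle term of a short exact sequence of subquotients -/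
theorem isAB_mid {X : Spc} {U V W : GV} {L L' : Pt → Submodule ℂ V.V} {M M' : Pt → Submodule ℂ W.V}
    {N N' : Pt → Submodule ℂ U.V} {φ : Pt → V.V →ₗ[ℂ] W.V} {ψ : Pt → W.V →ₗ[ℂ] U.V}
    (h : IsAB X V L) (h' : IsAB X V L') (hc : CogA X M) (he : Eqv X W M) (hM' : IsAB X W M')
    (hN : IsAB X U N) (hN' : IsAB X U N')
    (e : ∀ x ∈ X.pts, SqInj (L x) (L' x) (M' x) (φ x) ∧
      SqEx (L x) (M x) (M' x) (N' x) (φ x) (ψ x) ∧ SqSurj (M x) (N x) (N' x) (ψ x)) :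
    IsAB X W M := by
  have key : ∀ x ∈ X.pts, finrank ℂ (M x) + finrank ℂ (L' x) + finrank ℂ (N' x) =
      finrank ℂ (L x) + finrank ℂ (M' x) + finrank ℂ (N x) := fun x hx => by
    have h1 := finrank_inf_comap_add (L x) (M' x) (φ x)
    have h2 := finrank_inf_comap_add (M x) (N' x) (ψ x)
    rw [(e x hx).1, (e x hx).2.1] at h1
    rw [(e x hx).2.2] at h2
    omega
  refine ⟨hM'.hin, hc.alg_of_usc fun x hx => ?_, he⟩
  obtain ⟨r, h0, hr⟩ := ((h.lc.prod h'.lc).prod (hM'.lc.prod (hN.lc.prod hN'.lc))) x hx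
  refine ⟨r, h0, fun y hy hy' => ?_⟩
  have h1 := hr y hy hy'
  have h2 := key x hx
  have h3 := key y hy
  simp only [Prod.mk.injEq] at h1 ⊢
  omega

section chase
variable {F V V' : Type} [Field F] [AddCommGroup V] [Module F V] [AddCommGroup V'] [Module F V']
  (t : Fin 3 → F) (π : V' →ₗ[F] V)
lemma map_kos2 (y : Fin 3 → V') (i : Fin 3) :
    π (kos2 V' t y i) = kos2 V t (fun i => π (y i)) i := by
  rw [kos2_apply, kos2_apply, map_sub, map_smul, map_smul]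
lemma map_kos3 (z : Fin 3 → V') : π (kos3 V' t z) = kos3 V t fun i => π (z i) := by
  simp only [kos3_apply, map_sum, map_smul]
end chase

variable {Sg : Surf} {𝔞 𝔟 : Amb Sg} {K : XL Sg 𝔞.M} {K' : XL Sg 𝔟.M} {p k : ℕ}

lemma arw_cases {j j' : ℕ} {a : Sg.F} (ha : a ∈ Arw Sg j j') :
    a = 0 ∨ ∃ k, 0 < k ∧ j' = k + j ∧ a ∈ SA Sg k := by
  rcases lt_or_ge j j' with h | h
  · exact Or.inr ⟨j' - j, by omega, by omega, (Arw_of_lt h).le ha⟩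
  · exact Or.inl ((Arw_of_le h).le ha)
lemma mem_arw {j j' k : ℕ} (h : j' = k + j) (hk : 0 < k) {a : Sg.F} (ha : a ∈ SA Sg k) :
    a ∈ Arw Sg j j' := h ▸ (Arw_add j hk).ge ha
lemma arw_arw {j j' j'' : ℕ} {a a' : Sg.F} (ha : a ∈ Arw Sg j' j'') (ha' : a' ∈ Arw Sg j j') :
    a * a' ∈ Arw Sg j j'' := by
  obtain rfl | ⟨k, hk, rfl, h⟩ := arw_cases ha
  · rw [zero_mul]; exact zero_mem _
  obtain rfl | ⟨k', -, rfl, h'⟩ := arw_cases ha'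
  · rw [mul_zero]; exact zero_mem _
  exact mem_arw (add_assoc _ _ _).symm (by omega) (SA_mul Sg h h')
lemma SA_smul {M : Type} [AddCommGroup M] [Module ℂ M] [Module Sg.F M] [IsScalarTower ℂ Sg.F M]
    {L : XL Sg M} {j j' k : ℕ} (e : j' = k + j) {a : Sg.F} (ha : a ∈ SA Sg k) {m : M}
    (hm : m ∈ Gm L.toLat j) : a • m ∈ Gm L.toLat j' := by
  rw [e, Nat.cast_add]; exact AA_smul_mem (mem_SA.1 ha) hm
lemma arw_smul {M : Type} [AddCommGroup M] [Module ℂ M] [Module Sg.F M] [IsScalarTower ℂ Sg.F M]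
    {L : XL Sg M} {j j' : ℕ} {a : Sg.F} (ha : a ∈ Arw Sg j j') {m : M} (hm : m ∈ Gm L.toLat j) :
    a • m ∈ Gm L.toLat j' := by
  obtain rfl | ⟨k, -, e, h⟩ := arw_cases ha
  · rw [zero_smul]; exact zero_mem _
  · exact SA_smul e h hm
lemma act_mem {j j' : ℕ} (a : Arw Sg j j') {u : (𝔞.G j).V} (hu : u ∈ 𝔞.pc K j) :
    𝔞.act j j' a u ∈ 𝔞.pc K j' := by
  rw [Amb.mem_pc, Amb.inc_act]; exact arw_smul a.2 hu
lemma one_mem_SA : (1 : Sg.F) ∈ SA Sg 0 := mem_SA.2 one_mem_AA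
lemma const_of_mem {a : Sg.F} (h : a ∈ SA Sg 0) : ∃ c : ℂ, a = c • (1 : Sg.F) := by
  have := mem_SA.1 h
  rw [Nat.cast_zero, AA_zero, Submodule.mem_one] at this
  exact this.imp fun c e => by rw [← e, Algebra.algebraMap_eq_smul_one]

variable (Sg) in
/-- vectors of forms of degree `k` -/
def PP (ι : Type) (k : ℕ) : Submodule ℂ (ι → Sg.F) := Submodule.pi Set.univ fun _ => SA Sg k
lemma mem_PP {ι : Type} {c : ι → Sg.F} : c ∈ PP Sg ι k ↔ ∀ a, c a ∈ SA Sg k :=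
  ⟨fun h a => h a trivial, fun h a _ => h a⟩
lemma smul_PP {ι : Type} {c : ι → Sg.F} {j k' : ℕ} (e : j = k' + k) {a : Sg.F} (ha : a ∈ SA Sg k')
    (h : c ∈ PP Sg ι k) : a • c ∈ PP Sg ι j :=
  mem_PP.2 fun l => e ▸ SA_mul Sg ha (mem_PP.1 h l)
lemma mem_PP' {ι : Type} [Finite ι] {c : ι → Sg.F} :
    c ∈ PP Sg ι k ↔ c ∈ Gm (OP Sg.V.X ι).toLat k :=
  mem_PP.trans ((forall_congr' fun _ => mem_SA).trans mem_Gm_OP.symm)
lemma lc_mem {ι M : Type} [Fintype ι] [AddCommGroup M] [Module ℂ M] [Module Sg.F M]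
    [IsScalarTower ℂ Sg.F M] {L : XL Sg M} {j j' : ℕ} (e : j' = k + j) {φ : ι → M}
    (hφ : ∀ a, φ a ∈ Gm L.toLat j) {c : ι → Sg.F} (h : c ∈ PP Sg ι k) :
    Fintype.linearCombination Sg.F φ c ∈ Gm L.toLat j' :=
  Submodule.sum_mem _ fun a _ => SA_smul e (mem_PP.1 h a) (hφ a)

variable (𝔞 K p)
/-- `c ↦ ∑ c l • u l` -/
abbrev πU : (Ix (𝔞.pc K p) → Sg.F) →ₗ[Sg.F] 𝔞.M := Fintype.linearCombination Sg.F (gu 𝔞 K p)
/-- the generators of the syzygies -/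
abbrev gk : Ix (𝔞.KK K p 3) → Ix (𝔞.pc K p) → Sg.F := fun a =>
  co (Sg := Sg) (𝔞.pc K p) 3 (fu (V := (WA Sg (𝔞.G p) 3).V) (𝔞.KK K p 3) a)
/-- `b ↦ ∑ b a • κ a` -/
abbrev πK : (Ix (𝔞.KK K p 3) → Sg.F) →ₗ[Sg.F] (Ix (𝔞.pc K p) → Sg.F) :=
  Fintype.linearCombination Sg.F (gk 𝔞 K p)
/-- the same with values in `sW` -/
abbrev πB : (Ix (𝔞.KK K p 3) → Sg.F) →ₗ[Sg.F] sW 𝔞 K p :=
  Fintype.linearCombination Sg.F fun a => cB 𝔞 K p 3 (fu (𝔞.KK K p 3) a)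
variable (𝔟) in
/-- `b ↦ ∑ b a • θ (κ a)` -/
abbrev ψθ (θ : (𝔞.HG 𝔟 p).V) : (Ix (𝔞.KK K p 3) → Sg.F) →ₗ[Sg.F] 𝔟.M :=
  Fintype.linearCombination Sg.F fun a => 𝔟.inc (3 + p) (θ (fu (𝔞.KK K p 3) a))
variable {𝔞 K p}

lemma πB_coe (b : Ix (𝔞.KK K p 3) → Sg.F) : (πB 𝔞 K p b).1 = πK 𝔞 K p b := by
  simp only [Fintype.linearCombination_apply, AddSubmonoidClass.coe_finsetSum, Submodule.coe_smul,
    cB_coe (fu_mem (𝔞.KK K p 3) _)]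
lemma co_mm' {t : (WA Sg (𝔞.G p) 3).V ⊗[ℂ] SA Sg k} (ht : t ∈ tens (𝔞.KK K p 3) ⊤) :
    co (𝔞.pc K p) (k + 3) (mm _ 3 k t) = πK 𝔞 K p (co (𝔞.KK K p 3) k t) :=
  (mF_mm _ t).trans (mF_co (V := (WA Sg (𝔞.G p) 3).V) (mF (fΛ Sg (𝔞.pc K p)) 3) ht)
lemma inc_mul_rT (θ : (𝔞.HG 𝔟 p).V) {t : (WA Sg (𝔞.G p) 3).V ⊗[ℂ] SA Sg k}
    (ht : t ∈ tens (𝔞.KK K p 3) ⊤) : 𝔟.inc _ (𝔟.mul (3 + p) k (LinearMap.rTensor _ θ t)) =
      ψθ 𝔞 𝔟 K p θ (co (𝔞.KK K p 3) k t) := by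
  rw [Amb.inc_mul, mF_rT, mF_co _ ht]; rfl
lemma mm_mem_KK {t : (WA Sg (𝔞.G p) 3).V ⊗[ℂ] SA Sg k} (ht : t ∈ tens (𝔞.KK K p 3) ⊤) :
    mm _ 3 k t ∈ 𝔞.KK K p (k + 3) :=
  mem_KK.2 ⟨mm_mem inf_le_left ht, by rw [co_mm' ht, ← πB_coe]; exact Subtype.prop _⟩
/-- the condition `Hb` in degree `k`, in coordinates -/
lemma hb_iff {θ : (𝔞.HG 𝔟 p).V} :
    (∀ t : (WA Sg (𝔞.G p) 3).V ⊗[ℂ] SA Sg k, t ∈ tens (𝔞.KK K p 3) ⊤ → mm _ 3 k t = 0 →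
      𝔟.mul (3 + p) k (LinearMap.rTensor _ θ t) ∈ 𝔟.pc K' (k + (3 + p))) ↔
    ∀ b ∈ PP Sg (Ix (𝔞.KK K p 3)) k, πK 𝔞 K p b = 0 →
      ψθ 𝔞 𝔟 K p θ b ∈ Gm K'.toLat (k + (3 + p) : ℕ) := by
  refine ⟨fun h b hb h0 => ?_, fun h t ht h0 => ?_⟩
  · obtain ⟨t, ht, rfl⟩ := exists_co (mem_PP.1 hb)
    rw [← inc_mul_rT θ ht]
    exact h t ht (co_inj (mm_mem inf_le_left ht) ((co_mm' ht).trans h0))
  · rw [Amb.mem_pc, inc_mul_rT θ ht]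
    exact h _ (mem_PP.2 (co_mem _ t)) (by rw [← co_mm' ht, h0, map_zero])
lemma fΛ_mem (u : (𝔞.G p).V) : fΛ Sg (𝔞.pc K p) u ∈ PP Sg _ 0 := mem_PP.2 fun l => by
  have := co_mem (𝔞.pc K p) (u ⊗ₜ (⟨1, one_mem_SA⟩ : SA Sg 0)) l
  rwa [co, mF_tmul, one_smul] at this
lemma πU_co {t : (𝔞.G p).V ⊗[ℂ] SA Sg k} (ht : t ∈ tens (𝔞.pc K p) ⊤) :
    πU 𝔞 K p (co (𝔞.pc K p) k t) = mF (𝔞.inc p) k t := (mF_co _ ht).symm
lemma πU_fΛ {u : (𝔞.G p).V} (hu : u ∈ 𝔞.pc K p) : πU 𝔞 K p (fΛ Sg (𝔞.pc K p) u) = 𝔞.inc p u := by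
  have := πU_co (K := K) (tmul_mem hu (Submodule.mem_top (x := (⟨1, one_mem_SA⟩ : SA Sg 0))))
  rwa [co, mF_tmul, mF_tmul, one_smul, one_smul] at this
lemma exists_lam (𝔞 : Amb Sg) (j : ℕ) : ∃ r : 𝔞.M →ₗ[ℂ] (𝔞.G j).V, (∀ w, r (𝔞.inc j w) = w) ∧
    ∀ m ∈ Gm 𝔞.O.toLat j, 𝔞.inc j (r m) = m := by
  obtain ⟨r, hr⟩ := (𝔞.inc j).exists_leftInverse_of_injective
    (LinearMap.ker_eq_bot.2 (𝔞.inc_inj j))
  refine ⟨r, LinearMap.congr_fun hr, fun m hm => ?_⟩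
  obtain ⟨w, rfl⟩ := (𝔞.range_inc j).ge hm
  exact congrArg _ (LinearMap.congr_fun hr w)
lemma inc_mem_O (j : ℕ) (w : (𝔞.G j).V) : 𝔞.inc j w ∈ Gm 𝔞.O.toLat j :=
  (𝔞.range_inc j).le ⟨w, rfl⟩

variable (le : LeL K 𝔞.O) (hr : RegL K.toLat p)
include le hr
lemma exists_πU {j : ℕ} (e : j = k + p) {m : 𝔞.M} (hm : m ∈ Gm K.toLat j) :
    ∃ c ∈ PP Sg _ k, πU 𝔞 K p c = m := by
  subst e
  obtain ⟨t, ht, rfl⟩ := (Amb.map_mF_pc le hr le_rfl k).ge hm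
  exact ⟨_, mem_PP.2 (co_mem _ t), πU_co ht⟩
/-- the pieces are generated in degree `p` -/
lemma exists_sum {j : ℕ} (hj : p < j) {u : (𝔞.G j).V} (hu : u ∈ 𝔞.pc K j) :
    ∃ b : Ix (𝔞.pc K p) → Arw Sg p j, u = ∑ l, 𝔞.act p j (b l) (fu _ l) := by
  obtain ⟨c, hc, e⟩ := exists_πU le hr (Nat.sub_add_cancel hj.le).symm hu
  refine ⟨fun l => ⟨c l, (Arw_of_lt hj).ge (mem_PP.1 hc l)⟩, 𝔞.inc_inj j ?_⟩
  rw [map_sum, ← e, Fintype.linearCombination_apply]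
  exact Finset.sum_congr rfl fun l _ => (𝔞.inc_act ⟨c l, _⟩ _).symm
/-- linear sections of the multiplication -/
lemma exists_σ : ∃ σ : ℕ → 𝔞.M →ₗ[ℂ] (Ix (𝔞.pc K p) → Sg.F),
    (∀ j k, j = k + p → ∀ m ∈ Gm K.toLat j, σ j m ∈ PP Sg _ k ∧ πU 𝔞 K p (σ j m) = m) ∧
      ∀ u, σ p (𝔞.inc p u) = fΛ Sg (𝔞.pc K p) u := by
  choose s h1 h2 using fun k => exists_sec ((πU 𝔞 K p).restrictScalars ℂ) (PP Sg _ k)
  obtain ⟨r, r1, -⟩ := exists_lam 𝔞 p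
  refine ⟨fun j => if j = p then fΛ Sg _ ∘ₗ r else s (j - p), fun j k e m hm => ?_, fun u => ?_⟩
  · by_cases h : j = p
    · obtain rfl : k = 0 := by omega
      subst h
      obtain ⟨u, hu, rfl⟩ := (Amb.map_pc le j).ge hm
      simp only [if_true, LinearMap.comp_apply, r1]
      exact ⟨fΛ_mem u, πU_fΛ hu⟩
    · obtain ⟨c, hc, rfl⟩ := exists_πU le hr e hm
      simp only [if_neg h, show j - p = k by omega]
      exact ⟨h1 k _, h2 k c hc⟩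
  · simp only [if_true, LinearMap.comp_apply, r1]
lemma exists_πB {y : sW 𝔞 K p} (hy : y ∈ Gm (B0 𝔞 K p).toLat (k + 3 : ℕ)) :
    ∃ t ∈ tens (𝔞.KK K p 3) (⊤ : Submodule ℂ (SA Sg k)), πB 𝔞 K p (co (𝔞.KK K p 3) k t) = y := by
  have h1 := gen_AA (M := B0 𝔞 K p) (fun e he => (reg_B0 le hr).gen he) (e := (3 : ℕ))
    (by norm_num) k
  rw [Nat.cast_add, h1, ← map_cB, ← map_mF] at hy
  obtain ⟨t, ht, rfl⟩ := hy
  exact ⟨t, ht, (mF_co _ ht).symm⟩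
/-- the syzygies are generated in degree three -/
lemma exists_πK {κ : Ix (𝔞.pc K p) → Sg.F} (h : κ ∈ PP Sg _ (k + 3)) (h0 : πU 𝔞 K p κ = 0) :
    ∃ b ∈ PP Sg _ k, πK 𝔞 K p b = κ := by
  obtain ⟨t, -, e⟩ := exists_πB le hr (y := ⟨κ, h0⟩)
    (mem_Gm_capX.2 fun a => mem_SA.1 (mem_PP.1 h a))
  exact ⟨_, mem_PP.2 (co_mem _ t), (πB_coe _).symm.trans (congrArg Subtype.val e)⟩
lemma map_mm (k : ℕ) : (tens (𝔞.KK K p 3) ⊤).map (mm _ 3 k) = 𝔞.KK K p (k + 3) := by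
  refine le_antisymm (Submodule.map_le_iff_le_comap.2 fun t ht => mm_mem_KK ht) fun s hs => ?_
  obtain ⟨t, ht, e⟩ := exists_πB le hr ((map_cB (k + 3)).le ⟨s, hs, rfl⟩)
  refine ⟨t, ht, sub_eq_zero.1 (co_inj (sub_mem (mm_mem_KK ht).1 hs.1) ?_)⟩
  rw [map_sub, co_mm' ht, ← πB_coe, e, cB_coe hs, sub_self]
/-- the second syzygies are generated in degree two -/
lemma rel_gen (hk : 2 ≤ k) {b : Ix (𝔞.KK K p 3) → Sg.F} (hb : b ∈ PP Sg _ (k + 1))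
    (h0 : πK 𝔞 K p b = 0) : ∃ z : Fin 3 → Ix (𝔞.KK K p 3) → Sg.F,
      (∀ i, z i ∈ PP Sg _ k ∧ πK 𝔞 K p (z i) = 0) ∧ kos3 _ Sg.V.X.t z = b := by
  obtain ⟨k, rfl⟩ : ∃ k', k = k' + 1 := ⟨k - 1, by omega⟩
  obtain ⟨z, hz, rfl⟩ := kos_surj3 ((reg_OP Sg _).gen (e := (k + 1 : ℕ)) (by omega))
    (x := b) (by exact_mod_cast mem_PP'.1 hb)
  have h1 : ∀ i, πB 𝔞 K p (z i) ∈ Gm (B0 𝔞 K p).toLat ((k + 2 : ℕ) + 2) := fun i => by
    have := lc_mem (L := B0 𝔞 K p) (j := 3) (j' := k + 4) (by omega)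
      (fun a => (map_cB 3).le ⟨_, fu_mem (𝔞.KK K p 3) a, rfl⟩) (mem_PP'.2 (hz i))
    exact_mod_cast this
  obtain ⟨y, hy, e⟩ := kos_ex2 ((reg_B0 le hr).van one_pos (by omega)) h1
    (Subtype.ext (by rw [← map_kos3, πB_coe]; exact h0))
  choose s _ hs using fun i => exists_πB le hr (k := k) (y := y i) (by exact_mod_cast hy i)
  refine ⟨z - kos2 _ Sg.V.X.t fun i => co _ k (s i), fun i => ⟨sub_mem (mem_PP'.2 (hz i))
    (mem_PP'.2 ?_), ?_⟩, by rw [map_sub, kos3_kos2, sub_zero]⟩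
  · exact_mod_cast kos2_mem (fun i => mem_PP'.1 (mem_PP.2 (co_mem _ (s i)))) i
  · rw [← πB_coe, Pi.sub_apply, map_sub, map_kos2, funext hs, e, sub_self]; rfl
/-- relations of degree two suffice -/
lemma hb_of_two {ψ : (Ix (𝔞.KK K p 3) → Sg.F) →ₗ[Sg.F] 𝔟.M} {m : ℕ}
    (h : ∀ b ∈ PP Sg _ 2, πK 𝔞 K p b = 0 → ψ b ∈ Gm K'.toLat (2 + m : ℕ)) (k : ℕ) :
    ∀ b ∈ PP Sg _ k, πK 𝔞 K p b = 0 → ψ b ∈ Gm K'.toLat (k + m : ℕ) := by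
  rcases le_total 2 k with hk | hk
  · induction k, hk using Nat.le_induction with
    | base => exact h
    | succ k hk ih =>
      intro b hb h0
      obtain ⟨z, hz, rfl⟩ := rel_gen le hr hk hb h0
      rw [map_kos3, show ((k + 1 + m : ℕ) : ℤ) = (k + m : ℕ) + 1 by omega]
      exact kos3_mem fun i => ih _ (hz i).1 (hz i).2
  · induction hk using Nat.decreasingInduction with
    | self => exact h
    | of_succ k _ ih =>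
      refine fun b hb h0 => mem_Gm_of_smul fun i => ?_
      rw [← map_smul, show ((k + m : ℕ) : ℤ) + 1 = (k + 1 + m : ℕ) by omega]
      exact ih _ (smul_PP (add_comm _ _) (pow_one (Sg.V.X.t i) ▸ t_pow_mem_SA i 1) hb)
        (by rw [map_smul, h0, smul_zero])

end Crest.Agent.N265.M.Cc
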