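import Crest.Agent.N265.Q.Defs
import Crest.Agent.N265.M.TV

/-! # Row 265, task Q-COC, family part: the bundle of cocycles and its class -/

set_option autoImplicit false
set_option linter.dupNamespace false
noncomputable section
open MvPolynomial Module TensorProduct

namespace Crest.Agent.N265.M
open Crest.Agent.R274
open Defs_781 Lat_781 SnapA_99 SnapB_99 SnapE_99 Gen7_750 Xs1_781 SkDefs_474
open Alg GV Br N Fib _root_.Crest.Agent.N265.Pow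
variable {Sg : Surf} {𝔞 : Amb Sg} {p q : ℕ}

theorem Amb.exists_toH' (hq : 3 + p ≤ q) : ∃ ψ : (𝔞.qv p q).C.V →ₗ[ℂ] (𝔞.HG 𝔞 p).V,
    Deg0 (𝔞.qv p q).C (𝔞.HG 𝔞 p) ψ ∧ ∀ c w (a : SA Sg 3),
      ψ c (w ⊗ₜ a) = c (JJ.bot p q, JJ.mk' 3 le_rfl hq) ⟨a.1, (Arw_add p three_pos).ge a.2⟩ w := by
  let ψ : (𝔞.qv p q).C.V →ₗ[ℂ] (𝔞.HG 𝔞 p).V :=
    (TensorProduct.lift.equiv (RingHom.id ℂ) (𝔞.G p).V (SA Sg 3) (𝔞.G (3 + p)).V).toLinearMap ∘ₗ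
      LinearMap.lflip.toLinearMap ∘ₗ
      LinearMap.lcomp ℂ _ (Submodule.inclusion (Arw_add (Sg := Sg) p three_pos).ge) ∘ₗ
      LinearMap.proj (R := ℂ) (φ := fun e : JJ p q × JJ p q =>
        ((triv ((𝔞.qv p q).Ar e.1 e.2)).hom ((𝔞.GJ p q e.1).hom (𝔞.GJ p q e.2))).V)
        (JJ.bot p q, JJ.mk' 3 le_rfl hq)
  exact ⟨ψ, fun c => TensorProduct.ext' fun w a => rfl, fun _ _ _ => rfl⟩

namespace Coc2
variable {X : Spc} {L : Pt → XL Sg 𝔞.M}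
open Classical in
/-- forget the lowest degree -/
def cut {M : JJ p q → Type} [∀ j, AddCommGroup (M j)] [∀ j, Module ℂ (M j)] (j : JJ p q)
    (N : Submodule ℂ (M j)) : Submodule ℂ (M j) := if j = JJ.bot p q then ⊥ else N
lemma mem_cut {M : JJ p q → Type} [∀ j, AddCommGroup (M j)] [∀ j, Module ℂ (M j)]
    {N : ∀ j, Submodule ℂ (M j)} {φ : ∀ j, M j} :
    φ ∈ Submodule.pi Set.univ (fun j => cut j (N j)) ↔
      φ (JJ.bot p q) = 0 ∧ φ ∈ Submodule.pi Set.univ N := by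
  simp only [Submodule.mem_pi, Set.mem_univ, true_imp_iff, cut]
  refine ⟨fun h => ?_, fun h j => ?_⟩
  · have h0 : φ (JJ.bot p q) = 0 := by simpa using h (JJ.bot p q)
    refine ⟨h0, fun j => ?_⟩
    by_cases e : j = JJ.bot p q
    · subst e; rw [h0]; exact zero_mem _
    · simpa only [if_neg e] using h j
  · split_ifs with e
    · subst e; exact h.1
    · exact h.2 j
lemma isAB_cut {G : JJ p q → GV} {j : JJ p q} {N : Pt → Submodule ℂ (G j).V} (h : IsAB X (G j) N) :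
    IsAB X (G j) fun x => cut (M := fun j => (G j).V) j (N x) := by
  unfold cut
  split_ifs
  · exact IsAB.bot h.hin
  · exact h
end Coc2
open Coc2

namespace LFam
variable {X : Spc} {L : Pt → XL Sg 𝔞.M} {E₁ : Submodule ℂ (Quiv.En (𝔞.GJ p q)).V}
  {ψ : (𝔞.qv p q).C.V →ₗ[ℂ] (𝔞.HG 𝔞 p).V}
  (h : LFam 𝔞 X p L) (hE : ∀ φ, φ ∈ E₁ ↔ φ (JJ.bot p q) = 0)
  (hψ : Deg0 (𝔞.qv p q).C (𝔞.HG 𝔞 p) ψ)
  (ses : ∀ x ∈ X.pts,
    SqInj (V := Quiv.En (𝔞.GJ p q)) (W := (𝔞.qv p q).C) E₁ (E₁ ⊓ Submodule.pi Set.univ fun j =>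
        homMap (𝔞.pcs p q (L x) j) (𝔞.pcs p q (L x) j))
      ((𝔞.qv p q).den (𝔞.pcs p q (L x))) (𝔞.qv p q).δ ∧
    SqEx (V := Quiv.En (𝔞.GJ p q)) (W := (𝔞.qv p q).C) (U := 𝔞.HG 𝔞 p) E₁
      ((𝔞.qv p q).Zc (𝔞.pcs p q (L x))) ((𝔞.qv p q).den (𝔞.pcs p q (L x)))
      (𝔞.den 𝔞 (L x) (L x) p) (𝔞.qv p q).δ ψ ∧
    SqSurj (V := (𝔞.qv p q).C) (W := 𝔞.HG 𝔞 p) ((𝔞.qv p q).Zc (𝔞.pcs p q (L x)))
      (𝔞.Hb 𝔞 (L x) (L x) p) (𝔞.den 𝔞 (L x) (L x) p) ψ)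
include h in
lemma isAB_hm (j : JJ p q) : IsAB X ((𝔞.GJ p q j).hom (𝔞.GJ p q j)) fun x =>
    homMap (𝔞.pcs p q (L x) j) (𝔞.pcs p q (L x) j) := (h.ab j.1 j.le).homMap (h.ab j.1 j.le)
include hE in
lemma E1_eq : (Submodule.pi Set.univ fun j =>
    cut (M := fun j => ((𝔞.GJ p q j).hom (𝔞.GJ p q j)).V) j ⊤) = E₁ :=
  Submodule.ext fun φ => by rw [mem_cut, hE, Submodule.pi_top, and_iff_left Submodule.mem_top]
include hE in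
lemma E1_inf (N : ∀ j, Submodule ℂ ((𝔞.GJ p q j).hom (𝔞.GJ p q j)).V) :
    (Submodule.pi Set.univ fun j => cut (M := fun j => ((𝔞.GJ p q j).hom (𝔞.GJ p q j)).V) j (N j)) =
      E₁ ⊓ Submodule.pi Set.univ N :=
  Submodule.ext fun φ => by rw [mem_cut, Submodule.mem_inf, hE]
include h hE in
lemma isAB_E1 : IsAB X (Quiv.En (𝔞.GJ p q)) fun _ => E₁ :=
  (IsAB.pi fun j => isAB_cut (G := fun j => (𝔞.GJ p q j).hom (𝔞.GJ p q j))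
    (IsAB.top (h.isAB_hm j).hin)).congr fun _ _ => E1_eq hE
include h hE in
lemma isAB_E1' : IsAB X (Quiv.En (𝔞.GJ p q)) fun x => E₁ ⊓ Submodule.pi Set.univ fun j =>
    homMap (𝔞.pcs p q (L x) j) (𝔞.pcs p q (L x) j) :=
  (IsAB.pi fun j => isAB_cut (G := fun j => (𝔞.GJ p q j).hom (𝔞.GJ p q j))
    (h.isAB_hm j)).congr fun _ _ => E1_inf hE _
include h hE ses
theorem isAB_Zc' : IsAB X (𝔞.qv p q).C fun x => (𝔞.qv p q).Zc (𝔞.pcs p q (L x)) := by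
  have hU : ∀ j, IsAB X (𝔞.GJ p q j) fun x => 𝔞.pcs p q (L x) j := fun j => h.ab j.1 j.le
  have hd := (𝔞.qv p q).isAB_den hU
  have hA := (h.isAB_E1 hE).map_sup_of_inj (h.isAB_E1' hE) hd (IsRM.const (𝔞.qv p q).deg0_δ)
    fun x hx => (ses x hx).1
  refine ⟨hd.hin, ((𝔞.qv p q).cog_Zc hU).alg_of_usc fun x hx => ?_, (𝔞.qv p q).eqv_Zc hU⟩
  obtain ⟨r, h1, h2⟩ := (hA.lc.prod ((h.isAB_Hb h).lc.prod (h.isAB_den h).lc)) x hx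
  refine ⟨r, h1, fun y hy h0 => ?_⟩
  have key : ∀ z ∈ X.pts, finrank ℂ (E₁.map (𝔞.qv p q).δ ⊔ (𝔞.qv p q).den (𝔞.pcs p q (L z)) :
      Submodule ℂ _) + finrank ℂ (𝔞.Hb 𝔞 (L z) (L z) p) =
      finrank ℂ ((𝔞.qv p q).Zc (𝔞.pcs p q (L z))) + finrank ℂ (𝔞.den 𝔞 (L z) (L z) p) :=
    fun z hz => by
      rw [(ses z hz).2.1, ← (ses z hz).2.2]; exact finrank_inf_comap_add _ _ _
  have h3 := h2 y hy h0
  simp only [Prod.mk.injEq] at h3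
  have h4 := key x hx
  have h5 := key y hy
  rw [h3.1, h3.2.1, h3.2.2, h4, Nat.add_right_cancel_iff] at h5
  exact (congrArg (fun m : ℕ => -(m : ℤ)) h5).ge
include hψ in
theorem kc_Zc' :
    kc X (𝔞.qv p q).C (fun x => (𝔞.qv p q).Zc (𝔞.pcs p q (L x))) -
      kc X (𝔞.qv p q).C (fun x => (𝔞.qv p q).den (𝔞.pcs p q (L x))) + hmc 𝔞 𝔞 X p L L =
    ∑ j : JJ p q, K.dual X (ucl 𝔞 X L j.1) * (kc X (𝔞.G j.1) (fun _ => ⊤) - ucl 𝔞 X L j.1) +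
      hbc 𝔞 𝔞 X p L L := by
  classical
  have hU : ∀ j, IsAB X (𝔞.GJ p q j) fun x => 𝔞.pcs p q (L x) j := fun j => h.ab j.1 j.le
  have e₁ := kc_congr (X := X) (V := Quiv.En (𝔞.GJ p q)) fun _ _ => E1_eq hE
  have e₂ := kc_congr (X := X) (V := Quiv.En (𝔞.GJ p q)) fun x _ => E1_inf hE fun j =>
    homMap (𝔞.pcs p q (L x) j) (𝔞.pcs p q (L x) j)
  rw [kq3 (h.isAB_E1 hE) (h.isAB_E1' hE) (h.isAB_Zc' hE ses) ((𝔞.qv p q).isAB_den hU)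
    (h.isAB_Hb h) (h.isAB_den h) (IsRM.const (𝔞.qv p q).deg0_δ) (IsRM.const hψ) ses,
    add_right_comm, ← e₁, ← e₂,
    kc_pi fun j => isAB_cut (G := fun j => (𝔞.GJ p q j).hom (𝔞.GJ p q j))
      (IsAB.top (h.isAB_hm j).hin),
    kc_pi fun j => isAB_cut (G := fun j => (𝔞.GJ p q j).hom (𝔞.GJ p q j)) (h.isAB_hm j),
    ← Finset.sum_sub_distrib, ← Fintype.sum_ite_eq' (JJ.bot p q) fun _ => hmc 𝔞 𝔞 X p L L,
    ← Finset.sum_add_distrib]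
  refine congrArg₂ (· + ·) (Finset.sum_congr rfl fun j _ => ?_) rfl
  refine Eq.trans ?_ (kq_hom_top (hU j) (hU j))
  unfold Coc2.cut
  split_ifs with e
  · subst e; rw [sub_self, zero_add]; rfl
  · rw [add_zero]
end LFam

end Crest.Agent.N265.M
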