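import Crest.Agent.N265.Q.Pts

/-! # Row 265, task Q-CONE a: the cone and the level set of the virtual dimension -/

set_option autoImplicit false
set_option linter.dupNamespace false
noncomputable section
open MvPolynomial Module TensorProduct

namespace Crest.Agent.N265.M
open Crest.Agent.R274
open Defs_781 Lat_781 SnapA_99 SnapB_99 SnapE_99 Gen7_750 Xs1_781 SkDefs_474
open Alg GV Br N Fib _root_.Crest.Agent.N265.Pow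
variable {Sg : Surf}

theorem _root_.Crest.Agent.N265.K.rk_pull' {X Y : Spc} (q : Proj Y X) {y : Pt} (hy : y ∈ Y.pts)
    (u : K X) : K.rk hy (K.pull q u) = K.rk (q.map y hy) u := by
  have h1 : (K.rk hy).toAddMonoidHom.comp (K.pull q).toAddMonoidHom =
      (K.rk (q.map y hy)).toAddMonoidHom := K.hom_ext fun A => by
    change K.rk hy (K.pull q A.kl) = K.rk (q.map y hy) A.kl
    rw [K.pull_kl, K.rk_kl, K.rk_kl]; rfl
  exact DFunLike.congr_fun h1 u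

namespace Par
variable {𝔞 : Amb Sg} (P : Par 𝔞)
lemma pcs_eq {x : Pt} (hx : x ∈ P.Qa.pts) : 𝔞.pcs P.p P.q (P.Lq x) = fun j => P.Γ.U j x :=
  funext (Lq_spec hx).2.2
theorem exists_acone' : ∃ (V : GV) (E : Pt → Submodule ℂ V.V) (s : Pt → V.V),
    ACone P.Γ.Y P.Qa V E s ∧
    K.pull P.Qa_sub.proj (Bun.tan P.Γ.Y _ GrD.vars _ GrD.sm).kl =
      kc P.Qa V E + 1 + chiK 𝔞 𝔞 P.Qa P.p P.Lq P.Lq ∧
    ∀ x (hx : x ∈ P.Qa.pts), ∀ ξ ∈ P.Γ.Y.Tan x, ∀ φ : P.Γ.En.V,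
      (∀ j, IsVar P.Γ.Y.fn ⟨x, P.Qa_sub.2 hx⟩ (P.Γ.Y.pd x ξ) (fun y => P.Γ.U j y.1) (φ j)) →
      (dV (P.Γ.Y.pd x ξ) (fun y : P.Γ.Y.pts => s y.1) = 0 ↔
        P.qv.δ φ ∈ P.qv.den (𝔞.pcs P.p P.q (P.Lq x))) := by
  have hq : 5 + P.p ≤ P.q := P.five
  have hZ : IsAB P.Qa P.qv.C fun x => P.qv.Zc fun j => P.Γ.U j x :=
    ((lfam (P := P)).isAB_Zc hq).congr fun x hx => congrArg P.qv.Zc (P.pcs_eq hx)
  obtain ⟨V, E, s, hc, hk, hd⟩ :=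
    P.qv.exists_cone (X := P.Γ.Y) GrD.isAB_U P.Qa_sub (fun x hx => P.mem_Qa hx) hZ
  refine ⟨V, E, s, hc, ?_, fun x hx ξ hξ φ hφ => by rw [P.pcs_eq hx]; exact hd x hx ξ hξ φ hφ⟩
  have h1 := (lfam (P := P)).kc_Zc hq
  have e1 : kc P.Qa P.qv.C (fun x => P.qv.Zc fun j => P.Γ.U j x) = kc P.Qa (𝔞.qv P.p P.q).C
      fun x => (𝔞.qv P.p P.q).Zc (𝔞.pcs P.p P.q (P.Lq x)) :=
    kc_congr fun x hx => congrArg P.qv.Zc (P.pcs_eq hx).symm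
  have e2 : kc P.Qa P.qv.C (fun x => P.qv.den fun j => P.Γ.U j x) = kc P.Qa (𝔞.qv P.p P.q).C
      fun x => (𝔞.qv P.p P.q).den (𝔞.pcs P.p P.q (P.Lq x)) :=
    kc_congr fun x hx => congrArg P.qv.den (P.pcs_eq hx).symm
  have e3 : ∀ j, K.pull P.Qa_sub.proj (kc P.Γ.Y (P.Γ.G j) (P.Γ.U j)) = ucl 𝔞 P.Qa P.Lq j.1 :=
    fun j => (kc_sub (GrD.isAB_U j) P.Qa_sub).trans
      (kc_congr fun x hx => ((Lq_spec hx).2.2 j).symm)
  have e4 : ∀ j, K.pull P.Qa_sub.proj (kc P.Γ.Y (P.Γ.G j) fun _ => ⊤) =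
      kc P.Qa (𝔞.G j.1) fun _ => ⊤ := fun j => kc_sub (IsAB.top (GrD.isAB_U j).hin) P.Qa_sub
  rw [GrD.kl_tan, map_add, map_one, map_sum, hk, e1, e2,
    (lfam (P := P)).chiK_eq lfam (P.nb (Spc.Sub.refl _))]
  simp only [map_mul, map_sub, K.pull_dual, e3, e4]
  linear_combination -h1
theorem exists_cone' (vd : ℤ) : ∃ (Q : Spc) (_hQ : Q.Sub P.Qa) (r : ℕ) (E : Bun Q) (s : E.ι → R)
    (c : Cone P.Γ.Y Q E s), E.Rk r ∧
    (∀ x (hx : x ∈ P.Qa.pts), x ∈ Q.pts ↔ K.rk hx (chiK 𝔞 𝔞 P.Qa P.p P.Lq P.Lq) = vd) ∧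
    ((Bun.tan P.Γ.Y _ GrD.vars _ GrD.sm).pull c.sub.proj).kl =
      E.kl + 1 + chiK 𝔞 𝔞 Q P.p P.Lq P.Lq ∧
    ∀ x ∈ Q.pts, ∀ φ ∈ P.Γ.enOf x (P.Γ.Y.Tan x ⊓ LinearMap.ker (N265.V.dS x s)),
      P.qv.δ φ ∈ P.qv.den (𝔞.pcs P.p P.q (P.Lq x)) := by
  obtain ⟨V, E, s, hc, hk, hd⟩ := P.exists_acone'
  have hrk : ∀ x (hx : x ∈ P.Qa.pts), (P.Γ.dim : ℤ) =
      finrank ℂ (E x) + 1 + K.rk hx (chiK 𝔞 𝔞 P.Qa P.p P.Lq P.Lq) := fun x hx => by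
    have := congrArg (K.rk hx) hk
    rwa [K.rk_pull', K.rk_kl, Bun.rk_tan _ _ _ _ _ (P.Qa_sub.proj.map x hx), map_add, map_add,
      map_one, rk_kc hc.ab] at this
  have hf := hc.ab.lc.comp fun n : ℕ => (n : ℤ) = P.Γ.dim - 1 - vd
  have hi : ∀ x ∈ P.Qa.pts, ((finrank ℂ (E (gpt x)) : ℤ) = P.Γ.dim - 1 - vd) =
      ((finrank ℂ (E x) : ℤ) = P.Γ.dim - 1 - vd) := fun x hx => by
    rw [← hc.ab.eqv x hx, LinearEquiv.finrank_map_eq]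
  have hQ := P.Qa.level_sub _ hf hi True
  have hm : ∀ x, x ∈ (P.Qa.level _ hf hi True).pts ↔
      x ∈ P.Qa.pts ∧ (finrank ℂ (E x) : ℤ) = P.Γ.dim - 1 - vd := fun x => by
    rw [Spc.mem_level, eq_iff_iff, iff_true]
  obtain ⟨V', g, hc', hg⟩ := hc.level hQ (P.Qa.level_sub _ hf hi False)
    (fun z hz => by by_cases e : (finrank ℂ (E z) : ℤ) = P.Γ.dim - 1 - vd <;> simp [hz, e])
    (Set.disjoint_left.2 fun z h1 h2 => h2.2.mp (h1.2.mpr trivial))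
  obtain ⟨A, b, s', hA, hcone, hs'⟩ := hc'.exists_cone
  have hV' : V'.In (P.Qa.level _ hf hi True).B :=
    hc'.ab.hin.of_inj (f := LinearMap.inr ℂ _ _) (fun v => by simp) LinearMap.inr_injective
  have hkl : A.kl = kc _ V E := by
    rw [Pres.kl ⟨b, hA⟩, kc_prod (hc.ab.mono hQ) (IsAB.bot hV'),
      kc_of_bot (L := fun _ => ⊥) fun _ _ => rfl, add_zero]
  refine ⟨_, hQ, (P.Γ.dim - 1 - vd).toNat, A, s', hcone, fun x hx => ?_, fun x hx => ?_, ?_,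
    fun x hx φ hφ => ?_⟩
  · have h1 := K.rk_kl hx A
    rw [hkl, rk_kc (hc.ab.mono hQ), ((hm x).1 hx).2] at h1
    omega
  · have := hrk x hx
    rw [hm]
    exact ⟨fun h => by omega, fun h => ⟨hx, by omega⟩⟩
  · have h1 := congrArg (K.pull hQ.proj) hk
    rw [K.pull_pull, K.pull_kl, map_add, map_add, map_one, kc_sub hc.ab hQ, ← hkl,
      (lfam (P := P)).pull_chiK lfam (P.nb (Spc.Sub.refl _)) _ (P.nb hQ)] at h1
    have hb : P.b ∈ P.Qa.B := P.Qa_B ▸ Finset.mem_singleton_self _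
    simp only [P.Lq_restr hb] at h1
    exact h1
  · obtain ⟨ξ, ⟨hξ, h0⟩, e⟩ := hφ
    have hy := P.Qa_sub.2 (hQ.2 hx)
    refine (hd x (hQ.2 hx) ξ hξ φ
      ((GrD.isVar_iff hy hξ).2 (by rw [e, sub_self]; exact zero_mem _))).1 ?_
    have h1 : dV (P.Γ.Y.pd x ξ) (fun y : P.Γ.Y.pts => ((s y.1, g y.1) : (V.prod V').V)) = 0 :=
      b.repr.map_eq_zero_iff.1 (Finsupp.ext fun i => (dV_spec _ _ (b.coord i)).trans
        ((Spc.pd_of_eq hξ fun y => (hs' y.1 y.2 i).symm).trans (N265.V.mem_ker_dS.1 h0 i)))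
    have h2 := dV_lin (δ := P.Γ.Y.pd x ξ) (LinearMap.fst ℂ V.V V'.V)
      fun y : P.Γ.Y.pts => (s y.1, g y.1)
    rw [h1, map_zero] at h2
    exact h2
end Par

end Crest.Agent.N265.M
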