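import Crest.Agent.N265.Q.Uni
import Crest.Agent.N265.Q.Cone0
import Crest.Agent.N265.M.Fix

/-! # Row 265, task Q-CONE b: virtual dimension and tangent bound at the fixed points -/

set_option autoImplicit false
set_option linter.dupNamespace false
noncomputable section
open MvPolynomial Module TensorProduct

namespace Crest.Agent.N265.M
open Crest.Agent.R274
open Defs_781 Lat_781 SnapA_99 SnapB_99 SnapE_99 Gen7_750 Xs1_781 SkDefs_474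
open Alg GV Br N Fib _root_.Crest.Agent.N265.Pow
variable {Sg : Surf}

lemma finrank_sprod {V W : Type} [AddCommGroup V] [Module ℂ V] [AddCommGroup W] [Module ℂ W]
    [FiniteDimensional ℂ V] [FiniteDimensional ℂ W] (A : Submodule ℂ V) (B : Submodule ℂ W) :
    finrank ℂ (A.prod B) = finrank ℂ A + finrank ℂ B := by
  have : A.prod B = LinearMap.range (A.subtype.prodMap B.subtype) := by
    rw [LinearMap.range_prodMap, Submodule.range_subtype, Submodule.range_subtype]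
  rw [this, LinearMap.finrank_range_of_inj, finrank_prod]
  exact A.injective_subtype.prodMap B.injective_subtype

lemma smul_canc {V : Type} [AddCommGroup V] [Module ℂ V] {a b : ℂ} {v : V} (h : a • v = b • v) :
    a = b ∨ v = 0 := by
  rwa [← sub_eq_zero, ← sub_smul, smul_eq_zero, sub_eq_zero] at h

section blk
variable (Sg) (i : Fin 2) (k : ℤ)
/-- inclusion of a summand -/
def sng (j : ℕ) : ((r1 Sg k).G j).V →ₗ[ℂ] ((r2 Sg).G j).V :=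
  LinearMap.single ℂ (fun _ : Fin 2 => SA Sg j) i ∘ₗ
    LinearMap.proj (R := ℂ) (φ := fun _ : Unit => SA Sg j) ()
/-- projection to a summand -/
def prjC (j : ℕ) : ((r2 Sg).G j).V →ₗ[ℂ] ((r1 Sg k).G j).V :=
  LinearMap.pi fun _ => LinearMap.proj (R := ℂ) (φ := fun _ : Fin 2 => SA Sg j) i
/-- diagonal block -/
def blk (j : ℕ) : ((r2 Sg).EG (r2 Sg) j).V →ₗ[ℂ] ((r1 Sg k).EG (r1 Sg k) j).V :=
  LinearMap.llcomp ℂ _ _ _ (prjC Sg i k j) ∘ₗ LinearMap.lcomp ℂ _ (sng Sg i k j)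
variable {Sg i k} {J : Fin 2 → XL Sg Sg.F} {j p : ℕ}
lemma blk_apply (φ : ((r2 Sg).EG (r2 Sg) j).V) (w : ((r1 Sg k).G j).V) :
    blk Sg i k j φ w = prjC Sg i k j (φ (sng Sg i k j w)) := rfl
lemma mem_pc_pi {w : ((r2 Sg).G j).V} :
    w ∈ (r2 Sg).pc (piX J) j ↔ ∀ i, (w i).1 ∈ Gm (J i).toLat j := mem_Gm_piX
lemma sng_mem {w : ((r1 Sg k).G j).V} (h : w ∈ (r1 Sg k).pc (J i) j) :
    sng Sg i k j w ∈ (r2 Sg).pc (piX J) j := mem_pc_pi.2 fun i' => by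
  change ((Pi.single i (w ()) : Fin 2 → SA Sg j) i').1 ∈ _
  by_cases e : i' = i
  · subst e; rw [Pi.single_eq_same]; exact h
  · rw [Pi.single_eq_of_ne e]; exact zero_mem _
lemma prj_mem {w : ((r2 Sg).G j).V} (h : w ∈ (r2 Sg).pc (piX J) j) :
    prjC Sg i k j w ∈ (r1 Sg k).pc (J i) j := mem_pc_pi.1 h i
lemma mul_sng (m : ℕ) (t : ((r1 Sg k).G j).V ⊗[ℂ] SA Sg m) :
    (r2 Sg).mul j m (LinearMap.rTensor _ (sng Sg i k j) t) =
      sng Sg i k (m + j) ((r1 Sg k).mul j m t) := by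
  induction t using TensorProduct.induction_on with
  | zero => simp only [map_zero]
  | add s t hs ht => simp only [map_add, hs, ht]
  | tmul w a =>
    funext i'
    rw [LinearMap.rTensor_tmul, Amb.mul_tmul]
    change mulA Sg j m ((Pi.single i (w ()) : Fin 2 → SA Sg j) i') a =
      (Pi.single i (mulA Sg j m (w ()) a) : Fin 2 → SA Sg (m + j)) i'
    by_cases e : i' = i
    · subst e; rw [Pi.single_eq_same, Pi.single_eq_same]
    · rw [Pi.single_eq_of_ne e, Pi.single_eq_of_ne e, map_zero, LinearMap.zero_apply]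
lemma mul_prj (m : ℕ) (t : ((r2 Sg).G j).V ⊗[ℂ] SA Sg m) :
    (r1 Sg k).mul j m (LinearMap.rTensor _ (prjC Sg i k j) t) =
      prjC Sg i k (m + j) ((r2 Sg).mul j m t) := by
  induction t using TensorProduct.induction_on with
  | zero => simp only [map_zero]
  | add s t hs ht => simp only [map_add, hs, ht]
  | tmul w a => rfl
lemma blk_mem_stab {φ : ((r2 Sg).EG (r2 Sg) p).V}
    (h : φ ∈ (r2 Sg).stab (r2 Sg) (piX J) (piX J) p) :
    blk Sg i k p φ ∈ (r1 Sg k).stab (r1 Sg k) (J i) (J i) p :=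
  fun _ hw => prj_mem (h _ (sng_mem hw))
lemma blk_mem_Tv {φ : ((r2 Sg).EG (r2 Sg) p).V}
    (h : φ ∈ (r2 Sg).Tv (r2 Sg) (piX J) (piX J) p) :
    blk Sg i k p φ ∈ (r1 Sg k).Tv (r1 Sg k) (J i) (J i) p := by
  intro t ht
  rw [Amb.KK_eq_mul] at ht
  have h1 : LinearMap.rTensor _ (sng Sg i k p) t ∈ (r2 Sg).KK (piX J) p 3 := by
    rw [Amb.KK_eq_mul]
    refine ⟨?_, ?_⟩
    · have : tens ((r1 Sg k).pc (J i) p) (⊤ : Submodule ℂ (SA Sg 3)) ≤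
          (tens ((r2 Sg).pc (piX J) p) ⊤).comap (LinearMap.rTensor _ (sng Sg i k p)) :=
        tens_le.2 fun w hw a _ => tens_le.1 le_rfl _ (sng_mem hw) a Submodule.mem_top
      exact this ht.1
    · rw [SetLike.mem_coe, LinearMap.mem_ker, mul_sng, LinearMap.mem_ker.1 ht.2, map_zero]
  have h2 := prj_mem (i := i) (k := k) (h _ h1)
  rw [Amb.res_apply, ← mul_prj, ← LinearMap.rTensor_comp_apply, ← LinearMap.rTensor_comp_apply]
    at h2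
  exact h2
/-- maps of degree zero are block diagonal -/
lemma mem_stab_of_blk {φ : ((r2 Sg).EG (r2 Sg) p).V} (hφ : Deg0 _ _ φ) {κ : Fin 2 → ℤ}
    (h : ∀ i, blk Sg i (κ i) p φ ∈ (r1 Sg (κ i)).stab (r1 Sg (κ i)) (J i) (J i) p) :
    φ ∈ (r2 Sg).stab (r2 Sg) (piX J) (piX J) p := by
  intro w hw
  have e : w = ∑ i, sng Sg i (κ i) p (prjC Sg i (κ i) p w) := (Finset.univ_sum_single w).symm
  rw [e, map_sum]
  refine Submodule.sum_mem _ fun i _ => mem_pc_pi.2 fun i' => ?_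
  by_cases hi : i' = i
  · subst hi; exact h i' _ (prj_mem hw)
  · set v := sng Sg i (κ i) p (prjC Sg i (κ i) p w) with hv
    have h1 : ((r2 Sg).G p).g v = chi ((r2 Sg).wt i • eT) • v := funext fun a => by
      rw [Amb.g_apply, Pi.smul_apply]
      by_cases ha : a = i
      · rw [ha]
      · have : v a = 0 := Pi.single_eq_of_ne (M := fun _ : Fin 2 => SA Sg p) ha _
        rw [this, smul_zero, smul_zero]
    have h2 := congrFun (hφ v) i'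
    rw [h1, map_smul, Amb.g_apply, Pi.smul_apply] at h2
    rcases smul_canc (V := SA Sg p) h2 with h2 | h2
    · have := congrArg (fun d : D => d none) (chi_inj h2)
      simp only [eT, Finsupp.smul_apply, Finsupp.single_eq_same, smul_eq_mul, mul_one] at this
      exact absurd (Fin.ext (by exact_mod_cast this.symm)) hi
    · rw [h2]; exact zero_mem _
lemma mem_stab_of_blk' {φ φ' : ((r2 Sg).EG (r2 Sg) p).V} (hφ : Deg0 _ _ φ')
    (h : φ - φ' ∈ (r2 Sg).stab (r2 Sg) (piX J) (piX J) p)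
    (h0 : blk Sg 0 0 p φ ∈ (r1 Sg 0).stab (r1 Sg 0) (J 0) (J 0) p)
    (h1 : blk Sg 1 1 p φ ∈ (r1 Sg 1).stab (r1 Sg 1) (J 1) (J 1) p) :
    φ ∈ (r2 Sg).stab (r2 Sg) (piX J) (piX J) p := by
  have e : φ' = φ - (φ - φ') := (sub_sub_cancel _ _).symm
  have h4 : φ' ∈ (r2 Sg).stab (r2 Sg) (piX J) (piX J) p := by
    refine mem_stab_of_blk hφ (κ := ![0, 1]) (Fin.forall_fin_two.2 ⟨?_, ?_⟩)
    · rw [e, map_sub]; exact sub_mem h0 (blk_mem_stab h)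
    · rw [e, map_sub]; exact sub_mem h1 (blk_mem_stab h)
  have := add_mem h h4
  rwa [sub_add_cancel] at this
end blk

namespace Par
variable {P : Par (r2 Sg)} {β₁ β₂ : Sg.V.G} {n₁ n₂ : ℕ} {u : Uni Sg P.p β₁ β₂ n₁ n₂ 0 1 P.b}
theorem IsU.rk_chiK' (h : P.IsU u) {x : Pt} (hx : x ∈ u.F.pts) :
    K.rk (h.sub.2 hx) (chiK (r2 Sg) (r2 Sg) P.Qa P.p P.Lq P.Lq) =
      Ch.vdim Sg.V β₁ β₂ (n₁ + n₂ : ℕ) := by
  have e0 : ∀ y ∈ u.F.pts, restr P.Qa.B y = y := fun y hy => P.Qa.restr_eq (h.sub.2 hy)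
  have e : ∀ y ∈ u.F.pts, EqL (P.Lq (restr P.Qa.B y)) (piX ![u.I₁ y, u.I₂ y]) := fun y hy => by
    rw [e0 y hy]; exact h.eqv y hy
  have h1 := K.rk_pull' h.sub.proj hx (chiK (r2 Sg) (r2 Sg) P.Qa P.p P.Lq P.Lq)
  rw [LFam.pull_chiK lfam lfam (P.nb (Spc.Sub.refl _)) _ u.nb, chiK_congr e e,
    chiK_pair u.f₁.fam u.f₂.fam u.nb, map_add, map_add, map_add,
    u.f₁.rk_chiK u.f₁ u.nb, u.f₂.rk_chiK u.f₂ u.nb, u.f₁.rk_chiK u.f₂ u.nb,
    u.f₂.rk_chiK u.f₁ u.nb, sub_self, sub_self, (pgq Sg).chi_zero] at h1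
  have h2 : ∀ (y : Pt) (hy : y ∈ P.Qa.pts), y = x →
      K.rk hy (chiK (r2 Sg) (r2 Sg) P.Qa P.p P.Lq P.Lq) =
        K.rk (h.sub.2 hx) (chiK (r2 Sg) (r2 Sg) P.Qa P.p P.Lq P.Lq) := by
    rintro y hy rfl; rfl
  rw [← h2 _ (h.sub.proj.map x hx) (e0 x hx), ← h1, Ch.vdim]
  push_cast
  ring

set_option maxHeartbeats 400000 in
theorem IsU.ht' (h : P.IsU u) {x : Pt} (hx : x ∈ u.F.pts) {T : Submodule ℂ Pt}
    (hT : T ≤ P.Γ.Y.Tan x ⊓ N265.V.fixS fun _ => u.w) (h0 : x ∈ T)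
    (hδ : ∀ φ ∈ P.Γ.enOf x T, P.qv.δ φ ∈ P.qv.den ((r2 Sg).pcs P.p P.q (P.Lq x))) :
    finrank ℂ T ≤ u.dim := by
  have hQ := h.sub.2 hx
  have hy := P.Qa_sub.2 hQ
  obtain ⟨-, hr, hU⟩ := Lq_spec hQ
  have e := h.eqv x hx
  have hst : ∀ {φ : P.Γ.En.V}, φ ∈ P.Γ.stab x ↔ φ ∈ (r2 Sg).stabs P.p P.q (P.Lq x) := fun {φ} => by
    refine forall₂_congr fun j _ => ?_
    change φ j ∈ homMap (P.Γ.U j x) (P.Γ.U j x) ↔ φ j ∈ homMap ((r2 Sg).pc _ _) ((r2 Sg).pc _ _)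
    rw [hU j]
  let J : Fin 2 → XL Sg Sg.F := ![u.I₁ x, u.I₂ x]
  let π : P.Γ.En.V →ₗ[ℂ] ((r1 Sg 0).EG (r1 Sg 0) P.p).V × ((r1 Sg 1).EG (r1 Sg 1) P.p).V :=
    ((blk Sg 0 0 P.p).prod (blk Sg 1 1 P.p)) ∘ₗ
      LinearMap.proj (R := ℂ) (φ := fun j => ((P.Γ.G j).hom (P.Γ.G j)).V) (JJ.bot P.p P.q)
  let A := ((r1 Sg 0).stab (r1 Sg 0) (J 0) (J 0) P.p).prod ((r1 Sg 1).stab (r1 Sg 1) (J 1) (J 1) P.p)
  let B := ((r1 Sg 0).Tv (r1 Sg 0) (J 0) (J 0) P.p).prod ((r1 Sg 1).Tv (r1 Sg 1) (J 1) (J 1) P.p)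
  have h1 : (P.Γ.enOf x T).map π ⊔ A ≤ B := by
    refine sup_le ?_ (Submodule.prod_mono Amb.stab_le_Tv Amb.stab_le_Tv)
    rintro _ ⟨φ, hφ, rfl⟩
    have := Amb.mem_Tv_of_δ (Lq_le x) hr P.two P.five (hδ φ hφ)
    rw [Amb.Tv_congr e e] at this
    exact ⟨blk_mem_Tv (J := J) this, blk_mem_Tv (J := J) this⟩
  have h2 : P.Γ.enOf x T ⊓ A.comap π ≤ P.Γ.stab x := by
    rintro φ ⟨hφ, hA⟩
    obtain ⟨φ', d0, hs⟩ := (GrD.mem_enOf_fix hy (w := fun _ => u.w) (u.tt x hx)).1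
      (Submodule.comap_mono (Submodule.map_mono hT) hφ)
    have hs' := hst.1 hs
    have h3 : φ (JJ.bot _ _) - φ' (JJ.bot _ _) ∈ (r2 Sg).stab (r2 Sg) (piX J) (piX J) P.p := by
      rw [← Amb.stab_congr e e]; exact hs' (JJ.bot _ _) trivial
    refine hst.2 (Amb.mem_stabs_of_δ (Lq_le x) hr P.two P.five (hδ φ hφ) ?_)
    rw [Amb.stab_congr e e]
    have d1 : Deg0 ((r2 Sg).G P.p) ((r2 Sg).G P.p) (φ' (JJ.bot P.p P.q)) := d0 (JJ.bot P.p P.q)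
    have a0 : blk Sg 0 0 P.p (φ (JJ.bot P.p P.q)) ∈ (r1 Sg 0).stab (r1 Sg 0) (J 0) (J 0) P.p := hA.1
    have a1 : blk Sg 1 1 P.p (φ (JJ.bot P.p P.q)) ∈ (r1 Sg 1).stab (r1 Sg 1) (J 1) (J 1) P.p := hA.2
    exact mem_stab_of_blk' (J := J) d1 h3 a0 a1
  have k1 := finrank_inf_comap_add (P.Γ.enOf x T) A π
  have k2 := Submodule.finrank_mono h1
  have k3 := Submodule.finrank_mono h2
  have k4 := GrD.finrank_enOf hy (hT.trans inf_le_left) h0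
  have k5 := (u.f₁.ty x hx).finrank_Tv (k := 0) (u.f₁.le hx) P.two (u.f₁.fam.reg x hx)
  have k6 := (u.f₂.ty x hx).finrank_Tv (k := 1) (u.f₂.le hx) P.two (u.f₂.fam.reg x hx)
  have k7 : finrank ℂ A = finrank ℂ ((r1 Sg 0).stab (r1 Sg 0) (u.I₁ x) (u.I₁ x) P.p) +
      finrank ℂ ((r1 Sg 1).stab (r1 Sg 1) (u.I₂ x) (u.I₂ x) P.p) := finrank_sprod _ _
  have k8 : finrank ℂ B = finrank ℂ ((r1 Sg 0).Tv (r1 Sg 0) (u.I₁ x) (u.I₁ x) P.p) +
      finrank ℂ ((r1 Sg 1).Tv (r1 Sg 1) (u.I₂ x) (u.I₂ x) P.p) := finrank_sprod _ _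
  unfold Uni.dim
  omega
end Par

end Crest.Agent.N265.M
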