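import Crest.Agent.N265.Q.Uni
import Crest.Agent.N265.Q.Cone0
import Crest.Agent.N265.Q.Cone1
import Crest.Agent.N265.M.Fix

/-! # Row 265, task Q-CONE: the cone, the level set of the virtual dimension, the tangent bound -/

set_option autoImplicit false
set_option linter.dupNamespace false
noncomputable section
open MvPolynomial Module TensorProduct

namespace Crest.Agent.N265.M
open Crest.Agent.R274
open Defs_781 Lat_781 SnapA_99 SnapB_99 SnapE_99 Gen7_750 Xs1_781 SkDefs_474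
open Alg GV Br N Fib _root_.Crest.Agent.N265.Pow
variable {Sg : Surf}

theorem _root_.Crest.Agent.N265.K.rk_pull {X Y : Spc} (q : Proj Y X) {y : Pt} (hy : y ∈ Y.pts)
    (u : K X) : K.rk hy (K.pull q u) = K.rk (q.map y hy) u := K.rk_pull' q hy u

namespace Par
variable {𝔞 : Amb Sg} (P : Par 𝔞)
/-- `Quiv.exists_cone` with `isAB_Zc`; `GrD.kl_tan`, `kc_Zc`, `chiK_eq` -/
theorem exists_acone : ∃ (V : GV) (E : Pt → Submodule ℂ V.V) (s : Pt → V.V),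
    ACone P.Γ.Y P.Qa V E s ∧
    K.pull P.Qa_sub.proj (Bun.tan P.Γ.Y _ GrD.vars _ GrD.sm).kl =
      kc P.Qa V E + 1 + chiK 𝔞 𝔞 P.Qa P.p P.Lq P.Lq ∧
    ∀ x (hx : x ∈ P.Qa.pts), ∀ ξ ∈ P.Γ.Y.Tan x, ∀ φ : P.Γ.En.V,
      (∀ j, IsVar P.Γ.Y.fn ⟨x, P.Qa_sub.2 hx⟩ (P.Γ.Y.pd x ξ) (fun y => P.Γ.U j y.1) (φ j)) →
      (dV (P.Γ.Y.pd x ξ) (fun y : P.Γ.Y.pts => s y.1) = 0 ↔
        P.qv.δ φ ∈ P.qv.den (𝔞.pcs P.p P.q (P.Lq x))) := P.exists_acone'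
/-- the part of virtual dimension `vd`: level set of `finrank (E x)` (`IsAB.lc`, `Spc.level`),
`ACone.level`, `ACone.exists_cone`, `rk_kc` -/
theorem exists_cone (vd : ℤ) : ∃ (Q : Spc) (hQ : Q.Sub P.Qa) (r : ℕ) (E : Bun Q) (s : E.ι → R)
    (c : Cone P.Γ.Y Q E s), E.Rk r ∧
    (∀ x (hx : x ∈ P.Qa.pts), x ∈ Q.pts ↔ K.rk hx (chiK 𝔞 𝔞 P.Qa P.p P.Lq P.Lq) = vd) ∧
    ((Bun.tan P.Γ.Y _ GrD.vars _ GrD.sm).pull c.sub.proj).kl =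
      E.kl + 1 + chiK 𝔞 𝔞 Q P.p P.Lq P.Lq ∧
    ∀ x ∈ Q.pts, ∀ φ ∈ P.Γ.enOf x (P.Γ.Y.Tan x ⊓ LinearMap.ker (N265.V.dS x s)),
      P.qv.δ φ ∈ P.qv.den (𝔞.pcs P.p P.q (P.Lq x)) := P.exists_cone' vd
end Par

namespace Par
variable {P : Par (r2 Sg)} {β₁ β₂ : Sg.V.G} {n₁ n₂ : ℕ} {u : Uni Sg P.p β₁ β₂ n₁ n₂ 0 1 P.b}
/-- `pull_chiK`, `chiK_congr`, `chiK_pair`, `IFam.rk_chiK` -/
theorem IsU.rk_chiK (h : P.IsU u) {x : Pt} (hx : x ∈ u.F.pts) :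
    K.rk (h.sub.2 hx) (chiK (r2 Sg) (r2 Sg) P.Qa P.p P.Lq P.Lq) =
      Ch.vdim Sg.V β₁ β₂ (n₁ + n₂ : ℕ) := h.rk_chiK' hx
/-- **tangent bound.** `finrank_enOf`; for `φ ∈ enOf x T` write `φ = φ' + σ` with `φ'` of degree zero
and `σ ∈ stab` (`mem_enOf_fix`); the two diagonal blocks of `φ p` lie in `Tv I₁`, `Tv I₂`
(`mem_Tv_of_δ`), and if they lie in `stab I_i` then `φ ∈ stab` (`mem_stabs_of_δ`);
`Ty.finrank_Tv` -/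
theorem IsU.ht (h : P.IsU u) {x : Pt} (hx : x ∈ u.F.pts) {T : Submodule ℂ Pt}
    (hT : T ≤ P.Γ.Y.Tan x ⊓ N265.V.fixS fun _ => u.w) (h0 : x ∈ T)
    (hδ : ∀ φ ∈ P.Γ.enOf x T, P.qv.δ φ ∈ P.qv.den ((r2 Sg).pcs P.p P.q (P.Lq x))) :
    finrank ℂ T ≤ u.dim := h.ht' hx hT h0 hδ
end Par

end Crest.Agent.N265.M
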