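import Crest.Agent.N265.Q.Defs
import Crest.Agent.N265.M.Ty
import Crest.Agent.N265.M.Mul
import Crest.Agent.N265.Fx.Sc

/-! # Row 265, task Q-CRIT a: having a given type is a closed condition -/

set_option autoImplicit false
set_option linter.dupNamespace false
noncomputable section
open MvPolynomial Module TensorProduct

namespace Crest.Agent.N265.M
open Crest.Agent.R274
open Defs_781 Lat_781 SnapA_99 SnapB_99 SnapE_99 Gen7_750 Xs1_781 SkDefs_474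
open Alg GV Br N Fib _root_.Crest.Agent.N265.Pow
variable {Sg : Surf} {p : ℕ} {k : ℤ} {β β' : Sg.V.G} {n n' : ℕ}

/-- maps `θ : U → H⁰(p h - β)` with `θ(u) u' = θ(u') u`, i.e. `Hom(I, O(-β))` -/
def comm (Sg : Surf) (k : ℤ) (p : ℕ) (β : Sg.V.G) (U : Submodule ℂ ((r1 Sg k).G p).V) :
    Submodule ℂ (((r1 Sg k).G p).V →ₗ[ℂ] SB Sg (-β + p • Sg.V.h)) where
  carrier := {θ | ∀ u ∈ U, ∀ u' ∈ U, (θ u).1 * (u' ()).1 = (θ u').1 * (u ()).1}
  add_mem' := fun h h' u hu u' hu' => by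
    simp only [LinearMap.add_apply, Submodule.coe_add, add_mul, h u hu u' hu', h' u hu u' hu']
  zero_mem' := fun _ _ _ _ => by simp
  smul_mem' := fun c _ h u hu u' hu' => by
    simp only [LinearMap.smul_apply, Submodule.coe_smul, smul_mul_assoc, h u hu u' hu']
lemma kill_le_comm (U : Submodule ℂ ((r1 Sg k).G p).V) : homKill U _ ≤ comm Sg k p β U :=
  fun θ h u hu u' hu' => by rw [h u hu, h u' hu', ZeroMemClass.coe_zero, zero_mul, zero_mul]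
lemma SB_eq (β : Sg.V.G) (p : ℕ) : SB Sg (-β + p • Sg.V.h) = Gm (OL Sg.V.T (-β)).toLat p := by
  rw [Gm_OL, natCast_zsmul]

/-- If `θ u₀ ≠ 0` then `θ u = g u` on `U`, so `g I ≤ O(-β)` (`le_of_pc`), `I ≤ O(-(β + div g⁻¹))`,
the hull of `I` is contained in it (`FC.le_OL`) and has the same degree, hence is equal. -/
theorem lin_iff_comm {I : XL Sg Sg.F} (h : Ty I β' n') (le : LeL I (OX Sg.V.X))
    (hr : RegL I.toLat p) (hd : Ch.dg Sg.V β' = Ch.dg Sg.V β) :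
    Lin Sg β' β ↔ ¬ comm Sg k p β ((r1 Sg k).pc I p) ≤ homKill ((r1 Sg k).pc I p) _ := by
  constructor
  · intro hl hc
    obtain ⟨s, hs, fc, -⟩ := h.lin hl
    obtain ⟨u₀, h0, hne⟩ := h.exists_ne (k := k) le hr
    obtain ⟨θ, hθ⟩ := LinearMap.exists_extend (p := (r1 Sg k).pc I p)
      (((LinearMap.mulLeft ℂ s⁻¹ ∘ₗ (r1 Sg k).inc p) ∘ₗ ((r1 Sg k).pc I p).subtype).codRestrict
        (SB Sg (-β + p • Sg.V.h)) fun u => (SB_eq β p).ge (inv_mul_mem fc.le u.2))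
    have h1 : ∀ u ∈ (r1 Sg k).pc I p, (θ u).1 = s⁻¹ * (u ()).1 := fun u hu =>
      congrArg Subtype.val (LinearMap.congr_fun hθ ⟨u, hu⟩)
    have h2 := hc (fun u hu u' hu' => by rw [h1 u hu, h1 u' hu']; ring) u₀ h0
    have h3 := h1 u₀ h0
    rw [h2] at h3
    exact mul_ne_zero (inv_ne_zero hs) hne h3.symm
  · intro hc
    obtain ⟨θ, hθ, h1⟩ := SetLike.not_le_iff_exists.1 hc
    obtain ⟨u₀, h0, hne⟩ := h.exists_ne (k := k) le hr
    obtain ⟨g, hg⟩ := exists_mul_of_comm (θ := fun u => (θ u).1) hθ h0 hne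
    have hg0 : g ≠ 0 := by
      rintro rfl
      exact h1 fun u hu => Subtype.ext (by rw [hg u hu, zero_mul]; rfl)
    obtain ⟨f, hf, fc, -⟩ := h
    have h2 := le_of_mul fc hr (E := -β) hg0 fun v hv => by
      obtain ⟨u, hu, rfl⟩ := exists_pc1 (k := k) le hv
      rw [← hg u hu, ← SB_eq]
      exact (θ u).2
    have h3 := eq_zero_of_dg (Δ := -β + Sg.V.div g hg0 + (β' + Sg.V.div f hf))
      (fun v => by
        have := h2 v
        rw [Finsupp.neg_apply] at this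
        rw [Finsupp.add_apply]
        omega)
      (by rw [Ch.dg_add, Ch.dg_add, Ch.dg_add, Ch.dg_div, Ch.dg_div, Ch.dg_neg, hd]; ring)
    refine ⟨f * g, mul_ne_zero hf hg0, ?_⟩
    rw [div_mul' hf hg0, ← sub_eq_zero, ← neg_eq_zero, ← h3]
    abel
/-- the type is determined by the class and two values of the Hilbert polynomial -/
theorem Ty.num {I : XL Sg Sg.F} (h : Ty I β' n') {e₁ e₂ : ℤ} (he : e₁ ≠ e₂)
    (h₁ : Fib.cL I.toLat e₁ = Sg.V.chi (-β + e₁ • Sg.V.h) - n)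
    (h₂ : Fib.cL I.toLat e₂ = Sg.V.chi (-β + e₂ • Sg.V.h) - n) :
    Ch.dg Sg.V β' = Ch.dg Sg.V β ∧ (Lin Sg β' β → Ty I β n) := by
  rw [h.cL, Ch.chi_tw Sg.V (-β), Ch.chi_tw Sg.V (-β'), Ch.dg_neg, Ch.dg_neg] at h₁ h₂
  have h3 : (e₁ - e₂) * (Ch.dg Sg.V β' - Ch.dg Sg.V β) = 0 := by linarith
  have h4 := sub_eq_zero.1 ((mul_eq_zero.1 h3).resolve_left (sub_ne_zero.2 he))
  refine ⟨h4, fun hl => ?_⟩
  rw [h4, hl.neg.chi] at h₁
  obtain rfl : n' = n := by omega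
  exact h.lin hl
lemma sc_r1 (k : ℤ) (j : ℕ) : ((r1 Sg k).G j).Sc (k • eT) := sc_pi fun _ => sc_shift _ _
/-- `θ, u ⊗ u' ↦ θ(u) u' - θ(u') u` -/
def commF {W Q : Type} [AddCommGroup W] [Module ℂ W] [AddCommGroup Q] [Module ℂ Q]
    (i : W →ₗ[ℂ] Sg.F) (j : Q →ₗ[ℂ] Sg.F) : (W →ₗ[ℂ] Q) →ₗ[ℂ] W ⊗[ℂ] W →ₗ[ℂ] Sg.F :=
  (LinearMap.llcomp ℂ _ _ _ (LinearMap.mul' ℂ Sg.F ∘ₗ TensorProduct.map j i) ∘ₗ
      LinearMap.rTensorHom W) -
    (LinearMap.lcomp ℂ Sg.F (TensorProduct.comm ℂ W W).toLinearMap ∘ₗ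
      LinearMap.llcomp ℂ _ _ _ (LinearMap.mul' ℂ Sg.F ∘ₗ TensorProduct.map j i) ∘ₗ
        LinearMap.rTensorHom W)
lemma commF_tmul {W Q : Type} [AddCommGroup W] [Module ℂ W] [AddCommGroup Q] [Module ℂ Q]
    (i : W →ₗ[ℂ] Sg.F) (j : Q →ₗ[ℂ] Sg.F) (θ : W →ₗ[ℂ] Q) (u u' : W) :
    commF i j θ (u ⊗ₜ u') = j (θ u) * i u' - j (θ u') * i u := rfl
lemma mem_killer_commF {W Q : Type} [AddCommGroup W] [Module ℂ W] [AddCommGroup Q] [Module ℂ Q]
    {i : W →ₗ[ℂ] Sg.F} {j : Q →ₗ[ℂ] Sg.F} {θ : W →ₗ[ℂ] Q} {U : Submodule ℂ W} :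
    θ ∈ killer (commF i j) (tens U U) ↔ ∀ u ∈ U, ∀ u' ∈ U, j (θ u) * i u' = j (θ u') * i u := by
  rw [mem_killer]
  constructor
  · intro h u hu u' hu'
    have := h _ (tmul_mem hu hu')
    rwa [commF_tmul, sub_eq_zero] at this
  · intro h
    refine (tens_le (N := LinearMap.ker (commF i j θ))).2 fun u hu u' hu' => ?_
    rw [LinearMap.mem_ker, commF_tmul, h u hu u' hu', sub_self]
lemma comm_eq (U : Submodule ℂ ((r1 Sg k).G p).V) :
    killer (commF ((r1 Sg k).inc p) (SB Sg (-β + p • Sg.V.h)).subtype) (tens U U) =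
      comm Sg k p β U := Submodule.ext fun _ => mem_killer_commF
lemma one_le_sub_iff {M : Type} [AddCommGroup M] [Module ℂ M] [FiniteDimensional ℂ M]
    {A B : Submodule ℂ M} (h : A ≤ B) : 1 ≤ (finrank ℂ B : ℤ) - finrank ℂ A ↔ ¬ B ≤ A := by
  constructor
  · intro h hc
    have := Submodule.finrank_mono hc
    omega
  · intro h'
    have := Submodule.finrank_lt_finrank_of_lt (lt_of_le_of_ne h fun e => h' e.ge)
    omega
lemma usc_comm {X : Spc} {U : Pt → Submodule ℂ ((r1 Sg k).G p).V} (a0 : IsAB X ((r1 Sg k).G p) U) :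
    X.USC fun x => (finrank ℂ (comm Sg k p β (U x)) : ℤ) -
      finrank ℂ (homKill (U x) (SB Sg (-β + p • Sg.V.h))) := by
  have c0 := (a0.gen.tens a0.gen).killer
    (commF ((r1 Sg k).inc p) (SB Sg (-β + p • Sg.V.h)).subtype)
  have c1 : CogA X fun x => comm Sg k p β (U x) := c0.congr fun x _ => comm_eq _
  have k1 : X.LC fun x => finrank ℂ (homKill (U x) (SB Sg (-β + p • Sg.V.h))) :=
    (a0.homKill (W := triv (SB Sg (-β + p • Sg.V.h))) (in_triv _)).lc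
  intro x hx
  obtain ⟨r, h1, h2⟩ := c1.usc.add (k1.comp (Nat.cast : ℕ → ℤ)).neg_usc x hx
  exact ⟨r, h1, h2⟩
lemma exists_level_super {X : Spc} {α : Type} {f : Pt → α} (hf : X.LC f)
    (hi : ∀ x ∈ X.pts, f (gpt x) = f x) (a : α) {g : Pt → ℤ} (hg : X.USC g)
    (hj : ∀ x ∈ X.pts, g (gpt x) = g x) (c : ℤ) :
    ∃ Z : Spc, Z.Sub X ∧ ∀ x ∈ X.pts, x ∈ Z.pts ↔ f x = a ∧ c ≤ g x := by
  have hY := Spc.level_sub X f hf hi a
  refine ⟨(X.level f hf hi a).superlevel g (hg.mono hY.2) (fun x hx => hj x (hY.2 hx)) c,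
    (Spc.superlevel_sub _ _ _ _ _).trans hY, fun x hx => ?_⟩
  rw [Spc.mem_superlevel, Spc.mem_level, and_iff_right hx]
/-- **closedness**: level set of the ranks in the degrees `p, p + 1`, then the locus where the rank
of the cogenerated family `comm` jumps above the rank of `homKill` (`Spc.superlevel`) -/
theorem exists_tySpc {X : Spc} {I : Pt → XL Sg Sg.F}
    (le : ∀ x ∈ X.pts, LeL (I x) (OX Sg.V.X)) (reg : ∀ x ∈ X.pts, RegL (I x).toLat p)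
    (ne : ∀ x ∈ X.pts, ∃ e, Gm (I x).toLat e ≠ ⊥)
    (ab : ∀ j ≥ p, IsAB X ((r1 Sg k).G j) fun x => (r1 Sg k).pc (I x) j) (β : Sg.V.G) (n : ℕ) :
    ∃ Z : Spc, Z.Sub X ∧ ∀ x ∈ X.pts, x ∈ Z.pts ↔ Ty (I x) β n := by
  have a0 := ab p le_rfl
  have a1 := ab (p + 1) (Nat.le_succ p)
  have i0 := (sc_r1 k p).eqv_iff.1 a0.eqv'
  have i1 := (sc_r1 k (p + 1)).eqv_iff.1 a1.eqv'
  have l1 : X.LC fun x => ((finrank ℂ ((r1 Sg k).pc (I x) p) : ℤ),
      (finrank ℂ ((r1 Sg k).pc (I x) (p + 1)) : ℤ)) :=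
    (a0.lc.comp (Nat.cast : ℕ → ℤ)).prod (a1.lc.comp (Nat.cast : ℕ → ℤ))
  have u1 := usc_comm (β := β) a0
  obtain ⟨Z, hZ, hm⟩ := exists_level_super l1 (fun x hx => by rw [i0 x hx, i1 x hx])
    (Sg.V.chi (-β + (p : ℤ) • Sg.V.h) - n, Sg.V.chi (-β + ((p + 1 : ℕ) : ℤ) • Sg.V.h) - n)
    u1 (fun x hx => by rw [i0 x hx]) 1
  refine ⟨Z, hZ, fun x hx => ?_⟩
  have lO : LeL (I x) (r1 Sg k).O := (le x hx).trans (r1_O k).symm.le
  have e0 := Amb.finrank_pc (𝔞 := r1 Sg k) (L := I x) lO (reg x hx) (Nat.le_succ p)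
  have e1 := Amb.finrank_pc (𝔞 := r1 Sg k) (L := I x) lO (reg x hx) (j := p + 1) (by omega)
  have e2 := one_le_sub_iff (M := ((r1 Sg k).G p).V →ₗ[ℂ] SB Sg (-β + p • Sg.V.h))
    (kill_le_comm (β := β) ((r1 Sg k).pc (I x) p))
  refine (hm x hx).trans ⟨fun ⟨h0, h3⟩ => ?_, fun h => ⟨Prod.ext (e0.trans (h.cL _))
    (e1.trans (h.cL _)), e2.2 ((lin_iff_comm h (le x hx) (reg x hx) rfl).1 (Lin.refl β))⟩⟩
  obtain ⟨β', n', h⟩ := exists_ty (le x hx) (ne x hx)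
  obtain ⟨h4, h5⟩ := h.num (by omega) (e0.symm.trans (congrArg Prod.fst h0))
    (e1.symm.trans (congrArg Prod.snd h0))
  exact h5 ((lin_iff_comm h (le x hx) (reg x hx) h4).2 (e2.1 h3))

end Crest.Agent.N265.M
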