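import Crest.Agent.N265.Q.Split
import Crest.Agent.N265.Q.Crit0

/-! # Row 265, task Q-CRIT: having a given type is a closed condition (`Q/Crit0`); split lattices
(`Q/Split`) -/
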