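import Crest.Agent.N265.Q.Gr1

/-! # Task Q-GR: the graded Grassmannian in one block of Plücker coordinates
(definitions and points: `Q/Gr0`) -/

set_option autoImplicit false
noncomputable section
open MvPolynomial TensorProduct Module

namespace Crest.Agent.N265
open Alg _root_.Crest.Agent.N265.Pow GV Bun

namespace GrD
variable {Γ : GrD} {y y' ξ : Pt}
theorem sm : Γ.Y.Sm Γ.dim := Spc.sm_of fun _ hy => ⟨by
  rw [← finrank_map_vec le_rfl, ← finrank_range_sup hy]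
  exact Submodule.finrank_mono (map_tan_le hy), dim_le_ldim hy⟩
theorem map_tan (hy : y ∈ Γ.Y.pts) :
    (Γ.Y.Tan y).map Γ.vec = LinearMap.range (Γ.ks y) ⊔ Submodule.span ℂ {Γ.vec y} :=
  Submodule.eq_of_le_of_finrank_eq (map_tan_le hy)
    (by rw [finrank_map_vec le_rfl, finrank_range_sup hy, (sm y hy).1])
/-- Kodaira-Spencer: `φ` is the first order variation of `U` along `ξ` -/
theorem isVar_iff (hy : y ∈ Γ.Y.pts) (hξ : ξ ∈ Γ.Y.Tan y) {φ : Γ.En.V} :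
    (∀ j, IsVar Γ.Y.fn ⟨y, hy⟩ (Γ.Y.pd y ξ) (fun x => Γ.U j x.1) (φ j)) ↔
      Γ.vec ξ - Γ.ks y φ ∈ Submodule.span ℂ {Γ.vec y} := by
  refine ⟨sub_mem_of_isVar hy hξ, fun h j => ?_⟩
  obtain ⟨ψ, hψ⟩ := exists_isVar hy hξ
  have h1 := sub_mem h (sub_mem_of_isVar hy hξ hψ)
  rw [sub_sub_sub_cancel_left, ← map_sub, ks_mem_span hy, mem_stab] at h1
  exact (hψ j).congr (h1 j)
lemma mem_enOf_iff {T : Submodule ℂ Pt} {φ : Γ.En.V} :
    φ ∈ Γ.enOf y T ↔ ∃ ξ ∈ T, Γ.vec ξ = Γ.ks y φ := Iff.rfl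
lemma span_le_map {T : Submodule ℂ Pt} (h0 : y ∈ T) :
    Submodule.span ℂ {Γ.vec y} ≤ T.map Γ.vec :=
  (Submodule.span_singleton_le_iff_mem _ _).2 (Submodule.mem_map_of_mem h0)
theorem mem_enOf (hy : y ∈ Γ.Y.pts) {T : Submodule ℂ Pt} (hT : T ≤ Γ.Y.Tan y) (h0 : y ∈ T)
    {φ : Γ.En.V} : φ ∈ Γ.enOf y T ↔
      ∃ ξ ∈ T, ∀ j, IsVar Γ.Y.fn ⟨y, hy⟩ (Γ.Y.pd y ξ) (fun x => Γ.U j x.1) (φ j) := by
  refine ⟨fun ⟨ξ, hξ, e⟩ => ⟨ξ, hξ, (isVar_iff hy (hT hξ)).2 ?_⟩, fun ⟨ξ, hξ, h⟩ => ?_⟩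
  · rw [e, sub_self]; exact zero_mem _
  · have := sub_mem (Submodule.mem_map_of_mem hξ)
      (span_le_map h0 ((isVar_iff hy (hT hξ)).1 h))
    rwa [sub_sub_cancel] at this
theorem stab_le_enOf (hy : y ∈ Γ.Y.pts) {T : Submodule ℂ Pt} (h0 : y ∈ T) :
    Γ.stab y ≤ Γ.enOf y T := by
  rw [← comap_span hy]; exact Submodule.comap_mono (span_le_map h0)
lemma range_sup_map (hy : y ∈ Γ.Y.pts) {T : Submodule ℂ Pt} (hT : T ≤ Γ.Y.Tan y) (h0 : y ∈ T) :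
    LinearMap.range (Γ.ks y) ⊔ T.map Γ.vec = (Γ.Y.Tan y).map Γ.vec := by
  refine le_antisymm (sup_le ?_ (Submodule.map_mono hT)) ?_ <;> rw [map_tan hy]
  exacts [le_sup_left, sup_le_sup_left (span_le_map h0) _]
theorem finrank_enOf (hy : y ∈ Γ.Y.pts) {T : Submodule ℂ Pt} (hT : T ≤ Γ.Y.Tan y) (h0 : y ∈ T) :
    finrank ℂ T + finrank ℂ (Γ.stab y) = 1 + finrank ℂ (Γ.enOf y T) := by
  have h1 := finrank_inf_comap_add ⊤ (T.map Γ.vec) (Γ.ks y)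
  rw [top_inf_eq, Submodule.map_top, finrank_top, range_sup_map hy hT h0, finrank_map_vec hT,
    finrank_map_vec le_rfl, (sm y hy).1] at h1
  have := finrank_stab hy
  rw [enOf]
  omega
/-- the tangent bundle of a smooth subspace -/
theorem kl_tan_sub {Z : Spc} (hZ : Z.Sub Γ.Y) {n : ℕ} (hs : Z.Sm n) (Vs : Finset Var)
    (hV : Z.Vars Vs) : (IsAB Z Γ.En fun y => Γ.enOf y (Z.Tan y)) ∧ (Bun.tan Z Vs hV n hs).kl =
      1 + (kc Z Γ.En (fun y => Γ.enOf y (Z.Tan y)) - kc Z Γ.En Γ.stab) := by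
  have hb : Γ.b ∈ Z.B := hZ.1 ▸ b_mem
  obtain ⟨h1, h2⟩ := Γ.β.kc_tan hb (fun _ h => supp (hZ.2 h)) hs Vs hV
  have h3 := (Γ.β.kc_tan b_mem (fun _ h => supp h) sm _ vars).1.mono hZ
  have hst := isAB_stab.mono hZ
  have h4 : IsAB Z Γ.En fun y => Γ.enOf y (Z.Tan y) :=
    ((IsAB.top hst.hin).comap_of_surj h3 h1 (isRM_ks Z) fun x hx => by
      rw [Submodule.map_top]
      exact range_sup_map (hZ.2 hx) (hZ.tan_le x) (self_mem_tan hx)).congr fun _ _ => top_inf_eq _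
  have h0 : ∀ x ∈ Z.pts, Γ.β.vec Γ.b x ≠ 0 := fun x hx => vec_ne (hZ.2 hx)
  refine ⟨h4, ?_⟩
  rw [kq_iso h4 hst h1 (IsAB.span h1.hin (Γ.β.isRV_vec _) h0) (isRM_ks Z) fun x hx => ⟨?_, ?_⟩,
    kc_span h1.hin (Γ.β.isRV_vec _) h0, h2, add_sub_cancel]
  · exact (congrArg _ (comap_span (hZ.2 hx))).trans
      (inf_eq_right.2 (stab_le_enOf (hZ.2 hx) (self_mem_tan hx)))
  · change ((Submodule.map Γ.vec _).comap _).map _ ⊔ Submodule.span ℂ {Γ.vec x} =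
      Submodule.map Γ.vec _
    rw [Submodule.map_comap_eq, sup_comm, ← sup_inf_assoc_of_le _ (span_le_map (self_mem_tan hx)),
      inf_eq_right, sup_comm, ← map_tan (hZ.2 hx)]
    exact Submodule.map_mono (hZ.tan_le x)
theorem kl_tan (Vs : Finset Var) (hV : Γ.Y.Vars Vs) : (Bun.tan Γ.Y Vs hV _ sm).kl =
    1 + ∑ j, K.dual _ (kc Γ.Y (Γ.G j) (Γ.U j)) *
      (kc Γ.Y (Γ.G j) (fun _ => ⊤) - kc Γ.Y (Γ.G j) (Γ.U j)) := by
  rw [(kl_tan_sub (Spc.Sub.refl _) sm Vs hV).2]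
  have h1 : kc Γ.Y Γ.En (fun y => Γ.enOf y (Γ.Y.Tan y)) =
      kc Γ.Y Γ.En fun _ => Submodule.pi Set.univ fun _ => ⊤ := kc_congr fun x hx => by
    rw [Submodule.pi_top, eq_top_iff]
    intro φ _
    rw [enOf, map_tan hx]
    exact Submodule.mem_sup_left ⟨φ, rfl⟩
  have h2 := kc_pi fun j => (isAB_U (Γ := Γ) j).homMap (isAB_U j)
  rw [h1, kc_pi fun j => IsAB.top ((isAB_U j).homMap (isAB_U j)).hin]
  change _ + (_ - kc Γ.Y Γ.En fun x => Submodule.pi Set.univ _) = _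
  rw [h2, ← Finset.sum_sub_distrib]
  exact congrArg _ (Finset.sum_congr rfl fun j _ => kq_hom_top (isAB_U j) (isAB_U j))
lemma gpt_eq (hy : Γ.β.Supp Γ.b y) {w : ℤ} (hw : ∀ v : Var, y v ≠ 0 → v.2.2 = w) :
    gpt y = chi (eB Γ.b + w • eT) • y := by
  funext v
  by_cases hv : y v = 0
  · simp [gpt, hv]
  · obtain ⟨i, rfl⟩ := hy.exists hv
    rw [← hw _ hv]; rfl
lemma g_vec_iff (hξ : Γ.β.Supp Γ.b ξ) {w : ℤ} :
    Γ.Λ.g (Γ.vec ξ) = chi (w • eT) • Γ.vec ξ ↔ ∀ v : Var, ξ v ≠ 0 → v.2.2 = w := by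
  refine ⟨fun h v hv => ?_, fun h => ?_⟩
  · obtain ⟨i, rfl⟩ := hξ.exists hv
    have h1 := repr_g Γ.β.he (Γ.vec ξ) i
    rw [h, map_smul, Finsupp.smul_apply, smul_eq_mul, vec, Γ.β.repr_vec] at h1
    have h2 := congrArg (fun d : D => d none) (chi_inj (mul_right_cancel₀ hv h1))
    simpa [eT, Blk.var] using h2.symm
  · have h1 := Γ.β.vec_gpt Γ.b ξ
    rw [gpt_eq hξ h, map_smul, chi_add, mul_smul] at h1
    exact (smul_right_injective _ (chi_ne _) h1).symm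
/-- `T`-fixed points -/
theorem fixed_iff (hy : y ∈ Γ.Y.pts) :
    (∃ w : ℤ, ∀ v : Var, y v ≠ 0 → v.2.2 = w) ↔ ∀ j, (Γ.G j).Stab (Γ.U j y) := by
  refine ⟨fun ⟨w, hw⟩ j => ?_, fun h => ?_⟩
  · rw [Stab, (isAB_U j).eqv y hy, gpt_eq (supp hy) hw, U_smul (chi_ne _)]
  · obtain ⟨c, -, hc⟩ := uniq hy (Γ.Y.inv y hy) fun j => (h j).symm.trans ((isAB_U j).eqv y hy)
    obtain ⟨u, -, hu⟩ := Γ.Y.rel y hy _ b_mem
    refine ⟨u.2.2, fun v hv => ?_⟩
    have h1 : chi (vdeg v) = c := mul_right_cancel₀ hv (congrFun hc v)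
    have h2 : chi (vdeg u) = c := mul_right_cancel₀ hu (congrFun hc u)
    rw [← vdeg_none, chi_inj (h1.trans h2.symm), vdeg_none]
lemma _root_.Crest.Agent.N265.GV.g_of_mem_part {V : GV} {d : D} {v : V.V}
    (h : v ∈ V.part (· = d)) : V.g v = chi d • v :=
  Module.End.mem_eigenspace_iff.1 (part_le (M := Module.End.eigenspace V.g.toLinearMap (chi d))
    (P := (· = d)) (fun _ e _ hv => Module.End.mem_eigenspace_iff.2 (e ▸ hv)) h)
lemma _root_.Crest.Agent.N265.GV.Stab.eq_sup {V : GV} {B : Finset ℕ} (hV : V.In B)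
    {M : Submodule ℂ V.V} (h : V.Stab M) {d e : D} (hde : d ≠ e)
    (h01 : V.part (· = d) ⊔ V.part (· = e) = ⊤) : M ⊓ V.part (· = d) ⊔ M ⊓ V.part (· = e) = M := by
  have h1 : V.part (· = d) ≤ V.part fun c => ¬ c = e :=
    part_le fun c hc v hv => mem_part (hc ▸ hde) hv
  have h2 : V.part (· = d) = V.part fun c => ¬ c = e := by
    rw [← top_inf_eq (V.part fun c => ¬ c = e), ← h01, sup_inf_assoc_of_le _ h1,
      (hV.isCompl_part (· = e)).inf_eq_bot, sup_bot_eq]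
  rw [h2, sup_comm]
  exact h.eq_part_sup hV _
/-- the weight of a fixed point when only the weights `0, 1` occur -/
theorem wt_eq (hy : y ∈ Γ.Y.pts) (hs : ∀ j, (Γ.G j).Stab (Γ.U j y))
    (h01 : ∀ j, (Γ.G j).part (· = 0) ⊔ (Γ.G j).part (· = eT) = ⊤) {v : Var} (hv : y v ≠ 0) :
    v.2.2 = ∑ j, (finrank ℂ (Γ.U j y ⊓ (Γ.G j).part (· = eT) : Submodule ℂ (Γ.G j).V) : ℤ) := by
  obtain ⟨w, hw⟩ := (fixed_iff hy).2 hs
  have hne : (0 : D) ≠ eT := fun e => by simpa [eT] using congrArg (fun d : D => d none) e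
  have h1 := Plk.lamM_two (f := Γ.W.g.toLinearMap) (y := Γ.vec y) (a := 1) (c := chi eT)
    (A := Submodule.pi Set.univ fun j => Γ.U j y ⊓ (Γ.G j).part (· = 0))
    (B := Submodule.pi Set.univ fun j => Γ.U j y ⊓ (Γ.G j).part (· = eT))
    (fun e => hne (chi_inj (chi_zero.trans e)))
    (fun u hu => funext fun j => by simpa using g_of_mem_part (hu j trivial).2)
    (fun u hu => funext fun j => g_of_mem_part (hu j trivial).2) (by
      rw [← Ut_def, Ut_eq hy]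
      refine le_antisymm (sup_le (Submodule.pi_mono fun _ _ => inf_le_left)
        (Submodule.pi_mono fun _ _ => inf_le_left)) fun u hu => ?_
      choose a ha c hc e using fun j => Submodule.mem_sup.1
        (((hs j).eq_sup (Γ.hG j) hne (h01 j)).ge (hu j trivial))
      exact Submodule.mem_sup.2 ⟨a, fun j _ => ha j, c, fun j _ => hc j, funext e⟩) (finrank_Ut hy)
  have hp : ∀ m : ℕ, chi eT ^ m = chi (m • eT) := fun m => by
    induction m with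
    | zero => simp
    | succ m ih => rw [pow_succ, ih, succ_nsmul, chi_add]
  rw [one_pow, one_mul, finrank_sub_pi, hp] at h1
  have h2 := smul_left_injective ℂ (vec_ne hy) (h1.symm.trans ((g_vec_iff (supp hy)).2 hw))
  simpa [eT, hw v hv] using congrArg (fun d : D => d none) (chi_inj h2).symm
/-- fixed directions at a fixed point are the variations of degree zero -/
theorem mem_enOf_fix (hy : y ∈ Γ.Y.pts) {w : ℕ → ℤ} (hw : ∀ v : Var, y v ≠ 0 → v.2.2 = w v.1)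
    {φ : Γ.En.V} : φ ∈ Γ.enOf y (Γ.Y.Tan y ⊓ V.fixS w) ↔
      ∃ φ' : Γ.En.V, (∀ j, Deg0 (Γ.G j) (Γ.G j) (φ' j)) ∧ φ - φ' ∈ Γ.stab y := by
  have hw' : ∀ v : Var, y v ≠ 0 → v.2.2 = w Γ.b := fun v hv => by
    obtain ⟨i, rfl⟩ := (supp hy).exists hv
    exact hw _ hv
  have hg := (g_vec_iff (supp hy)).2 hw'
  have hfix : ∀ ξ, Γ.β.Supp Γ.b ξ →
      (ξ ∈ V.fixS w ↔ Γ.Λ.g (Γ.vec ξ) = chi (w Γ.b • eT) • Γ.vec ξ) := fun ξ hξ => by
    rw [g_vec_iff hξ, V.mem_fixS]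
    refine forall_congr' fun v => ?_
    refine not_imp_comm.trans (imp_congr_right fun hv => ?_)
    obtain ⟨i, rfl⟩ := hξ.exists hv
    exact Iff.rfl
  have hks : ∀ ψ, Γ.Λ.g (Γ.ks y ψ) = chi (w Γ.b • eT) • Γ.ks y (Γ.En.g ψ) := fun ψ => by
    rw [ks_apply, ← dE_g, hg, map_smul, ks_apply]
  have hin : Γ.En.In ∅ := in_pi fun j => (Γ.hG j).hom (Γ.hG j)
  constructor
  · rintro ⟨ξ, ⟨h1, h2⟩, e⟩
    have hd : Deg0 Γ.En (Γ.Λ.shift (-(w Γ.b • eT))) (Γ.ks y) := fun ψ => by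
      rw [shift_g, hks, smul_smul, ← chi_add, neg_add_cancel, chi_zero, one_smul]
    have hΛ : (Γ.Λ.shift (-(w Γ.b • eT))).In ∅ :=
      ((in_pi Γ.hG).lam _).shift (neg_mem (zsmul_mem (eT_mem _) _))
    obtain ⟨φ₀, h₀, φ₁, h₁, rfl⟩ := Submodule.mem_sup.1
      ((hin.isCompl_part (· = 0)).sup_eq_top ▸ Submodule.mem_top : φ ∈ _)
    refine ⟨φ₀, fun j v => ?_, ?_⟩
    · have h3 := LinearMap.congr_fun (congrFun (g_of_mem_part h₀) j) ((Γ.G j).g v)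
      rw [chi_zero, one_smul] at h3
      rw [← h3]
      change (Γ.G j).g (φ₀ j ((Γ.G j).g.symm ((Γ.G j).g v))) = _
      rw [LinearEquiv.symm_apply_apply]
    · have h3 : Γ.ks y (φ₀ + φ₁) ∈ (Γ.Λ.shift (-(w Γ.b • eT))).part (· = 0) :=
        mem_part (P := (· = 0)) (d := 0) rfl (by
        rw [shift_g, ← e, (hfix ξ (supp_tan h1)).1 h2, smul_smul, ← chi_add, neg_add_cancel])
      have h4 := sub_mem h3 (hd.map_part _ (Submodule.mem_map_of_mem h₀))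
      rw [map_add, add_sub_cancel_left] at h4
      have h5 := Submodule.disjoint_def.1 (hΛ.isCompl_part (· = 0)).disjoint _ h4
        (hd.map_part _ (Submodule.mem_map_of_mem h₁))
      rw [add_sub_cancel_left, ← ks_mem_span hy, h5]
      exact zero_mem _
  · rintro ⟨ψ, h1, h2⟩
    obtain ⟨c, hc⟩ := Submodule.mem_span_singleton.1 ((ks_mem_span hy).2 h2)
    obtain ⟨ξ, hξ, e⟩ : Γ.ks y φ ∈ (Γ.Y.Tan y).map Γ.vec := by
      rw [map_tan hy]; exact Submodule.mem_sup_left ⟨φ, rfl⟩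
    refine ⟨ξ, ⟨hξ, (hfix ξ (supp_tan hξ)).2 ?_⟩, e⟩
    have h3 : Γ.En.g ψ = ψ := funext fun j => LinearMap.ext fun v => by
      change (Γ.G j).g (ψ j ((Γ.G j).g.symm v)) = _
      rw [← h1 j, LinearEquiv.apply_symm_apply]
    rw [map_sub, eq_sub_iff_add_eq] at hc
    rw [e, ← hc, map_add, map_smul, hg, hks, h3, smul_add, smul_comm]
/-- a family of graded subspaces over `X` gives a graph in `X × Y` -/
theorem exists_graph {X : Spc} (hb : Γ.b ∉ X.B) (L : ∀ j, Pt → Submodule ℂ (Γ.G j).V)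
    (hL : ∀ j, IsAB X (Γ.G j) (L j)) (hk : ∀ j, ∀ x ∈ X.pts, finrank ℂ (L j x) = Γ.k j) :
    ∃ (P : Spc) (A : Bun X) (y : A.ι → Var), IsPSub P A 0 Γ.b y ∧ A.Rk 1 ∧ Proj P Γ.Y ∧
      P.B = insert Γ.b X.B ∧ ∀ z, z ∈ P.pts ↔ z ∈ (X.fib Γ.Y).pts ∧
        ∀ j, Γ.U j z = L j (restr X.B z) := by
  have hK : ∀ x ∈ X.pts, finrank ℂ (Submodule.pi Set.univ fun j => L j x) = Γ.K := fun x hx => by
    rw [finrank_sub_pi]; exact Finset.sum_congr rfl fun j _ => hk j x hx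
  let A := ((IsAB.pi hL).lamS Γ.K).toBun Γ.β.e (fun i => Γ.β.w i • eT)
    (fun i => zsmul_mem (eT_mem _) _) Γ.β.he
  have hv : PVar A 0 Γ.b (Γ.β.var Γ.b) :=
    ⟨hb, zero_mem _, Γ.β.var_inj _, fun _ => rfl, fun _ => (zero_add _).symm⟩
  obtain ⟨P, hP⟩ := hv.exists_psub
  have he : ∀ z : Pt, (fun i => z (Γ.β.var Γ.b i)) = Γ.β.e.equivFun (Γ.vec z) := fun z =>
    funext fun i => (Γ.β.repr_vec _ z i).symm
  have hm : ∀ z, z ∈ P.pts ↔ restr X.B z ∈ X.pts ∧ Γ.β.e.equivFun (Γ.vec z) ∈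
      (lamS Γ.K (Submodule.pi Set.univ fun j => L j (restr X.B z))).map Γ.β.e.equivFun.toLinearMap ∧
      Γ.β.e.equivFun (Γ.vec z) ≠ 0 ∧ ∀ v, z v ≠ 0 → v.1 ∈ X.B ∨ v ∈ Set.range (Γ.β.var Γ.b) :=
    fun z => by rw [← he]; exact hP.mem z
  have hbb : Γ.b ∈ Γ.Y.B := b_mem
  have key : ∀ z, z ∈ P.pts ↔ z ∈ (X.fib Γ.Y).pts ∧ ∀ j, Γ.U j z = L j (restr X.B z) := fun z => by
    rw [hm, Spc.mem_fib]
    constructor
    · rintro ⟨h1, ⟨u, h2, e⟩, h3, h4⟩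
      rw [Γ.β.e.equivFun.injective e] at h2
      obtain ⟨h5, h6⟩ := mem_of (y := restr Γ.Y.B z) (fun j => hk j _ h1) (fun v hv => by
          by_contra h0
          have h7 : v.1 ∈ Γ.Y.B := by_contra fun h => h0 (if_neg h)
          rw [restr, if_pos h7] at h0
          rcases h4 v h0 with h | ⟨i, h⟩
          · exact hb (Finset.mem_singleton.1 h7 ▸ h)
          · exact hv i h.symm)
        (by rw [vec_restr hbb]; exact fun h => h3 (by rw [h, map_zero]))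
        (by rw [vec_restr hbb]; exact h2)
      refine ⟨⟨h1, h5, fun v hv => ?_⟩, fun j => by rw [← h6, U_restr hbb]⟩
      rcases h4 v hv with h | ⟨i, rfl⟩
      exacts [Finset.mem_union_left _ h, Finset.mem_union_right _ hbb]
    · rintro ⟨⟨h1, h2, h3⟩, h4⟩
      refine ⟨h1, Submodule.mem_map_of_mem ?_, ?_, fun v hv => ?_⟩
      · have := vec_mem h2
        rw [Ut_eq h2, vec_restr hbb] at this
        simpa only [U_restr hbb, h4] using this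
      · rw [Ne, LinearEquiv.map_eq_zero_iff, ← vec_restr hbb]; exact vec_ne h2
      · refine (Finset.mem_union.1 (h3 v hv)).imp_right fun h => ?_
        obtain ⟨i, e⟩ := (supp h2).exists (v := v) (by rwa [restr, if_pos h])
        exact ⟨i, e.symm⟩
  refine ⟨P, A, _, hP, fun x hx => ?_, ⟨?_, fun z hz => ((key z).1 hz).1.2.1⟩, hP.B, key⟩
  · exact (LinearEquiv.finrank_map_eq Γ.β.e.equivFun _).trans (Plk.finrank_lamS_self (hK x hx))
  · rw [hP.B]; exact Finset.singleton_subset_iff.2 (Finset.mem_insert_self _ _)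
end GrD

end Crest.Agent.N265
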