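import Crest.Agent.N265.K.AB4

/-! # Task Q-SUB: the space of subrepresentations of a quiver with relations as a cone -/

set_option autoImplicit false
noncomputable section
open MvPolynomial TensorProduct Module

namespace Crest.Agent.N265
open Alg GV

/-- arrows `Ar j j'` acting on the spaces `G j`, with relations `ρ a'' = ρ a ∘ ρ a'` -/
structure Quiv {J : Type} (G : J → GV) where
  Ar : J → J → Type
  [acg : ∀ j j', AddCommGroup (Ar j j')]
  [mod : ∀ j j', Module ℂ (Ar j j')]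
  [fd : ∀ j j', FiniteDimensional ℂ (Ar j j')]
  ρ : ∀ j j', Ar j j' →ₗ[ℂ] (G j).V →ₗ[ℂ] (G j').V
  deg : ∀ j j' a, Deg0 (G j) (G j') (ρ j j' a)
  Rl : ∀ j j' j'', Ar j' j'' → Ar j j' → Ar j j'' → Prop
  rel : ∀ j j' j'' a a' a'', Rl j j' j'' a a' a'' → ρ j j'' a'' = ρ j' j'' a ∘ₗ ρ j j' a'
attribute [instance] Quiv.acg Quiv.mod Quiv.fd

namespace Quiv
variable {J : Type} [Fintype J] {G : J → GV} (q : Quiv G)
/-- one-cochains -/
abbrev C : GV := GV.pi fun e : J × J => (triv (q.Ar e.1 e.2)).hom ((G e.1).hom (G e.2))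
/-- zero-cochains -/
abbrev En (G : J → GV) : GV := GV.pi fun j => (G j).hom (G j)
/-- `U` is a subrepresentation -/
def IsSub (U : ∀ j, Submodule ℂ (G j).V) : Prop := ∀ j j' a, ∀ u ∈ U j, q.ρ j j' a u ∈ U j'
/-- cochains preserving `U` -/
def den (U : ∀ j, Submodule ℂ (G j).V) : Submodule ℂ q.C.V where
  carrier := {c | ∀ j j' a, ∀ u ∈ U j, c (j, j') a u ∈ U j'}
  add_mem' := fun h h' j j' a u hu => add_mem (h j j' a u hu) (h' j j' a u hu)
  zero_mem' := fun _ _ _ _ _ => zero_mem _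
  smul_mem' := fun c _ h j j' a u hu => Submodule.smul_mem _ c (h j j' a u hu)
/-- cocycles modulo `U` -/
def Zc (U : ∀ j, Submodule ℂ (G j).V) : Submodule ℂ q.C.V where
  carrier := {c | ∀ j j' j'' a a' a'', q.Rl j j' j'' a a' a'' → ∀ u ∈ U j,
    c (j, j'') a'' u - q.ρ j' j'' a (c (j, j') a' u) - c (j', j'') a (q.ρ j j' a' u) ∈ U j''}
  add_mem' := fun {c c'} h h' j j' j'' a a' a'' hr u hu => by
    convert add_mem (h j j' j'' a a' a'' hr u hu) (h' j j' j'' a a' a'' hr u hu) using 1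
    simp only [Pi.add_apply, LinearMap.add_apply, map_add]
    abel
  zero_mem' := fun j j' j'' a a' a'' _ u _ => by
    change (0 : (G j'').V) - q.ρ j' j'' a 0 - 0 ∈ _
    simp
  smul_mem' := fun t c h j j' j'' a a' a'' hr u hu => by
    convert Submodule.smul_mem _ t (h j j' j'' a a' a'' hr u hu) using 1
    simp only [Pi.smul_apply, LinearMap.smul_apply, map_smul, smul_sub]
/-- coboundaries -/
def δ : (En G).V →ₗ[ℂ] q.C.V where
  toFun φ e :=
    { toFun := fun a => q.ρ e.1 e.2 a ∘ₗ φ e.1 - φ e.2 ∘ₗ q.ρ e.1 e.2 a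
      map_add' := fun a a' => LinearMap.ext fun u => by
        simp only [map_add, LinearMap.add_apply, LinearMap.sub_apply, LinearMap.comp_apply]
        abel
      map_smul' := fun t a => LinearMap.ext fun u => by
        simp only [map_smul, LinearMap.smul_apply, LinearMap.sub_apply, LinearMap.comp_apply,
          RingHom.id_apply, smul_sub] }
  map_add' := fun φ ψ => funext fun e => LinearMap.ext fun a => LinearMap.ext fun u => by
    simp only [LinearMap.coe_mk, AddHom.coe_mk, Pi.add_apply, map_add, LinearMap.add_apply,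
      LinearMap.sub_apply, LinearMap.comp_apply]
    abel
  map_smul' := fun t φ => funext fun e => LinearMap.ext fun a => LinearMap.ext fun u => by
    simp only [LinearMap.coe_mk, AddHom.coe_mk, Pi.smul_apply, map_smul, LinearMap.smul_apply,
      LinearMap.sub_apply, LinearMap.comp_apply, RingHom.id_apply, smul_sub]
lemma δ_apply (φ : (En G).V) (j j' : J) (a : q.Ar j j') (u : (G j).V) :
    q.δ φ (j, j') a u = q.ρ j j' a (φ j u) - φ j' (q.ρ j j' a u) := rfl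
lemma C_g (c : q.C.V) (j j' : J) (a : q.Ar j j') (u : (G j).V) :
    q.C.g c (j, j') a u = (G j').g (c (j, j') a ((G j).g.symm u)) := rfl
lemma En_g (φ : (En G).V) (j : J) (u : (G j).V) :
    (En G).g φ j u = (G j).g (φ j ((G j).g.symm u)) := rfl
omit [Fintype J] in
lemma ρ_symm (j j' : J) (a : q.Ar j j') (u : (G j).V) :
    q.ρ j j' a ((G j).g.symm u) = (G j').g.symm (q.ρ j j' a u) := by
  rw [LinearEquiv.eq_symm_apply, ← q.deg, LinearEquiv.apply_symm_apply]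
lemma deg0_δ : Deg0 (En G) q.C q.δ := fun φ =>
  funext fun ⟨j, j'⟩ => LinearMap.ext fun a => LinearMap.ext fun u => by
    rw [C_g, δ_apply, δ_apply, En_g, En_g, q.deg, map_sub, ρ_symm]
lemma δ_mem_Zc (U : ∀ j, Submodule ℂ (G j).V) (φ : (En G).V) : q.δ φ ∈ q.Zc U :=
  fun j j' j'' a a' a'' hr u _ => by
    rw [δ_apply, δ_apply, δ_apply, q.rel j j' j'' a a' a'' hr]
    simp only [LinearMap.comp_apply, map_sub]
    convert zero_mem (U j'') using 1
    abel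
lemma den_le_Zc {U : ∀ j, Submodule ℂ (G j).V} (h : q.IsSub U) : q.den U ≤ q.Zc U :=
  fun _ hc j j' j'' a a' a'' _ u hu => sub_mem (sub_mem (hc j j'' a'' u hu)
    (h j' j'' a _ (hc j j' a' u hu))) (hc j' j'' a _ (h j j' a' u hu))
/-- the cochain of the representation -/
def rho : q.C.V := fun e => q.ρ e.1 e.2
lemma g_rho : q.C.g q.rho = q.rho :=
  funext fun ⟨j, j'⟩ => LinearMap.ext fun a => LinearMap.ext fun u => by
    rw [C_g]
    change (G j').g (q.ρ j j' a _) = q.ρ j j' a u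
    rw [ρ_symm, LinearEquiv.apply_symm_apply]
lemma rho_mem_den {U : ∀ j, Submodule ℂ (G j).V} : q.rho ∈ q.den U ↔ q.IsSub U := Iff.rfl
/-- the value of a relation on a cochain -/
def rm {j j' j'' : J} (a : q.Ar j' j'') (a' : q.Ar j j') (a'' : q.Ar j j'') :
    q.C.V →ₗ[ℂ] ((G j).hom (G j'')).V where
  toFun c := c (j, j'') a'' - q.ρ j' j'' a ∘ₗ c (j, j') a' - c (j', j'') a ∘ₗ q.ρ j j' a'
  map_add' c c' := LinearMap.ext fun u => by
    simp only [Pi.add_apply, map_add, LinearMap.add_apply, LinearMap.sub_apply,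
      LinearMap.comp_apply]
    abel
  map_smul' t c := LinearMap.ext fun u => by
    simp only [Pi.smul_apply, map_smul, LinearMap.smul_apply, LinearMap.sub_apply,
      LinearMap.comp_apply, RingHom.id_apply, smul_sub]
lemma rm_apply {j j' j'' : J} (a : q.Ar j' j'') (a' : q.Ar j j') (a'' : q.Ar j j'') (c : q.C.V)
    (u : (G j).V) : q.rm a a' a'' c u =
      c (j, j'') a'' u - q.ρ j' j'' a (c (j, j') a' u) - c (j', j'') a (q.ρ j j' a' u) := rfl
lemma deg0_rm {j j' j'' : J} (a : q.Ar j' j'') (a' : q.Ar j j') (a'' : q.Ar j j'') :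
    Deg0 q.C ((G j).hom (G j'')) (q.rm a a' a'') := fun c => LinearMap.ext fun u => by
  change _ = (G j'').g (q.rm a a' a'' c ((G j).g.symm u))
  rw [rm_apply, rm_apply, C_g, C_g, C_g, q.deg, map_sub, map_sub, ρ_symm]
/-- the relations -/
def Rels : Type := {t : Σ j j' j'' : J, q.Ar j' j'' × q.Ar j j' × q.Ar j j'' //
  q.Rl t.1 t.2.1 t.2.2.1 t.2.2.2.1 t.2.2.2.2.1 t.2.2.2.2.2}
lemma Zc_eq (U : ∀ j, Submodule ℂ (G j).V) : q.Zc U = ⨅ t : q.Rels,
    (homMap (U t.1.1) (U t.1.2.2.1)).comap (q.rm t.1.2.2.2.1 t.1.2.2.2.2.1 t.1.2.2.2.2.2) := by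
  ext c
  rw [Submodule.mem_iInf]
  exact ⟨fun h t => h _ _ _ _ _ _ t.2, fun h j j' j'' a a' a'' hr => h ⟨⟨j, j', j'', a, a', a''⟩, hr⟩⟩
/-- evaluation of a cochain -/
def ev {j j' : J} (a : q.Ar j j') : q.C.V →ₗ[ℂ] (G j).V →ₗ[ℂ] (G j').V where
  toFun c := c (j, j') a
  map_add' _ _ := rfl
  map_smul' _ _ := rfl

variable {X Q : Spc} {U : ∀ j, Pt → Submodule ℂ (G j).V}
lemma in_C {B : Finset ℕ} (h : ∀ j, (G j).In B) : q.C.In B :=
  in_pi fun e => (in_triv _).hom ((h e.1).hom (h e.2))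
theorem isAB_den (hU : ∀ j, IsAB X (G j) (U j)) : IsAB X q.C fun x => q.den fun j => U j x :=
  (IsAB.pi fun e : J × J =>
    IsAB.homTo (in_triv (q.Ar e.1 e.2)) ((hU e.1).homMap (hU e.2))).congr fun _ _ =>
      Submodule.ext fun _ => ⟨fun h j j' => h (j, j') trivial, fun h e _ => h e.1 e.2⟩
theorem cog_Zc (hU : ∀ j, IsAB X (G j) (U j)) : CogA X fun x => q.Zc fun j => U j x :=
  (CogA.iInf fun t : q.Rels => ((hU t.1.1).homMap (hU t.1.2.2.1)).cog.comap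
    (φ := fun _ => q.rm t.1.2.2.2.1 t.1.2.2.2.2.1 t.1.2.2.2.2.2) (RegM.const _)).congr
    fun x _ => (q.Zc_eq fun j => U j x).symm
theorem eqv_Zc (hU : ∀ j, IsAB X (G j) (U j)) : Eqv X q.C fun x => q.Zc fun j => U j x :=
  (Eqv.iInf fun t : q.Rels => ((hU t.1.1).homMap (hU t.1.2.2.1)).eqv'.comap
    (IsRM.const (q.deg0_rm t.1.2.2.2.1 t.1.2.2.2.2.1 t.1.2.2.2.2.2))).congr
    fun x _ => (q.Zc_eq fun j => U j x).symm
/-- a regular map with kernel `den`, and the derivative of its value on the representation -/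
theorem exists_J (hU : ∀ j, IsAB X (G j) (U j)) :
    ∃ (V : GV) (Jm : Pt → q.C.V →ₗ[ℂ] V.V), V.In X.B ∧ IsRM X q.C V Jm ∧
      (∀ x ∈ X.pts, LinearMap.ker (Jm x) = q.den fun j => U j x) ∧
      ∀ x (hx : x ∈ X.pts), (q.IsSub fun j => U j x) → ∀ ξ ∈ X.Tan x, ∀ φ : (En G).V,
        (∀ j, IsVar X.fn ⟨x, hx⟩ (X.pd x ξ) (fun y => U j y.1) (φ j)) →
        dV (X.pd x ξ) (fun y : X.pts => Jm y.1 q.rho) = Jm x (q.δ φ) := by
  choose W Φ hW hΦ hr using fun j => (hU j).exists_range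
  choose W' Ψ hW' hΨ hk using fun j => (hU j).exists_ker
  have hmem : ∀ j, ∀ x ∈ X.pts, ∀ w, Φ j x w ∈ U j x := fun j x hx w => hr j x hx ▸ ⟨w, rfl⟩
  have hker : ∀ j, ∀ x ∈ X.pts, ∀ v, Ψ j x v = 0 ↔ v ∈ U j x := fun j x hx v => by
    rw [← hk j x hx, LinearMap.mem_ker]
  refine ⟨GV.pi fun e : J × J => (triv (q.Ar e.1 e.2)).hom ((W e.1).hom (W' e.2)),
    fun x => LinearMap.pi fun e => homM LinearMap.id (homM (Φ e.1 x) (Ψ e.2 x)) ∘ₗ LinearMap.proj e,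
    in_pi fun e => (in_triv _).hom ((hW e.1).hom (hW' e.2)),
    IsRM.pi fun e => (IsRM.id.homM ((hΦ e.1).homM (hΨ e.2))).comp
      (IsRM.const (V := q.C) (f := LinearMap.proj e) fun _ => rfl), fun x hx => ?_,
    fun x hx hs ξ hξ φ hφ => ?_⟩
  · ext c
    refine ⟨fun h j j' a u hu => ?_, fun h => ?_⟩
    · obtain ⟨w, rfl⟩ : u ∈ LinearMap.range (Φ j x) := (hr j x hx).symm ▸ hu
      exact (hker j' x hx _).1
        (LinearMap.congr_fun (LinearMap.congr_fun (congrFun h (j, j')) a) w)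
    · exact funext fun e => LinearMap.ext fun a => LinearMap.ext fun w =>
        (hker e.2 x hx _).2 (h e.1 e.2 a _ (hmem e.1 x hx w))
  · refine funext fun ⟨j, j'⟩ => LinearMap.ext fun a => LinearMap.ext fun w => ?_
    have hd := Spc.pder_pd hx hξ
    have e1 := dV_lin (δ := X.pd x ξ) (LinearMap.applyₗ w ∘ₗ LinearMap.applyₗ a ∘ₗ
      (LinearMap.proj (j, j') : (GV.pi fun e : J × J =>
        (triv (q.Ar e.1 e.2)).hom ((W e.1).hom (W' e.2))).V →ₗ[ℂ] _))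
      fun y : X.pts => (LinearMap.pi fun e => homM LinearMap.id (homM (Φ e.1 y.1) (Ψ e.2 y.1)) ∘ₗ
        LinearMap.proj e) q.rho
    refine e1.symm.trans ?_
    change dV (X.pd x ξ) (fun y : X.pts => Ψ j' y.1 (q.ρ j j' a (Φ j y.1 w))) =
      Ψ j' x (q.ρ j j' a (φ j (Φ j x w)) - φ j' (q.ρ j j' a (Φ j x w)))
    rw [hd.dV_app (hΨ j').reg (((hΦ j).reg w).map (q.ρ j j' a)), dV_lin, ← dV_apply]
    have h1 := IsVar.kill hd (hU j').alg (hΨ j').reg (fun y v hv => (hker j' y.1 y.2 v).2 hv)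
      (hφ j') _ (hs j j' a _ (hmem j x hx w))
    have h2 := (hker j' x hx _).2 (hs j j' a _
      (IsVar.into (hΦ j).reg (fun y v => hmem j y.1 y.2 v) (hφ j) w))
    rw [map_sub, map_sub, sub_eq_zero] at h2
    rw [map_sub, h2, eq_neg_of_add_eq_zero_left h1]
    abel
theorem exists_subSpc (hU : ∀ j, IsAB X (G j) (U j)) :
    ∃ Q : Spc, Q.Sub X ∧ ∀ x ∈ X.pts, x ∈ Q.pts ↔ q.IsSub fun j => U j x := by
  obtain ⟨V, Jm, hV, hJ, hk, -⟩ := q.exists_J hU
  obtain ⟨n, b, deg, -, hb⟩ := hV.exists_basis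
  obtain ⟨r, h1, h2⟩ := (hJ.app (IsRV.const q.g_rho)).exists_poly b hb
  refine ⟨X.cut (Set.range r) (by rintro _ ⟨i, rfl⟩; exact ⟨_, h1 i⟩), X.cut_sub _ _,
    fun x hx => ?_⟩
  rw [Spc.mem_cut, ← rho_mem_den, ← hk x hx, LinearMap.mem_ker, ← b.repr.map_eq_zero_iff]
  refine ⟨fun h => Finsupp.ext fun i => (h2 x hx i).symm.trans (h.2 _ ⟨i, rfl⟩), fun h => ⟨hx, ?_⟩⟩
  rintro _ ⟨i, rfl⟩
  rw [h2 x hx i, h, Finsupp.zero_apply]
/-- covectors that extend to regular covectors killing `rho` and `den` -/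
def ext (X : Spc) (U : ∀ j, Pt → Submodule ℂ (G j).V) (x : X.pts) : Submodule ℂ (Dual ℂ q.C.V) where
  carrier := {b | ∃ ν : X.pts → Dual ℂ q.C.V, RegV X.fn ν ∧ ν x = b ∧
    ∀ y, ν y q.rho = 0 ∧ ν y ∈ (q.den fun j => U j y.1).dualAnnihilator}
  add_mem' := by
    rintro _ _ ⟨ν, h1, rfl, h2⟩ ⟨ν', h1', rfl, h2'⟩
    exact ⟨_, h1.add h1', rfl, fun y => ⟨by simp [(h2 y).1, (h2' y).1], add_mem (h2 y).2 (h2' y).2⟩⟩
  zero_mem' := ⟨_, RegV.zero, rfl, fun _ => ⟨rfl, zero_mem _⟩⟩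
  smul_mem' := by
    rintro t _ ⟨ν, h1, rfl, h2⟩
    exact ⟨_, h1.csmul t, rfl, fun y => ⟨by simp [(h2 y).1], Submodule.smul_mem _ _ (h2 y).2⟩⟩
theorem ann_Zc_le (hU : ∀ j, IsAB X (G j) (U j)) (x : X.pts) (hs : q.IsSub fun j => U j x.1) :
    (q.Zc fun j => U j x.1).dualAnnihilator ≤ q.ext X U x := by
  rw [← Subspace.dualCoannihilator_dualAnnihilator_eq (W := q.ext X U x)]
  refine Submodule.dualAnnihilator_anti fun c hc j j' j'' a a' a'' hr u hu => ?_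
  refine (Subspace.forall_mem_dualAnnihilator_apply_eq_zero_iff _ _).1 fun ℓ hℓ => ?_
  obtain ⟨σ, hσ, hσm, rfl⟩ := (hU j).alg.exists_section (x₀ := x) hu
  obtain ⟨Λ, hΛ, hΛm, rfl⟩ := (hU j'').alg.perp.exists_section (x₀ := x) hℓ
  obtain ⟨f, hf, f0, P, hP, h1, h2, -⟩ := ((hU j').alg.algAt x).out
  simp only [Submodule.mem_dualAnnihilator] at hΛm
  let ν : X.pts → Dual ℂ q.C.V := fun y => Λ y ∘ₗ (f y • (q.ev a'').flip (σ y) -
    q.ρ j' j'' a ∘ₗ (f y • LinearMap.id - P y) ∘ₗ (q.ev a').flip (σ y) -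
    (q.ev a).flip (P y (q.ρ j j' a' (σ y))))
  have hν : ∀ y c, ν y c = Λ y (f y • c (j, j'') a'' (σ y) -
      q.ρ j' j'' a (f y • c (j, j') a' (σ y) - P y (c (j, j') a' (σ y))) -
      c (j', j'') a (P y (q.ρ j j' a' (σ y)))) := fun _ _ => rfl
  have hreg : RegV X.fn ν := by
    refine RegM.regV fun c => ?_
    simp only [hν]
    exact (RegM.of_regV hΛ).apply ((((hσ.map _).smul hf).sub
      ((((hσ.map _).smul hf).sub (hP.apply (hσ.map _))).map _)).sub ((hP.apply (hσ.map _)).map _))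
  have h3 := (Submodule.mem_dualCoannihilator c).1 hc (ν x) ⟨ν, hreg, rfl, fun y => ⟨?_, ?_⟩⟩
  · have h4 := hΛm x _ (hs j' j'' a _ (h1 x (c (j, j') a' (σ x))))
    rw [hν, h2 x _ (hs j j' a' _ (hσm x))] at h3
    simp only [map_sub, map_smul, h4, smul_eq_mul] at h3 ⊢
    refine mul_left_cancel₀ f0 ?_
    linear_combination h3
  · rw [hν]
    change Λ y (f y • q.ρ j j'' a'' (σ y) -
      q.ρ j' j'' a (f y • q.ρ j j' a' (σ y) - P y (q.ρ j j' a' (σ y))) -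
      q.ρ j' j'' a (P y (q.ρ j j' a' (σ y)))) = 0
    rw [q.rel j j' j'' a a' a'' hr, map_sub (q.ρ j' j'' a), map_smul, LinearMap.comp_apply]
    simp
  · refine (Submodule.mem_dualAnnihilator _).2 fun c hc => ?_
    rw [hν, h2 y _ (hc j j' a' _ (hσm y)), sub_self, map_zero, sub_zero]
    exact hΛm y _ (sub_mem (Submodule.smul_mem _ _ (hc j j'' a'' _ (hσm y)))
      (hc j' j'' a _ (h1 y _)))
/-- With `Φ j` onto `U j`, `Ψ j` with kernel `U j` (`IsAB.exists_range/ker`) put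
`J c (j,j') a = Ψ j' ∘ c (j,j') a ∘ Φ j`, `s = J ρ`, `E = J (Zc)`.  Cone: a covector `a` killing `E x₀`
has `J^* a = ∑` relation covectors `r(c) = λ (c a'' u - ρ a c a' u - c a ρ a' u)`; extend `λ`, `u` to
sections, let `P` be the local projector onto `U j'` with denominator `f`, and use
`ν(c) = f λ c a'' u - λ ρ a (f - P) c a' u - λ c a P ρ a' u`, which kills `ρ` and `den = ker J` at every
point; lift `ν` through `J^*` (constant rank, `Alg.lift`) and correct by a section of `(range J)^⊥`.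
Derivative: `ds = Ψ (ρ φ - φ ρ) Φ` (`IsVar.kill`, `IsVar.into`). -/
theorem exists_cone (hU : ∀ j, IsAB X (G j) (U j)) (hQ : Q.Sub X)
    (hm : ∀ x ∈ X.pts, x ∈ Q.pts ↔ q.IsSub fun j => U j x)
    (hZ : IsAB Q q.C fun x => q.Zc fun j => U j x) :
    ∃ (V : GV) (E : Pt → Submodule ℂ V.V) (s : Pt → V.V), ACone X Q V E s ∧
      kc Q V E = kc Q q.C (fun x => q.Zc fun j => U j x) - kc Q q.C (fun x => q.den fun j => U j x) ∧
      ∀ x (hx : x ∈ Q.pts), ∀ ξ ∈ X.Tan x, ∀ φ : (En G).V,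
        (∀ j, IsVar X.fn ⟨x, hQ.2 hx⟩ (X.pd x ξ) (fun y => U j y.1) (φ j)) →
        (dV (X.pd x ξ) (fun y : X.pts => s y.1) = 0 ↔ q.δ φ ∈ q.den fun j => U j x) := by
  obtain ⟨V, Jm, hV, hJ, hk, hd⟩ := q.exists_J hU
  have hsub : ∀ x ∈ Q.pts, q.IsSub fun j => U j x := fun x hx => (hm x (hQ.2 hx)).1 hx
  have hinf : ∀ x ∈ Q.pts, (q.den fun j => U j x) =
      (q.Zc fun j => U j x) ⊓ LinearMap.ker (Jm x) := fun x hx => by
    rw [hk x (hQ.2 hx), inf_eq_right.2 (q.den_le_Zc (hsub x hx))]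
  have hE : IsAB Q V fun x => (q.Zc fun j => U j x).map (Jm x) :=
    hZ.map_of_ker (hQ.1 ▸ hV) (hJ.mono hQ) (((q.isAB_den hU).mono hQ).congr hinf)
  refine ⟨V, _, fun x => Jm x q.rho, ⟨hQ, hE, hJ.app (IsRV.const q.g_rho), fun x hx => ?_,
    fun x hx a ha => ?_⟩, ?_, fun x hx ξ hξ φ hφ => ?_⟩
  · rw [hm x hx, ← rho_mem_den, ← hk x hx, LinearMap.mem_ker]
  · obtain ⟨ν, h1, h2, h3⟩ := q.ann_Zc_le hU ⟨x, hQ.2 hx⟩ (hsub x hx)
      (show (Jm x).dualMap a ∈ _ from (Submodule.mem_dualAnnihilator _).2 fun c hc =>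
        (Submodule.mem_dualAnnihilator _).1 ha _ ⟨c, hc, rfl⟩)
    obtain ⟨g, hg, g0, σ, hσ, -, h4⟩ := (Alg.const (⊤ : Submodule ℂ (Dual ℂ V.V))).lift
      (q.isAB_den hU).alg.perp hJ.reg.dualMap (fun y => by
        rw [Submodule.map_top, LinearMap.range_dualMap_eq_dualAnnihilator_ker, hk y.1 y.2])
      ⟨x, hQ.2 hx⟩
    have hrg : Alg X.fn fun y : X.pts => (⊤ : Submodule ℂ q.C.V).map (Jm y.1) :=
      (Alg.const ⊤).map_of_ker (q.isAB_den hU).alg hJ.reg fun y => by rw [hk y.1 y.2, top_inf_eq]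
    obtain ⟨τ, t1, t2, t3⟩ := hrg.perp.exists_section (x₀ := ⟨x, hQ.2 hx⟩)
      (v := a - (g ⟨x, hQ.2 hx⟩)⁻¹ • σ ⟨x, hQ.2 hx⟩ (ν ⟨x, hQ.2 hx⟩)) (by
        refine (Submodule.mem_dualAnnihilator _).2 ?_
        rintro _ ⟨c, -, rfl⟩
        have h5 := LinearMap.congr_fun (h4 _ _ (h3 ⟨x, hQ.2 hx⟩).2) c
        rw [LinearMap.dualMap_apply, LinearMap.smul_apply] at h5
        rw [LinearMap.sub_apply, LinearMap.smul_apply, h5, smul_smul, inv_mul_cancel₀ g0, one_smul,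
          h2, LinearMap.dualMap_apply, sub_self])
    obtain ⟨μ, hμ⟩ := Spc.exists_ext fun y : X.pts => (g ⟨x, hQ.2 hx⟩)⁻¹ • σ y (ν y) + τ y
    refine ⟨μ, hμ ▸ ((hσ.apply h1).csmul _).add t1, ?_, fun y hy => ?_⟩
    · rw [← congrFun hμ ⟨x, hQ.2 hx⟩, t3, add_sub_cancel]
    · have h5 := LinearMap.congr_fun (h4 _ _ (h3 ⟨y, hy⟩).2) q.rho
      rw [LinearMap.dualMap_apply, LinearMap.smul_apply, (h3 ⟨y, hy⟩).1, smul_zero] at h5
      rw [← congrFun hμ ⟨y, hy⟩, LinearMap.add_apply, LinearMap.smul_apply, h5, smul_zero, zero_add]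
      exact (Submodule.mem_dualAnnihilator _).1 (t2 ⟨y, hy⟩) _ ⟨_, trivial, rfl⟩
  · rw [kc_map hZ (hJ.mono hQ) hE, kc_congr hinf, add_sub_cancel_left]
  · rw [hd x (hQ.2 hx) (hsub x hx) ξ hξ φ hφ, ← hk x (hQ.2 hx), LinearMap.mem_ker]
/-- tangent vectors of a space of subrepresentations (no hypothesis on `Zc`) -/
theorem δ_mem_den {Z : Spc} (hU : ∀ j, IsAB X (G j) (U j)) (hZ : Z.Sub X)
    (hm : ∀ x ∈ Z.pts, q.IsSub fun j => U j x) {x ξ : Pt} (hx : x ∈ Z.pts) (hξ : ξ ∈ Z.Tan x)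
    {φ : (En G).V} (hφ : ∀ j, IsVar X.fn ⟨x, hZ.2 hx⟩ (X.pd x ξ) (fun y => U j y.1) (φ j)) :
    q.δ φ ∈ q.den fun j => U j x := by
  obtain ⟨V, Jm, -, hJ, hk, hd⟩ := q.exists_J hU
  rw [← hk x (hZ.2 hx), LinearMap.mem_ker, ← hd x (hZ.2 hx) (hm x hx) ξ (hZ.tan_le x hξ) φ hφ]
  exact dV_pd_eq_zero hZ hξ (σ := fun y => Jm y q.rho) (hJ.reg _) fun z hz => by
    rw [← LinearMap.mem_ker, hk z (hZ.2 hz)]
    exact hm z hz
end Quiv

end Crest.Agent.N265
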