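import Crest.Agent.N265.M.Fam
import Crest.Agent.N265.Q.Gr
import Crest.Agent.N265.Q.Sub

/-! # Row 265, the Quot scheme as a space of subrepresentations (definitions, helper68) -/

set_option autoImplicit false
set_option linter.dupNamespace false
noncomputable section
open MvPolynomial Module TensorProduct

namespace Crest.Agent.N265.M
open Crest.Agent.R274
open Defs_781 Lat_781 SnapA_99 SnapB_99 SnapE_99 Gen7_750 Xs1_781 SkDefs_474
open Alg GV Br N Fib _root_.Crest.Agent.N265.Pow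
variable {Sg : Surf}

/-- the degrees `p, p + 3, p + 4, …, q` -/
abbrev JJ (p q : ℕ) : Type := {j : ℕ // j ∈ insert p (Finset.Icc (p + 3) q)}
/-- the lowest degree -/
def JJ.bot (p q : ℕ) : JJ p q := ⟨p, Finset.mem_insert_self _ _⟩
lemma JJ.le {p q : ℕ} (j : JJ p q) : p ≤ j.1 := by
  rcases Finset.mem_insert.1 j.2 with h | h
  · exact h.ge
  · have := (Finset.mem_Icc.1 h).1; omega
lemma JJ.cases {p q : ℕ} (j : JJ p q) : j = JJ.bot p q ∨ (p + 3 ≤ j.1 ∧ j.1 ≤ q) :=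
  (Finset.mem_insert.1 j.2).imp Subtype.ext Finset.mem_Icc.1
/-- the degree `k + p` -/
def JJ.mk' {p q : ℕ} (k : ℕ) (h3 : 3 ≤ k) (hq : k + p ≤ q) : JJ p q :=
  ⟨k + p, Finset.mem_insert_of_mem (Finset.mem_Icc.2 ⟨by omega, hq⟩)⟩

/-- arrows from degree `j` to degree `j'` -/
def Arw (Sg : Surf) (j j' : ℕ) : Submodule ℂ Sg.F := if j < j' then SA Sg (j' - j) else ⊥
instance (j j' : ℕ) : FiniteDimensional ℂ (Arw Sg j j') := by
  by_cases h : j < j'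
  · rw [Arw, if_pos h]; infer_instance
  · rw [Arw, if_neg h]; infer_instance
lemma Arw_add (j : ℕ) {k : ℕ} (hk : 0 < k) : Arw Sg j (k + j) = SA Sg k := by
  rw [Arw, if_pos (by omega), Nat.add_sub_cancel]
lemma Arw_of_le {j j' : ℕ} (h : j' ≤ j) : Arw Sg j j' = ⊥ := if_neg (by omega)
lemma Arw_of_lt {j j' : ℕ} (h : j < j') : Arw Sg j j' = SA Sg (j' - j) := if_pos h
lemma Arw_mul {j j' : ℕ} {a f : Sg.F} (ha : a ∈ Arw Sg j j') (hf : f ∈ SA Sg j) :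
    a * f ∈ SA Sg j' := by
  unfold Arw at ha
  split_ifs at ha with h
  · have := SA_mul Sg ha hf
    rwa [Nat.sub_add_cancel h.le] at this
  · rw [(Submodule.mem_bot ℂ).1 ha, zero_mul]; exact zero_mem _

namespace Amb
variable (𝔞 : Amb Sg)
/-- multiplication by an arrow -/
def act (j j' : ℕ) : Arw Sg j j' →ₗ[ℂ] (𝔞.G j).V →ₗ[ℂ] (𝔞.G j').V :=
  LinearMap.mk₂ ℂ (fun a w i => ⟨a.1 * (w i).1, Arw_mul a.2 (w i).2⟩)
    (fun _ _ _ => funext fun _ => Subtype.ext (add_mul _ _ _))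
    (fun _ _ _ => funext fun _ => Subtype.ext (smul_mul_assoc _ _ _))
    (fun _ _ _ => funext fun _ => Subtype.ext (mul_add _ _ _))
    (fun _ _ _ => funext fun _ => Subtype.ext (mul_smul_comm _ _ _))
@[simp] lemma act_val {j j' : ℕ} (a : Arw Sg j j') (w : (𝔞.G j).V) (i : 𝔞.ι) :
    (𝔞.act j j' a w i).1 = a.1 * (w i).1 := rfl
lemma inc_act {j j' : ℕ} (a : Arw Sg j j') (w : (𝔞.G j).V) :
    𝔞.inc j' (𝔞.act j j' a w) = a.1 • 𝔞.inc j w := by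
  rw [inc_apply, inc_apply, ← map_smul]; rfl
/-- the pieces in the degrees `JJ p q` -/
abbrev GJ (p q : ℕ) : JJ p q → GV := fun j => 𝔞.G j.1
/-- the quiver of multiplications -/
def qv (p q : ℕ) : Quiv (𝔞.GJ p q) where
  Ar j j' := Arw Sg j.1 j'.1
  ρ j j' := 𝔞.act j.1 j'.1
  deg j j' a w := funext fun i => Subtype.ext (by
    rw [g_apply, act_val, g_apply, Submodule.coe_smul, Submodule.coe_smul, act_val,
      mul_smul_comm])
  Rl _ _ _ a a' a'' := a''.1 = a.1 * a'.1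
  rel _ _ _ a a' a'' h := LinearMap.ext fun w => funext fun i => Subtype.ext (by
    rw [LinearMap.comp_apply, act_val, act_val, act_val, h, mul_assoc])
/-- the pieces of a lattice -/
abbrev pcs (p q : ℕ) (L : XL Sg 𝔞.M) : ∀ j : JJ p q, Submodule ℂ (𝔞.GJ p q j).V :=
  fun j => 𝔞.pc L j.1
lemma isSub_pcs (p q : ℕ) (L : XL Sg 𝔞.M) : (𝔞.qv p q).IsSub (𝔞.pcs p q L) := by
  intro j j' a u hu
  change 𝔞.inc _ (𝔞.act j.1 j'.1 a u) ∈ Gm L.toLat (j'.1 : ℕ)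
  rw [inc_act]
  rcases lt_or_ge j.1 j'.1 with h | h
  · have ha : (a : Arw Sg j.1 j'.1).1 ∈ SA Sg (j'.1 - j.1) := (Arw_of_lt h).le a.2
    have := AA_smul_mem (SA_mem_AA ⟨_, ha⟩) hu
    rwa [← Nat.cast_add, Nat.sub_add_cancel h.le] at this
  · rw [(Submodule.mem_bot ℂ).1 ((Arw_of_le h).le a.2), zero_smul]; exact zero_mem _
end Amb

/-- numerical data of a Quot scheme of `𝔞.O`: the quotients have Hilbert polynomial `d e + c` -/
structure Par (𝔞 : Amb Sg) where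
  p : ℕ
  q : ℕ
  d : ℕ
  c : ℤ
  b : ℕ
  b0 : b ≠ 0
  two : 2 ≤ p
  five : 5 + p ≤ q
  reg : ∀ K : XL Sg 𝔞.M, LeL K 𝔞.O → cL K.toLat = HP Sg (Fintype.card 𝔞.ι) d c → RegL K.toLat p
  pts : ∀ U : ∀ j : JJ p q, Submodule ℂ (𝔞.GJ p q j).V,
    (∀ j, finrank ℂ (U j) = (HP Sg (Fintype.card 𝔞.ι) d c j.1).toNat) → (𝔞.qv p q).IsSub U →
    ∃ K : XL Sg 𝔞.M, LeL K 𝔞.O ∧ cL K.toLat = HP Sg (Fintype.card 𝔞.ι) d c ∧ 𝔞.pcs p q K = U

namespace Par
variable {𝔞 : Amb Sg} (P : Par 𝔞)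
/-- the Hilbert polynomial of the kernels -/
abbrev hp : ℤ → ℤ := HP Sg (Fintype.card 𝔞.ι) P.d P.c
/-- the graded Grassmannian -/
abbrev Γ : GrD :=
  { J := JJ P.p P.q, G := 𝔞.GJ P.p P.q, hG := fun j => 𝔞.in_G j.1 ∅
    k := fun j => (P.hp j.1).toNat, b := P.b }
/-- the quiver -/
abbrev qv : Quiv P.Γ.G := 𝔞.qv P.p P.q
/-- the Quot scheme -/
def Qa : Spc := (P.qv.exists_subSpc (X := P.Γ.Y) GrD.isAB_U).choose
lemma Qa_sub : P.Qa.Sub P.Γ.Y := (P.qv.exists_subSpc (X := P.Γ.Y) GrD.isAB_U).choose_spec.1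
lemma mem_Qa {y : Pt} (hy : y ∈ P.Γ.Y.pts) : y ∈ P.Qa.pts ↔ P.qv.IsSub fun j => P.Γ.U j y :=
  (P.qv.exists_subSpc (X := P.Γ.Y) GrD.isAB_U).choose_spec.2 y hy
lemma Qa_B : P.Qa.B = {P.b} := P.Qa_sub.1
lemma nb {Z : Spc} (h : Z.Sub P.Qa) : 0 ∉ Z.B := by
  rw [h.1, P.Qa_B, Finset.mem_singleton]; exact P.b0.symm
/-- the universal lattice -/
def Lq (y : Pt) : XL Sg 𝔞.M :=
  genS Sg.V.X ((P.Γ.U (JJ.bot P.p P.q) y).map (𝔞.inc P.p)) P.p
end Par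

/-- the summands of a lattice in `F²` -/
def smd (L : XL Sg (Fin 2 → Sg.F)) (i : Fin 2) : XL Sg Sg.F :=
  comapX L (LinearMap.single Sg.F (fun _ : Fin 2 => Sg.F) i) 
    (Pi.single_injective (M := fun _ : Fin 2 => Sg.F) i)

end Crest.Agent.N265.M
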