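import Crest.Agent.N265.Q.Gr0

/-! # Task Q-GR (part 1): polynomial parametrisations; the tangent spaces of the Grassmannian -/

set_option autoImplicit false
noncomputable section
open MvPolynomial TensorProduct Module

namespace Crest.Agent.N265
open Alg _root_.Crest.Agent.N265.Pow GV Bun

section param
variable {σ : Type}
/-- polynomials as functions -/
def evA (σ : Type) : MvPolynomial σ ℂ →ₐ[ℂ] ((σ → ℂ) → ℂ) := AlgHom.pi fun t => aeval t
lemma evA_apply (p : MvPolynomial σ ℂ) : evA σ p = fun t => eval t p := rfl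
/-- polynomial functions on an affine space -/
def polyFn (σ : Type) : Subalgebra ℂ ((σ → ℂ) → ℂ) := (evA σ).range
lemma mem_polyFn {f : (σ → ℂ) → ℂ} : f ∈ polyFn σ ↔ ∃ p, (fun t => eval t p) = f := Iff.rfl
lemma exists_pdel (s : σ) : ∃ δ : ((σ → ℂ) → ℂ) →ₗ[ℂ] ℂ,
    ∀ p, δ (fun t => eval t p) = eval 0 (pderiv s p) := by
  obtain ⟨g, hg⟩ := (evA σ).toLinearMap.exists_leftInverse_of_injective
    (LinearMap.ker_eq_bot.2 fun p q h => MvPolynomial.funext (congrFun h))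
  refine ⟨(aeval (0 : σ → ℂ)).toLinearMap ∘ₗ (pderiv s).toLinearMap ∘ₗ g, fun p => ?_⟩
  have : g (fun t => eval t p) = p := LinearMap.congr_fun hg p
  rw [LinearMap.comp_apply, LinearMap.comp_apply, this]; rfl
/-- the partial derivative at the origin -/
def pdel (s : σ) : ((σ → ℂ) → ℂ) →ₗ[ℂ] ℂ := (exists_pdel s).choose
lemma pdel_eval (s : σ) (p : MvPolynomial σ ℂ) :
    pdel s (fun t => eval t p) = eval 0 (pderiv s p) := (exists_pdel s).choose_spec p
lemma pder_pdel (s : σ) : PDer (polyFn σ) 0 (pdel s) := by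
  rintro _ ⟨p, rfl⟩ _ ⟨q, rfl⟩
  have := pdel_eval s (p * q)
  simp only [map_mul, Derivation.leibniz, smul_eq_mul, map_add, ← pdel_eval] at this
  exact this
lemma regV_id [Finite σ] : RegV (polyFn σ) fun t => t :=
  regV_pi.2 fun i => ⟨X i, funext fun _ => eval_X i⟩
lemma dV_id [Finite σ] [DecidableEq σ] (s : σ) : dV (pdel s) (fun t => t) = Pi.single s 1 := by
  funext i
  have h1 := dV_spec (pdel s) (fun t => t) (LinearMap.proj i)
  have h2 := pdel_eval s (X i)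
  simp only [eval_X, pderiv_X] at h2
  rw [LinearMap.proj_apply] at h1
  rw [h1]
  refine h2.trans ?_
  by_cases h : i = s <;> simp [h]
lemma sub_mem_sq [Fintype σ] (p : MvPolynomial σ ℂ) :
    p - C (eval 0 p) - ∑ s, C (eval 0 (pderiv s p)) * X s ∈
      (RingHom.ker (eval (0 : σ → ℂ))) ^ 2 := by
  classical
  induction p using MvPolynomial.induction_on with
  | C c => simp
  | add p q hp hq =>
    convert add_mem hp hq using 1
    simp only [map_add, add_mul, Finset.sum_add_distrib]; ring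
  | mul_X p i _ =>
    have : p * X i - C (eval 0 (p * X i)) - ∑ s, C (eval 0 (pderiv s (p * X i))) * X s =
        (p - C (eval 0 p)) * X i := by
      rw [Finset.sum_eq_single i (fun s _ h => by simp [pderiv_X, h.symm]) (by simp)]
      simp [sub_mul]
    rw [this, sq]
    exact Ideal.mul_mem_mul (by simp [RingHom.mem_ker]) (by simp [RingHom.mem_ker])
lemma eval_aeval_poly (F : Var → MvPolynomial σ ℂ) (t : σ → ℂ) (r : R) :
    eval t (aeval F r) = eval (fun v => eval t (F v)) r := by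
  induction r using MvPolynomial.induction_on with
  | C c => simp
  | add p q hp hq => simp only [map_add, hp, hq]
  | mul_X p v hp => simp only [map_mul, hp, aeval_X, eval_X]
lemma exists_dual_single {M ι : Type} [AddCommGroup M] [Module ℂ M] {u : ι → M}
    (hu : LinearIndependent ℂ u) (c : ι → ℂ) : ∃ ℓ : Dual ℂ M, ∀ i, ℓ (u i) = c i := by
  obtain ⟨g, hg⟩ := LinearMap.exists_extend ((Basis.span hu).constr ℂ c)
  refine ⟨g, fun i => ?_⟩
  have := LinearMap.congr_fun hg (Basis.span hu i)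
  rwa [Basis.constr_basis, LinearMap.comp_apply, Submodule.subtype_apply, Basis.span_apply]
    at this
/-- lower bound for the dimension from a regular parametrisation with injective differential -/
theorem Blk.le_ldim [Fintype σ] {V : GV} (β : Blk V) (b : ℕ) {X : Spc} {x : Pt}
    (hx : β.Supp b x) {f : (σ → ℂ) → V.V} (hf : RegV (polyFn σ) f) (h0 : f 0 = β.vec b x)
    (hm : Near (polyFn σ) 0 fun t => β.pt b (f t) ∈ X.pts)
    (hd : LinearIndependent ℂ fun s => dV (pdel s) f) : (Fintype.card σ : ℕ∞) ≤ X.ldim x := by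
  classical
  have h1 : ∀ v, ∃ p, (fun t => eval t p) = fun t => β.pt b (f t) v := fun v => by
    by_cases h : ∃ i, v = β.var b i
    · obtain ⟨i, rfl⟩ := h
      simp only [β.pt_var]
      exact hf.coord β.e i
    · exact ⟨0, funext fun t => (β.supp_pt b _ v fun i e => h ⟨i, e⟩).symm⟩
  choose F hF using h1
  have h2 : ∀ t r, eval t (aeval F r) = eval (β.pt b (f t)) r := fun t r => by
    rw [eval_aeval_poly]; congr 2; funext v; exact congrFun (hF v) t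
  refine Spc.le_ldim_of_param F (fun v => ?_) (fun r hr => ?_) fun i => ?_
  · rw [congrFun (hF v) 0, h0, β.pt_vec b hx]
  · obtain ⟨_, ⟨q, rfl⟩, hq, h⟩ := hm
    have : q * aeval F r = 0 := MvPolynomial.funext fun t => by
      by_cases ht : eval t q = 0
      · simp [ht]
      · rw [map_mul, h2, hr _ (h t ht), mul_zero, map_zero]
    exact (mul_eq_zero.1 this).resolve_left fun e => hq (by rw [e]; rfl)
  · obtain ⟨ℓ, hℓ⟩ := exists_dual_single hd (Pi.single i 1)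
    let r : R := ∑ j, C (ℓ (β.e j)) * MvPolynomial.X (β.var b j)
    have hr : ∀ y, eval y r = ℓ (β.vec b y) := fun y => by
      simp [r, Blk.vec, mul_comm]
    have h3 : (fun t => eval t (aeval F r)) = fun t => ℓ (f t) := funext fun t => by
      rw [h2, hr, β.vec_pt]
    refine ⟨r - C (eval x r), by simp, ?_⟩
    convert sub_mem_sq (aeval F r) using 2
    · rw [map_sub, aeval_C, congrFun h3 0, h0, hr]; rfl
    · rw [Finset.sum_eq_single i (fun s _ h => ?_) (by simp)]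
      · rw [← pdel_eval, h3, ← dV_spec, hℓ]; simp
      · rw [← pdel_eval, h3, ← dV_spec, hℓ]; simp [h]
end param

/-- the derivative of `Λ^k A` at `A = 1` -/
lemma PDer.dV_lamM {T : Type} {𝒜 : Subalgebra ℂ (T → ℂ)} {x₀ : T} {δ : (T → ℂ) →ₗ[ℂ] ℂ}
    (h : PDer 𝒜 x₀ δ) {M : Type} [AddCommGroup M] [Module ℂ M] [FiniteDimensional ℂ M]
    {A : T → M →ₗ[ℂ] M} (hA : RegM 𝒜 A) (h0 : A x₀ = LinearMap.id) (k : ℕ) (z : Pow.Lam k M) :
    dV δ (fun x => lamM k (A x) z) = Plk.dE k (dV δ A) z := by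
  obtain ⟨z, hz⟩ := z
  suffices ∃ hz : z ∈ Pow.Lam k M, dV δ (fun x => lamM k (A x) ⟨z, hz⟩) = Plk.dE k (dV δ A) ⟨z, hz⟩
    from this.2
  refine Ks.pow_ind (LinearMap.range Ks.iE) (P := fun n z => ∃ hz : z ∈ Pow.Lam n M,
    dV δ (fun x => lamM n (A x) ⟨z, hz⟩) = Plk.dE n (dV δ A) ⟨z, hz⟩) (fun c => ?_) ?_ ?_ k z hz
  · have hc : algebraMap ℂ (Ks.EA M) c ∈ Pow.Lam 0 M := by
      rw [Plk.mem_Lam, pow_zero]; exact Submodule.algebraMap_mem c
    refine ⟨hc, ?_⟩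
    have : ∀ x, lamM 0 (A x) ⟨_, hc⟩ = ⟨_, hc⟩ := fun x => Subtype.ext (by simp [lamM_coe])
    simp only [this, h.dV_const]
    exact Subtype.ext (Plk.DA_alg _ c).symm
  · rintro n x y ⟨hx, e⟩ ⟨hy, e'⟩
    refine ⟨add_mem hx hy, ?_⟩
    have : (⟨x + y, add_mem hx hy⟩ : Pow.Lam n M) = ⟨x, hx⟩ + ⟨y, hy⟩ := rfl
    simp only [this, map_add, dV_add, e, e']
  · rintro n _ ⟨v, rfl⟩ x - ⟨hx, e⟩
    refine ⟨Plk.iE_mul_mem v hx, ?_⟩
    change dV δ (fun t => lamM (n + 1) (A t) (Plk.wg n ⟨x, hx⟩ v)) = Plk.dE _ _ (Plk.wg n ⟨x, hx⟩ v)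
    simp only [← Plk.wg_lamM]
    rw [h.dV_bilin (Plk.wg n) (hA.lamM n _) (hA v), e]
    beta_reduce
    rw [h0, lamM_id, Plk.dE_wg, ← dV_apply]
    exact add_comm _ _

namespace GrD
variable {Γ : GrD} {y y' ξ : Pt}
lemma supp_tan (hξ : ξ ∈ Γ.Y.Tan y) : Γ.β.Supp Γ.b ξ := Γ.β.supp_tan (fun _ h => supp h) hξ
lemma self_mem_tan {Z : Spc} (hy : y ∈ Z.pts) : y ∈ Z.Tan y := by
  have := Spc.euler_mem hy Z.B
  rwa [Z.restr_eq hy] at this
lemma finrank_map_vec {T : Submodule ℂ Pt} (hT : T ≤ Γ.Y.Tan y) :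
    finrank ℂ (T.map Γ.vec) = finrank ℂ T := by
  rw [← LinearMap.range_domRestrict]
  exact LinearMap.finrank_range_of_inj fun a c h =>
    Subtype.ext (Γ.β.vec_inj (supp_tan (hT a.2)) (supp_tan (hT c.2)) h)
lemma wj_of_isVar (hy : y ∈ Γ.Y.pts) (hξ : ξ ∈ Γ.Y.Tan y) {j : Γ.J} {φ : (Γ.G j).V →ₗ[ℂ] _}
    (h : IsVar Γ.Y.fn ⟨y, hy⟩ (Γ.Y.pd y ξ) (fun x => Γ.U j x.1) φ) {v : (Γ.G j).V}
    (hv : v ∈ Γ.U j y) : Γ.wj j (Γ.vec ξ) v + Γ.wj j (Γ.vec y) (φ v) = 0 := by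
  have := IsVar.kill (ψ := fun x : Γ.Y.pts => Γ.wj j (Γ.vec x.1)) (Spc.pder_pd hy hξ)
    (isAB_U j).alg (Γ.isRM_wj _ j).reg (fun x v hv => (Γ.ker_wj j x.1).ge hv) h v hv
  have e1 := dV_lin (δ := Γ.Y.pd y ξ) ((Γ.wj j).flip v) fun x : Γ.Y.pts => Γ.vec x.1
  have e2 : dV (Γ.Y.pd y ξ) (fun x : Γ.Y.pts => Γ.vec x.1) = Γ.vec ξ := Γ.β.dV_vec Γ.b hξ
  rw [e2] at e1
  rw [dV_apply] at this
  exact (congrArg (· + _) e1.symm).trans this
lemma sub_mem_of_isVar (hy : y ∈ Γ.Y.pts) (hξ : ξ ∈ Γ.Y.Tan y) {φ : Γ.En.V}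
    (h : ∀ j, IsVar Γ.Y.fn ⟨y, hy⟩ (Γ.Y.pd y ξ) (fun x => Γ.U j x.1) (φ j)) :
    Γ.vec ξ - Γ.ks y φ ∈ Submodule.span ℂ {Γ.vec y} := by
  rw [ks_apply, Plk.sub_dE_mem_span_iff (finrank_Ut hy) (vec_ne hy)]
  intro u hu
  rw [← Ut_def, Ut_eq hy] at hu
  have : (Plk.wg Γ.K (Γ.vec ξ) + Plk.wg Γ.K (Γ.vec y) ∘ₗ Γ.pm φ) u = 0 := by
    rw [← Finset.univ_sum_single u, map_sum]
    refine Finset.sum_eq_zero fun j _ => ?_
    rw [LinearMap.add_apply, LinearMap.comp_apply, pm_single]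
    exact wj_of_isVar hy hξ (h j) (hu j trivial)
  exact this
lemma exists_isVar (hy : y ∈ Γ.Y.pts) (hξ : ξ ∈ Γ.Y.Tan y) : ∃ φ : Γ.En.V,
    ∀ j, IsVar Γ.Y.fn ⟨y, hy⟩ (Γ.Y.pd y ξ) (fun x => Γ.U j x.1) (φ j) :=
  ⟨fun j => ((Spc.pder_pd hy hξ).exists_isVar (isAB_U j).alg).choose,
    fun j => ((Spc.pder_pd hy hξ).exists_isVar (isAB_U j).alg).choose_spec⟩
lemma map_tan_le (hy : y ∈ Γ.Y.pts) :
    (Γ.Y.Tan y).map Γ.vec ≤ LinearMap.range (Γ.ks y) ⊔ Submodule.span ℂ {Γ.vec y} := by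
  rintro _ ⟨ξ, hξ, rfl⟩
  obtain ⟨φ, h⟩ := exists_isVar hy hξ
  rw [← add_sub_cancel (Γ.ks y φ) (Γ.vec ξ)]
  exact Submodule.add_mem_sup ⟨φ, rfl⟩ (sub_mem_of_isVar hy hξ h)
lemma comap_span (hy : y ∈ Γ.Y.pts) :
    (Submodule.span ℂ {Γ.vec y}).comap (Γ.ks y) = Γ.stab y := Submodule.ext fun _ => ks_mem_span hy
lemma finrank_range_sup (hy : y ∈ Γ.Y.pts) : finrank ℂ
    (LinearMap.range (Γ.ks y) ⊔ Submodule.span ℂ {Γ.vec y} : Submodule ℂ _) = Γ.dim := by
  have h1 := finrank_inf_comap_add ⊤ (Submodule.span ℂ {Γ.vec y}) (Γ.ks y)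
  rw [top_inf_eq, comap_span hy, Submodule.map_top, finrank_top,
    finrank_span_singleton (vec_ne hy)] at h1
  have := finrank_stab hy
  omega
theorem dim_le_ldim (hy : y ∈ Γ.Y.pts) : (Γ.dim : ℕ∞) ≤ Γ.Y.ldim y := by
  classical
  obtain ⟨H, hH⟩ := (Γ.stab y).exists_isCompl
  let e := (finBasis ℂ (ℂ × H)).equivFun.symm
  have hc : Fintype.card (Fin (finrank ℂ (ℂ × H))) = Γ.dim := by
    have h1 := finrank_stab hy
    have h2 := Submodule.finrank_add_eq_of_isCompl hH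
    rw [Fintype.card_fin, Module.finrank_prod, Module.finrank_self]
    omega
  let a := LinearMap.fst ℂ ℂ H ∘ₗ e.toLinearMap
  let N := H.subtype ∘ₗ LinearMap.snd ℂ ℂ H ∘ₗ e.toLinearMap
  let A := fun t => LinearMap.id + Γ.pm (N t)
  have ha : (fun t => 1 + a t) ∈ polyFn _ :=
    fadd_mem (const_mem 1) (regV_scalar.1 (regV_id.map a))
  have hA : RegM (polyFn _) A := RegM.id.add (RegM.of_regV (regV_id.map (Γ.pm ∘ₗ N)))
  have hA0 : A 0 = LinearMap.id := by simp [A]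
  rw [← hc]
  refine Γ.β.le_ldim Γ.b (supp hy) (f := fun t => (1 + a t) • lamM Γ.K (A t) (Γ.vec y))
    ((hA.lamM _ _).smul ha) (by simp [hA0, vec]) ?_ ?_
  · refine ((Near.of_ne ha (by simp)).and
      (hA.near_injective (by rw [hA0]; exact fun _ _ h => h))).mono fun t ⟨h1, h2⟩ => ?_
    refine (mem_of (U := fun j => (Γ.U j y).map (LinearMap.id + N t j)) (fun j => ?_)
      (Γ.β.supp_pt _ _) ?_ ?_).1
    · rw [← finrank_U hy j]
      refine (LinearEquiv.finrank_eq (Submodule.equivMapOfInjective _ (fun u v h => ?_) _)).symm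
      refine Pi.single_injective (M := fun j => (Γ.G j).V) j (h2 ?_)
      simp only [A, LinearMap.add_apply, LinearMap.id_apply] at h ⊢
      rw [pm_single, pm_single, ← Pi.single_add, ← Pi.single_add, h]
    · rw [vec_pt]
      exact smul_ne_zero h1 fun h => vec_ne hy (lamM_injective _ h2 (h.trans (map_zero _).symm))
    · rw [vec_pt]
      refine Submodule.smul_mem _ _ (lamM_mem Γ.K ?_ (vec_mem hy))
      intro w hw j _
      rw [Ut_eq hy] at hw
      exact ⟨w j, hw j trivial, rfl⟩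
  · let Ψ : ℂ × H →ₗ[ℂ] Γ.Λ.V :=
      (LinearMap.toSpanSingleton ℂ _ (Γ.vec y)).coprod (Γ.ks y ∘ₗ H.subtype)
    have hΨ : LinearMap.ker Ψ = ⊥ := LinearMap.ker_eq_bot'.2 fun ⟨c, φ⟩ h => by
      have h1 : c • Γ.vec y + Γ.ks y φ = 0 := h
      have h2 : φ.1 ∈ Γ.stab y := (ks_mem_span hy).1 (Submodule.mem_span_singleton.2
        ⟨-c, by rw [neg_smul]; exact neg_eq_of_add_eq_zero_right h1⟩)
      have h3 : φ = 0 := Subtype.ext (Submodule.disjoint_def.1 hH.disjoint _ h2 φ.2)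
      subst h3
      simp only [Submodule.coe_zero, map_zero, add_zero, smul_eq_zero, vec_ne hy, or_false] at h1
      rw [h1]; rfl
    suffices (fun s => dV (pdel s) fun t => (1 + a t) • lamM Γ.K (A t) (Γ.vec y)) =
        Ψ ∘ finBasis ℂ (ℂ × H) by
      rw [this]; exact (finBasis ℂ (ℂ × H)).linearIndependent.map' Ψ hΨ
    funext s
    have h1 : e (Pi.single s 1) = finBasis ℂ (ℂ × H) s := by simp [e]
    have h2 : pdel s (fun t => 1 + a t) = a (Pi.single s 1) := by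
      rw [← dV_scalar, dV_add, (pder_pdel s).dV_const, dV_lin a, dV_id, zero_add]
    have h3 : dV (pdel s) A = Γ.pm (N (Pi.single s 1)) := by
      rw [dV_add, (pder_pdel s).dV_const, zero_add, ← dV_id]
      exact dV_lin (Γ.pm ∘ₗ N) _
    rw [(pder_pdel s).dV_smul ha (hA.lamM _ _), (pder_pdel s).dV_lamM hA hA0, h2, h3]
    beta_reduce
    rw [hA0, lamM_id, ← ks_apply]
    simp [a, N, h1, Ψ]
end GrD

end Crest.Agent.N265
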