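import Crest.Agent.N265.Q.Coc

/-! # Row 265, task Q-PTS: points, universal family and tangent vectors of the Quot scheme -/

set_option autoImplicit false
set_option linter.dupNamespace false
noncomputable section
open MvPolynomial Module TensorProduct

namespace Crest.Agent.N265.M
open Crest.Agent.R274
open Defs_781 Lat_781 SnapA_99 SnapB_99 SnapE_99 Gen7_750 Xs1_781 SkDefs_474
open Alg GV Br N Fib _root_.Crest.Agent.N265.Pow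
variable {Sg : Surf}

lemma ev_HP (Sg : Surf) (d : ℕ) (c : ℤ) : ∃ m₁ : ℕ, ∀ m : ℕ, m₁ ≤ m → 0 ≤ HP Sg 2 d c m := by
  refine ⟨(2 * (|Sg.V.chi 0| + |Sg.V.chi Sg.V.h - Sg.V.chi 0| + d + |c|) + 2).toNat,
    fun m hm => ?_⟩
  have h2 := Int.toNat_le.1 hm
  have h5 := Ch.chi_nsmul Sg.V Sg.V.h m
  have h6 : 0 < Ch.ip Sg.V Sg.V.h Sg.V.h := Ch.dg_h_pos Sg.V
  rw [HP, natCast_zsmul]
  have := abs_nonneg c
  have := abs_nonneg (Sg.V.chi 0)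
  have := abs_nonneg (Sg.V.chi Sg.V.h - Sg.V.chi 0)
  have := le_abs_self c
  have := neg_abs_le (Sg.V.chi 0)
  have := neg_abs_le (Sg.V.chi Sg.V.h - Sg.V.chi 0)
  have h7 : (m : ℤ) * (m - 1) ≤ m * (m - 1) * Ch.ip Sg.V Sg.V.h Sg.V.h :=
    le_mul_of_one_le_right (mul_nonneg (by omega) (by omega)) h6
  push_cast
  nlinarith

/-- a subrepresentation contains what its lowest piece generates -/
lemma Amb.smul_le_of_isSub (𝔞 : Amb Sg) {p q : ℕ} {U : ∀ j : JJ p q, Submodule ℂ (𝔞.GJ p q j).V}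
    (h : (𝔞.qv p q).IsSub U) (j : JJ p q) {k : ℕ} (hk : j.1 = k + p) :
    AA Sg.V.X k • (U (JJ.bot p q)).map (𝔞.inc p) ≤ (U j).map (𝔞.inc j.1) := by
  rcases j.cases with rfl | hj
  · obtain rfl : k = 0 := by
      have : p = k + p := hk
      omega
    rw [Nat.cast_zero, AA_zero, Submodule.one_smul]
    exact le_rfl
  · refine Submodule.smul_le.2 ?_
    rintro a ha _ ⟨u, hu, rfl⟩
    have ha' : a ∈ Arw Sg p j.1 := by rwa [hk, Arw_add p (by omega), SA_eq]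
    exact ⟨_, h (JJ.bot p q) j ⟨a, ha'⟩ u hu, 𝔞.inc_act (j := p) ⟨a, ha'⟩ u⟩

/-- `reg_quot` and `persist` (bounds `B j = HP (j + p)` for `j ≥ 3`, `B j = dim G (j + p)` below;
`A_j • U_p ≤ U_(j+p)` for `3 ≤ j ≤ q - p`) -/
theorem exists_par (Sg : Surf) (d : ℕ) (c : ℤ) : ∃ m₀ : ℕ,
    (∀ K : XL Sg (Fin 2 → Sg.F), LeL K (r2 Sg).O → cL K.toLat = HP Sg 2 d c → RegL K.toLat m₀) ∧
    ∀ p ≥ m₀, ∀ b ≠ 0, ∃ P : Par (r2 Sg), P.p = p ∧ P.d = d ∧ P.c = c ∧ P.b = b := by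
  obtain ⟨m0, hm0, H1, H2⟩ := reg_quot Sg (Fin 2) d c
  obtain ⟨m₁, hm₁⟩ := ev_HP Sg d c
  rw [Fintype.card_fin] at H1 H2
  have R : ∀ m : ℕ, m0.toNat ≤ m → ∀ K : XL Sg (Fin 2 → Sg.F), LeL K (r2 Sg).O →
      cL K.toLat = HP Sg 2 d c → RegL K.toLat m := fun m hm K le h =>
    (H1 K (le.trans r2_O.le) (.of_forall fun e => congrFun h e)).1.mono (by omega)
  refine ⟨max m0.toNat m₁, R _ (le_max_left _ _), fun p hp b hb => ?_⟩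
  have hp0 := le_of_max_le_left hp
  have hp1 := le_of_max_le_right hp
  obtain ⟨q0, hq0⟩ := persist (fun j => AA Sg.V.X j) (Gm (r2 Sg).O.toLat p) fun j =>
    if j < 3 then (finrank ℂ (Gm (r2 Sg).O.toLat (j + p)) : ℤ) else HP Sg 2 d c (j + p)
  refine ⟨⟨p, q0 + 5 + p, d, c, b, hb, by omega, by omega, R p hp0, fun U hU hs => ?_⟩,
    rfl, rfl, rfl, rfl⟩
  have hU' : ∀ j, (finrank ℂ ((U j).map ((r2 Sg).inc j.1)) : ℤ) = HP Sg 2 d c j.1 := fun j => by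
    rw [← (Submodule.equivMapOfInjective _ ((r2 Sg).inc_inj _) _).finrank_eq, hU]
    exact Int.toNat_of_nonneg (hm₁ _ (hp1.trans j.le))
  have hle : (U (JJ.bot _ _)).map ((r2 Sg).inc p) ≤ Gm (r2 Sg).O.toLat p := by
    rw [← Amb.range_inc]; exact LinearMap.map_le_range
  have h3 := hq0 _ hle fun j hj => by
    split_ifs with h
    · exact Nat.cast_le.2 (Submodule.finrank_mono ((smul_mono_right _ hle).trans (AA_smul_le _ _ _)))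
    · rw [← Nat.cast_add]
      exact (Nat.cast_le.2 (Submodule.finrank_mono ((r2 Sg).smul_le_of_isSub hs
        (JJ.mk' j (by omega) (by omega)) rfl))).trans (hU' _).le
  obtain ⟨h4, h5, h6⟩ := H2 p (by omega) _ (hle.trans (Gm_mono r2_O.le _)) (hU' (JJ.bot _ _)).ge
    ((Filter.eventually_ge_atTop 3).mono fun j hj => by
      obtain ⟨j, rfl⟩ := Int.eq_ofNat_of_zero_le (show 0 ≤ j by omega)
      have := h3 j
      rwa [if_neg (by omega)] at this)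
  refine ⟨_, genS_le hle, h5, funext fun j => Submodule.eq_of_le_of_finrank_eq ?_ ?_⟩
  · obtain ⟨k, hk⟩ : ∃ k, j.1 = k + p := ⟨j.1 - p, (Nat.sub_add_cancel j.le).symm⟩
    intro w hw
    have h7 : (r2 Sg).inc j.1 w ∈ Gm _ ((j.1 : ℕ) : ℤ) := hw
    rw [show ((j.1 : ℕ) : ℤ) = k + p by omega, h6] at h7
    obtain ⟨w', hw', e⟩ := (r2 Sg).smul_le_of_isSub hs j hk h7
    exact (r2 Sg).inc_inj _ e ▸ hw'
  · refine Nat.cast_injective (R := ℤ) ?_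
    rw [Amb.finrank_pc (genS_le hle) (h4.mono (m' := (p : ℕ)) (by omega)) (j.le.trans (Nat.le_succ _)),
      h5, ← hU', (Submodule.equivMapOfInjective _ ((r2 Sg).inc_inj _) _).finrank_eq]

namespace Par
variable {𝔞 : Amb Sg} (P : Par 𝔞) {y y' : Pt}
lemma Lq_congr (h : P.Γ.U (JJ.bot P.p P.q) y = P.Γ.U (JJ.bot P.p P.q) y') : P.Lq y = P.Lq y' :=
  congrArg (fun U : Submodule ℂ (𝔞.G P.p).V => genS Sg.V.X (U.map (𝔞.inc P.p)) P.p) h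
lemma Lq_restr {B : Finset ℕ} (hb : P.b ∈ B) (y : Pt) : P.Lq (restr B y) = P.Lq y :=
  P.Lq_congr (GrD.U_restr (Γ := P.Γ) hb _ y)
lemma Lq_smul {c : ℂ} (hc : c ≠ 0) (y : Pt) : P.Lq (c • y) = P.Lq y :=
  P.Lq_congr (GrD.U_smul hc _ y)
variable {P}
lemma Lq_le (y : Pt) : LeL (P.Lq y) 𝔞.O :=
  genS_le (by rw [← Amb.range_inc]; exact LinearMap.map_le_range)
lemma eqv_of_U {K : XL Sg 𝔞.M} (le : LeL K 𝔞.O) (h : cL K.toLat = P.hp)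
    (e : P.Γ.U (JJ.bot P.p P.q) y = 𝔞.pc K P.p) : EqL (P.Lq y) K :=
  eqv_of_le (genS_le (Submodule.map_le_iff_le_comap.2 e.le)) (Amb.le_of_pc le (P.reg K le h) le_rfl
    (e.ge.trans (Submodule.map_le_iff_le_comap.1 le_Gm_genS)))
lemma finrank_pcs {K : XL Sg 𝔞.M} (le : LeL K 𝔞.O) (h : cL K.toLat = P.hp) (j : JJ P.p P.q) :
    finrank ℂ (𝔞.pc K j.1) = P.Γ.k j := by
  have := Amb.finrank_pc le (P.reg K le h) (j.le.trans (Nat.le_succ _))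
  rw [h] at this
  change _ = (P.hp j.1).toNat
  rw [← this, Int.toNat_natCast]
/-- `P.pts`, `P.reg`, `eqv_genS` -/
theorem Lq_spec (hy : y ∈ P.Qa.pts) : cL (P.Lq y).toLat = P.hp ∧ RegL (P.Lq y).toLat P.p ∧
    ∀ j, 𝔞.pc (P.Lq y) j.1 = P.Γ.U j y := by
  obtain ⟨K, le, h, e⟩ := P.pts (fun j => P.Γ.U j y) (GrD.finrank_U (P.Qa_sub.2 hy))
    ((P.mem_Qa (P.Qa_sub.2 hy)).1 hy)
  have e' := eqv_of_U le h (congrFun e _).symm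
  exact ⟨(cL_congr e').trans h, regL_congr e'.symm (P.reg K le h),
    fun j => (Amb.pc_congr e' _).trans (congrFun e j)⟩
lemma pcs_Lq (hy : y ∈ P.Qa.pts) : 𝔞.pcs P.p P.q (P.Lq y) = fun j => P.Γ.U j y :=
  funext (Lq_spec hy).2.2
theorem lfam : LFam 𝔞 P.Qa P.p P.Lq :=
  LFam.of_one P.two (fun x _ => Lq_le x) (fun _ hx => (Lq_spec hx).2.1)
    ⟨P.d, P.c, fun _ hx => (Lq_spec hx).1⟩ le_rfl
    (((GrD.isAB_U (Γ := P.Γ) (JJ.bot P.p P.q)).mono P.Qa_sub).congr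
      fun _ hx => ((Lq_spec hx).2.2 _).symm)
theorem mem_iff {K : XL Sg 𝔞.M} (le : LeL K 𝔞.O) (h : cL K.toLat = P.hp) (hy : y ∈ P.Γ.Y.pts) :
    (∀ j, P.Γ.U j y = 𝔞.pc K j.1) ↔ y ∈ P.Qa.pts ∧ EqL (P.Lq y) K :=
  ⟨fun e => ⟨(P.mem_Qa hy).2 (by rw [funext e]; exact 𝔞.isSub_pcs _ _ K), eqv_of_U le h (e _)⟩,
    fun e j => ((Lq_spec e.1).2.2 j).symm.trans (Amb.pc_congr e.2 _)⟩
theorem exists_pt {K : XL Sg 𝔞.M} (le : LeL K 𝔞.O) (h : cL K.toLat = P.hp) :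
    ∃ y ∈ P.Qa.pts, EqL (P.Lq y) K := by
  obtain ⟨y, hy, e⟩ := GrD.exists_pt (Γ := P.Γ) (𝔞.pcs P.p P.q K) (finrank_pcs le h)
  exact ⟨y, (mem_iff le h hy).1 e⟩
theorem uniq (hy : y ∈ P.Qa.pts) (hy' : y' ∈ P.Qa.pts) (h : EqL (P.Lq y) (P.Lq y')) :
    ∃ c : ℂ, c ≠ 0 ∧ y' = c • y :=
  GrD.uniq (P.Qa_sub.2 hy) (P.Qa_sub.2 hy') fun j =>
    ((Lq_spec hy).2.2 j).symm.trans ((Amb.pc_congr h _).trans ((Lq_spec hy').2.2 j))
/-- the universal property (`GrD.exists_graph`) -/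
theorem graph {Z : Spc} {L : Pt → XL Sg 𝔞.M} (hb : P.b ∉ Z.B) (h : LFam 𝔞 Z P.p L)
    (hh : ∀ x ∈ Z.pts, cL (L x).toLat = P.hp) :
    ∃ (W : Spc) (A : Bun Z) (y : A.ι → Var), IsPSub W A 0 P.b y ∧ A.Rk 1 ∧
      ∀ z, z ∈ W.pts ↔ z ∈ (Z.fib P.Qa).pts ∧ EqL (P.Lq z) (L (restr Z.B z)) := by
  obtain ⟨W, A, y, h1, h2, -, -, h3⟩ := GrD.exists_graph (Γ := P.Γ) hb
    (fun j x => 𝔞.pc (L x) j.1) (fun j => h.ab _ j.le)
    fun j x hx => finrank_pcs (h.le x hx) (hh x hx) j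
  refine ⟨W, A, y, h1, h2, fun z => (h3 z).trans ?_⟩
  have hbb : P.Γ.b ∈ P.Γ.Y.B := GrD.b_mem
  rw [Spc.mem_fib, Spc.mem_fib, P.Qa_sub.1, ← P.Lq_restr hbb z]
  constructor
  · rintro ⟨⟨a1, a2, a3⟩, a4⟩
    have := (mem_iff (h.le _ a1) (hh _ a1) a2).1 fun j => (GrD.U_restr hbb j z).trans (a4 j)
    exact ⟨⟨a1, this.1, a3⟩, this.2⟩
  · rintro ⟨⟨a1, a2, a3⟩, a4⟩
    exact ⟨⟨a1, P.Qa_sub.2 a2, a3⟩, fun j => (GrD.U_restr hbb j z).symm.trans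
      ((mem_iff (h.le _ a1) (hh _ a1) (P.Qa_sub.2 a2)).2 ⟨a2, a4⟩ j)⟩
/-- variations on the Grassmannian restrict to Kodaira-Spencer maps (`IsVar.sub`) -/
theorem ks_of_isVar {Z : Spc} (hZ : Z.Sub P.Qa) {x ξ : Pt} (hx : x ∈ Z.pts) (hξ : ξ ∈ Z.Tan x)
    {φ : P.Γ.En.V} (h : ∀ j, IsVar P.Γ.Y.fn ⟨x, P.Qa_sub.2 (hZ.2 hx)⟩ (P.Γ.Y.pd x ξ)
      (fun y => P.Γ.U j y.1) (φ j)) (j : JJ P.p P.q) :
    KS Z (V := 𝔞.G j.1) (fun y => 𝔞.pc (P.Lq y) j.1) hx ξ (φ j) := by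
  have e : (fun y : Z.pts => 𝔞.pc (P.Lq y.1) j.1) = fun y => P.Γ.U j y.1 :=
    funext fun y => (Lq_spec (hZ.2 y.2)).2.2 j
  change IsVar _ _ _ (fun y : Z.pts => 𝔞.pc (P.Lq y.1) j.1) _
  rw [e]
  exact IsVar.sub (hZ.trans P.Qa_sub) hx hξ (GrD.isAB_U (Γ := P.Γ) j).alg (h j)
/-- Kodaira-Spencer is injective (`exists_isVar`, `δ_mem_den`, `mem_stabs_of_δ`, `isVar_iff`,
`ks_mem_span`, `Blk.vec_inj`) -/
theorem tan0 {Z : Spc} (hZ : Z.Sub P.Qa) {x ξ : Pt} (hx : x ∈ Z.pts) (hξ : ξ ∈ Z.Tan x)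
    (h : KS Z (V := 𝔞.G P.p) (fun y => 𝔞.pc (P.Lq y) P.p) hx ξ 0) :
    ξ ∈ Submodule.span ℂ {x} := by
  have hY := hZ.trans P.Qa_sub
  have hq := hZ.2 hx
  have hξ' := hY.tan_le x hξ
  obtain ⟨φ, hφ⟩ := GrD.exists_isVar (hY.2 hx) hξ'
  have h1 := P.qv.δ_mem_den GrD.isAB_U hY
    (fun z hz => (P.mem_Qa (hY.2 hz)).1 (hZ.2 hz)) hx hξ hφ
  rw [← pcs_Lq hq] at h1
  have h2 := Amb.mem_stabs_of_δ (Lq_le x) (Lq_spec hq).2.1 P.two P.five h1 fun v hv => by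
    simpa using IsVar.unique ((lfam.mono hZ).ab _ le_rfl).alg
      (ks_of_isVar hZ hx hξ hφ (JJ.bot _ _)) h v hv
  rw [Amb.stabs, pcs_Lq hq] at h2
  have h3 := add_mem ((GrD.isVar_iff (hY.2 hx) hξ').1 hφ) ((GrD.ks_mem_span (hY.2 hx)).2 h2)
  rw [sub_add_cancel] at h3
  obtain ⟨c, hc⟩ := Submodule.mem_span_singleton.1 h3
  refine Submodule.mem_span_singleton.2 ⟨c, P.Γ.β.vec_inj ((GrD.supp (hY.2 hx)).smul c)
    (GrD.supp_tan hξ') ?_⟩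
  rw [map_smul]; exact hc
/-- fixed points have stable pieces in every degree -/
theorem stab_of_fix (hy : y ∈ P.Qa.pts) {w : ℕ → ℤ} (hw : ∀ v : Var, y v ≠ 0 → v.2.2 = w v.1)
    {j : ℕ} (hj : P.p ≤ j) : (𝔞.G j).Stab (𝔞.pc (P.Lq y) j) := by
  have hs := GrD.supp (P.Qa_sub.2 hy)
  have hw' : ∀ v : Var, y v ≠ 0 → v.2.2 = w P.Γ.b := fun v hv => by
    obtain ⟨i, rfl⟩ := hs.exists hv
    exact hw _ hv
  have := (lfam.ab j hj).eqv y hy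
  rwa [GrD.gpt_eq hs hw', Lq_smul _ (chi_ne _)] at this
end Par

end Crest.Agent.N265.M
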