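import Crest.Agent.N265.Q.Bnd0
import Crest.Agent.N265.M.Ty

/-! # Row 265, task Q-CRIT b: split lattices -/

set_option autoImplicit false
set_option linter.dupNamespace false
noncomputable section
open MvPolynomial Module TensorProduct

namespace Crest.Agent.N265.M
open Crest.Agent.R274
open Defs_781 Lat_781 SnapA_99 SnapB_99 SnapE_99 Gen7_750 Xs1_781 SkDefs_474
open Alg GV Br N Fib _root_.Crest.Agent.N265.Pow
variable {Sg : Surf} {p : ℕ} {k : ℤ} {β β' : Sg.V.G} {n n' : ℕ}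

section split
variable {L : XL Sg (Fin 2 → Sg.F)} {J₁ J₂ : XL Sg Sg.F}
lemma mem_Gm_smd {i : Fin 2} {e : ℤ} {f : Sg.F} :
    f ∈ Gm (smd L i).toLat e ↔ (Pi.single i f : Fin 2 → Sg.F) ∈ Gm L.toLat e :=
  mem_Gm_comap (hg := Pi.single_injective (M := fun _ : Fin 2 => Sg.F) i)
lemma mem_smd {i : Fin 2} {I : Finset (Fin 3)} {f : Sg.F} :
    f ∈ (smd L i).M I ↔ (Pi.single i f : Fin 2 → Sg.F) ∈ L.M I := Iff.rfl
lemma mem_pair {I : Finset (Fin 3)} {v : Fin 2 → Sg.F} :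
    v ∈ (piX ![J₁, J₂]).M I ↔ v 0 ∈ J₁.M I ∧ v 1 ∈ J₂.M I := mem_piFam.trans Fin.forall_fin_two
lemma single_add_single {M : Type} [AddCommGroup M] (v : Fin 2 → M) :
    (Pi.single 0 (v 0) + Pi.single 1 (v 1) : Fin 2 → M) = v :=
  funext (Fin.forall_fin_two.2 ⟨by simp, by simp⟩)
lemma smd_congr {L' : XL Sg (Fin 2 → Sg.F)} (h : EqL L L') (i : Fin 2) :
    EqL (smd L i) (smd L' i) := fun I hI => Submodule.ext fun _ =>
  mem_smd.trans ((SetLike.ext_iff.1 (h I hI) _).trans mem_smd.symm)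
lemma smd_pair (J₁ J₂ : XL Sg Sg.F) :
    EqL (smd (piX ![J₁, J₂]) 0) J₁ ∧ EqL (smd (piX ![J₁, J₂]) 1) J₂ :=
  ⟨fun _ _ => Submodule.ext fun _ => mem_smd.trans (mem_pair.trans (and_iff_left (zero_mem _))),
    fun _ _ => Submodule.ext fun _ => mem_smd.trans (mem_pair.trans (and_iff_right (zero_mem _)))⟩
lemma pair_congr {I₁ I₂ : XL Sg Sg.F} (h₁ : EqL I₁ J₁) (h₂ : EqL I₂ J₂) :
    EqL (piX ![I₁, I₂]) (piX ![J₁, J₂]) := fun I hI => Submodule.ext fun _ =>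
  mem_pair.trans ((and_congr (SetLike.ext_iff.1 (h₁ I hI) _) (SetLike.ext_iff.1 (h₂ I hI) _)).trans
    mem_pair.symm)
lemma smd_le (h : LeL L (r2 Sg).O) (i : Fin 2) : LeL (smd L i) (OX Sg.V.X) :=
  fun I hI f hf => by
    have h1 := mem_OP.1 ((r2_O I hI).le (h I hI (mem_smd.1 hf))) i
    rwa [Pi.single_eq_same] at h1
lemma pair_le : LeL (piX ![J₁, J₂]) (r2 Sg).O ↔ LeL J₁ (OX Sg.V.X) ∧ LeL J₂ (OX Sg.V.X) :=
  ⟨fun h => ⟨(smd_pair J₁ J₂).1.symm.le.trans (smd_le h 0),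
    (smd_pair J₁ J₂).2.symm.le.trans (smd_le h 1)⟩, fun h I hI _ hv => (r2_O I hI).ge
      (mem_piFam.2 (Fin.forall_fin_two.2 ⟨h.1 I hI (mem_pair.1 hv).1, h.2 I hI (mem_pair.1 hv).2⟩))⟩
lemma cL_pair (J₁ J₂ : XL Sg Sg.F) (e : ℤ) :
    cL (piX ![J₁, J₂]).toLat e = cL J₁.toLat e + cL J₂.toLat e :=
  (cL_pi (fun a => (![J₁, J₂] a).toLat) e).trans (Fin.sum_univ_two _)
lemma hL_pair (J₁ J₂ : XL Sg Sg.F) (e : ℤ) (l : ℕ) :
    hL (piX ![J₁, J₂]).toLat e l = hL J₁.toLat e l + hL J₂.toLat e l :=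
  (hL_pi (fun a => (![J₁, J₂] a).toLat) e l).trans (Fin.sum_univ_two _)
/-- `hL_pi` -/
lemma regL_pair {m : ℤ} : RegL (piX ![J₁, J₂]).toLat m ↔ RegL J₁.toLat m ∧ RegL J₂.toLat m := by
  refine ⟨fun h => ?_, fun h => RegL.pi (Fin.forall_fin_two.2 h)⟩
  have H := fun l => Nat.add_eq_zero_iff.1 ((hL_pair J₁ J₂ _ _).symm.trans (hL_eq_zero_iff.2 (h l)))
  exact ⟨fun l => hL_eq_zero_iff.1 (H l).1, fun l => hL_eq_zero_iff.1 (H l).2⟩
lemma chi_eT_ne : chi eT ≠ chi 0 := fun h => by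
  simpa [eT] using DFunLike.congr_fun (chi_inj h) none
lemma smul_sub_cancel_aux {M : Type} [AddCommGroup M] [Module ℂ M] {a b : ℂ} (h : a ≠ b) (v : M) :
    (a - b)⁻¹ • (a • v - b • v) = v := by
  rw [← sub_smul, smul_smul, inv_mul_cancel₀ (sub_ne_zero.2 h), one_smul]
lemma eq_zero_of_smul_aux {M : Type} [AddCommGroup M] [Module ℂ M] {a b : ℂ} (h : a ≠ b) {v : M}
    (e : a • v = b • v) : v = 0 := by
  rw [← smul_sub_cancel_aux h v, e, sub_self, smul_zero]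
lemma r2_g_zero {j : ℕ} (w : ((r2 Sg).G j).V) : ((r2 Sg).G j).g w 0 = chi 0 • w 0 := by
  rw [Amb.g_apply]; simp
lemma r2_g_one {j : ℕ} (w : ((r2 Sg).G j).V) : ((r2 Sg).G j).g w 1 = chi eT • w 1 := by
  rw [Amb.g_apply]; simp
lemma r2_inc_single {j : ℕ} (i : Fin 2) (a : SA Sg j) :
    (r2 Sg).inc j (Pi.single i a) = Pi.single i a.1 := funext fun l => by
  rw [r2_inc]
  exact Pi.apply_single (fun _ (b : SA Sg j) => b.1) (fun _ => rfl) i a l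
/-- a lattice with a stable generating piece splits (`Stab.eq_part_sup`, `le_of_pc`) -/
theorem split_of_stab (le : LeL L (r2 Sg).O) (hr : RegL L.toLat p)
    (h : ((r2 Sg).G p).Stab ((r2 Sg).pc L p)) : EqL L (piX ![smd L 0, smd L 1]) := by
  refine eqv_of_le (Amb.le_of_pc (𝔞 := r2 Sg) le hr le_rfl fun w hw => ?_) fun I _ v hv => ?_
  · have h1 : (Pi.single 1 (w 1) : ((r2 Sg).G p).V) ∈ (r2 Sg).pc L p := by
      have h2 := Submodule.smul_mem _ (chi eT - chi 0)⁻¹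
        (sub_mem (h.mem_iff.2 hw) (Submodule.smul_mem _ (chi 0) hw))
      convert h2 using 1
      refine funext (Fin.forall_fin_two.2 ⟨?_, ?_⟩)
      · rw [Pi.smul_apply, Pi.sub_apply, r2_g_zero, Pi.smul_apply, sub_self, smul_zero]
        rfl
      · rw [Pi.smul_apply, Pi.sub_apply, r2_g_one, Pi.smul_apply]
        exact (smul_sub_cancel_aux chi_eT_ne (w 1 : SA Sg p)).symm
    have h0 : (Pi.single 0 (w 0) : ((r2 Sg).G p).V) ∈ (r2 Sg).pc L p := by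
      convert sub_mem hw h1 using 1
      exact eq_sub_of_add_eq (single_add_single w)
    rw [Amb.mem_pc, r2_inc_single] at h0 h1
    exact mem_pc_pair.2 ⟨mem_Gm_smd.2 h0, mem_Gm_smd.2 h1⟩
  · rw [← single_add_single v]
    exact add_mem (mem_smd.1 (mem_pair.1 hv).1) (mem_smd.1 (mem_pair.1 hv).2)
lemma stab_pair (J₁ J₂ : XL Sg Sg.F) (j : ℕ) :
    ((r2 Sg).G j).Stab ((r2 Sg).pc (piX ![J₁, J₂]) j) := stab_of_le fun w hw => by
  rw [mem_pc_pair, r2_g_zero, r2_g_one]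
  exact ⟨Submodule.smul_mem _ _ (mem_pc_pair.1 hw).1, Submodule.smul_mem _ _ (mem_pc_pair.1 hw).2⟩
lemma mem_part_zero {j : ℕ} {w : ((r2 Sg).G j).V} :
    w ∈ ((r2 Sg).G j).part (· = 0) ↔ w 1 = 0 := by
  refine ⟨fun h => ?_, fun h => mem_part (P := (· = 0)) (d := 0) rfl ?_⟩
  · have key : ((r2 Sg).G j).part (· = 0) ≤
        LinearMap.ker (LinearMap.proj (R := ℂ) (φ := fun _ : Fin 2 => SA Sg j) 1) := by
      refine part_le ?_
      rintro _ rfl v hv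
      exact eq_zero_of_smul_aux (M := SA Sg j) chi_eT_ne ((r2_g_one v).symm.trans (congrFun hv 1))
    exact key h
  · refine funext (Fin.forall_fin_two.2 ⟨r2_g_zero w, ?_⟩)
    rw [r2_g_one, Pi.smul_apply, h, smul_zero, smul_zero]
lemma mem_part_eT {j : ℕ} {w : ((r2 Sg).G j).V} :
    w ∈ ((r2 Sg).G j).part (· = eT) ↔ w 0 = 0 := by
  refine ⟨fun h => ?_, fun h => mem_part (P := (· = eT)) (d := eT) rfl ?_⟩
  · have key : ((r2 Sg).G j).part (· = eT) ≤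
        LinearMap.ker (LinearMap.proj (R := ℂ) (φ := fun _ : Fin 2 => SA Sg j) 0) := by
      refine part_le ?_
      rintro _ rfl v hv
      exact eq_zero_of_smul_aux (M := SA Sg j) chi_eT_ne.symm
        ((r2_g_zero v).symm.trans (congrFun hv 0))
    exact key h
  · refine funext (Fin.forall_fin_two.2 ⟨?_, r2_g_one w⟩)
    rw [r2_g_zero, Pi.smul_apply, h, smul_zero, smul_zero]
lemma part_sup (j : ℕ) : ((r2 Sg).G j).part (· = 0) ⊔ ((r2 Sg).G j).part (· = eT) = ⊤ :=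
  eq_top_iff.2 fun w _ => by
    rw [← single_add_single w]
    exact Submodule.add_mem_sup (mem_part_zero.2 rfl) (mem_part_eT.2 rfl)
lemma isCompl_part (j : ℕ) :
    IsCompl (((r2 Sg).G j).part (· = 0)) (((r2 Sg).G j).part (· = eT)) :=
  ⟨Submodule.disjoint_def.2 fun _ h0 h1 =>
    funext (Fin.forall_fin_two.2 ⟨mem_part_eT.1 h1, mem_part_zero.1 h0⟩),
    codisjoint_iff.2 (part_sup j)⟩
/-- second summand -/
def in2 (Sg : Surf) (j : ℕ) : ((r1 Sg 1).G j).V →ₗ[ℂ] ((r2 Sg).G j).V :=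
  LinearMap.single ℂ (fun _ : Fin 2 => SA Sg j) 1 ∘ₗ
    LinearMap.proj (R := ℂ) (φ := fun _ : Unit => SA Sg j) ()
lemma in2_zero (j : ℕ) (w : ((r1 Sg 1).G j).V) : in2 Sg j w 0 = 0 := rfl
lemma in2_one (j : ℕ) (w : ((r1 Sg 1).G j).V) : in2 Sg j w 1 = w () := rfl
lemma deg0_in2 (j : ℕ) : Deg0 ((r1 Sg 1).G j) ((r2 Sg).G j) (in2 Sg j) := fun w => by
  refine funext (Fin.forall_fin_two.2 ⟨?_, rfl⟩)
  rw [r2_g_zero, in2_zero, in2_zero, smul_zero]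
lemma in1_inj (j : ℕ) : Function.Injective (in1 Sg j) := fun _ _ h => funext fun _ => congrFun h 0
lemma in2_inj (j : ℕ) : Function.Injective (in2 Sg j) := fun _ _ h => funext fun _ => congrFun h 1
lemma pair_part_sup (J₁ J₂ : XL Sg Sg.F) (j : ℕ) :
    (r2 Sg).pc (piX ![J₁, J₂]) j ⊓ ((r2 Sg).G j).part (· = 0) ⊔
      (r2 Sg).pc (piX ![J₁, J₂]) j ⊓ ((r2 Sg).G j).part (· = eT) = (r2 Sg).pc (piX ![J₁, J₂]) j :=
  le_antisymm (sup_le inf_le_left inf_le_left) fun w hw => by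
    rw [← single_add_single w]
    exact Submodule.add_mem_sup
      ⟨mem_pc_pair.2 ⟨(mem_pc_pair.1 hw).1, zero_mem _⟩, mem_part_zero.2 rfl⟩
      ⟨mem_pc_pair.2 ⟨zero_mem _, (mem_pc_pair.1 hw).2⟩, mem_part_eT.2 rfl⟩
lemma map_in2 (J₁ J₂ : XL Sg Sg.F) (j : ℕ) : ((r1 Sg 1).pc J₂ j).map (in2 Sg j) =
    (r2 Sg).pc (piX ![J₁, J₂]) j ⊓ ((r2 Sg).G j).part (· = eT) := by
  refine le_antisymm ?_ fun w hw => ⟨fun _ => w 1, (mem_pc_pair.1 hw.1).2, ?_⟩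
  · rintro _ ⟨w, hw, rfl⟩
    exact ⟨mem_pc_pair.2 ⟨zero_mem _, hw⟩, mem_part_eT.2 rfl⟩
  · exact funext (Fin.forall_fin_two.2 ⟨(mem_part_eT.1 hw.2).symm, rfl⟩)
lemma finrank_part (J₁ J₂ : XL Sg Sg.F) (j : ℕ) :
    finrank ℂ ((r2 Sg).pc (piX ![J₁, J₂]) j ⊓ ((r2 Sg).G j).part (· = eT) : Submodule ℂ _) =
      finrank ℂ ((r1 Sg 1).pc J₂ j) := by
  rw [← map_in2]
  exact (LinearEquiv.finrank_eq (Submodule.equivMapOfInjective _ (in2_inj j) _)).symm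
lemma ne_bot_aux (le : LeL J₂ (OX Sg.V.X)) {d : ℕ} {c : ℤ}
    (h : ∀ e, cL J₁.toLat e + cL J₂.toLat e = HP Sg 2 d c e) : ∃ e, Gm J₁.toLat e ≠ ⊥ := by
  by_contra! h0
  obtain ⟨m₀, hm⟩ := HP_nonneg (Sg := Sg) one_pos d (c + 1)
  obtain ⟨e, ⟨h1, h2⟩, h3⟩ := (((ev_cL J₁.toLat).and (ev_cL J₂.toLat)).and
    (Filter.eventually_ge_atTop (m₀ : ℤ))).exists
  obtain ⟨m, rfl⟩ := Int.eq_ofNat_of_zero_le ((Int.natCast_nonneg _).trans h3)
  have h4 := hm m (by exact_mod_cast h3)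
  have h5 := h m
  have h6 : finrank ℂ (Gm J₂.toLat m) ≤ finrank ℂ (AA Sg.V.X m) :=
    Submodule.finrank_mono (Gm_mono le _)
  have h7 := finrank_AA Sg (Int.natCast_nonneg m)
  rw [h0, finrank_bot] at h1
  simp only [HP] at h4 h5
  push_cast at h1 h4 h5
  omega
/-- both summands are non-zero (`χ(e h)` grows quadratically) -/
theorem ne_bot_of_pair (le : LeL (piX ![J₁, J₂]) (r2 Sg).O) {d : ℕ} {c : ℤ}
    (h : cL (piX ![J₁, J₂]).toLat = HP Sg 2 d c) :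
    (∃ e, Gm J₁.toLat e ≠ ⊥) ∧ ∃ e, Gm J₂.toLat e ≠ ⊥ :=
  ⟨ne_bot_aux (pair_le.1 le).2 fun e => (cL_pair J₁ J₂ e).symm.trans (congrFun h e),
    ne_bot_aux (pair_le.1 le).1 fun e =>
      (add_comm _ _).trans ((cL_pair J₁ J₂ e).symm.trans (congrFun h e))⟩
/-- the summands of a split family are families (`IsAB.inf_const`, `IsAB.comap_of_inj`) -/
theorem isAB_smd {X : Spc} {L : Pt → XL Sg (Fin 2 → Sg.F)} {j : ℕ}
    (h : IsAB X ((r2 Sg).G j) fun x => (r2 Sg).pc (L x) j)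
    (e : ∀ x ∈ X.pts, EqL (L x) (piX ![smd (L x) 0, smd (L x) 1])) :
    (IsAB X ((r1 Sg 0).G j) fun x => (r1 Sg 0).pc (smd (L x) 0) j) ∧
      IsAB X ((r1 Sg 1).G j) fun x => (r1 Sg 1).pc (smd (L x) 1) j := by
  have hs : ∀ x ∈ X.pts, (r2 Sg).pc (L x) j ⊓ ((r2 Sg).G j).part (· = 0) ⊔
      (r2 Sg).pc (L x) j ⊓ ((r2 Sg).G j).part (· = eT) = (r2 Sg).pc (L x) j := fun x hx => by
    rw [Amb.pc_congr (𝔞 := r2 Sg) (e x hx)]
    exact pair_part_sup _ _ j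
  constructor
  · refine ((h.inf_const (stab_part _) (isCompl_part j) hs).comap_of_inj ((r1 Sg 0).in_G j _)
      (deg0_in1 j) (in1_inj j) fun x _ w hw => ⟨fun _ => w 0, ?_⟩).congr fun x _ => ?_
    · exact funext (Fin.forall_fin_two.2 ⟨rfl, (mem_part_zero.1 hw.2).symm⟩)
    · ext w
      refine ((and_iff_left (mem_part_zero.2 rfl)).trans ?_).trans mem_Gm_smd.symm
      rw [r1_inc, ← r2_inc_single]
      rfl
  · refine ((h.inf_const (stab_part _) (isCompl_part j).symm fun x hx =>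
      (sup_comm _ _).trans (hs x hx)).comap_of_inj ((r1 Sg 1).in_G j _)
      (deg0_in2 j) (in2_inj j) fun x _ w hw => ⟨fun _ => w 1, ?_⟩).congr fun x _ => ?_
    · exact funext (Fin.forall_fin_two.2 ⟨(mem_part_eT.1 hw.2).symm, rfl⟩)
    · ext w
      refine ((and_iff_left (mem_part_eT.2 rfl)).trans ?_).trans mem_Gm_smd.symm
      rw [r1_inc, ← r2_inc_single]
      rfl
end split

end Crest.Agent.N265.M
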