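import Crest.Agent.N265.Q.Pts
import Crest.Agent.N265.Q.Crit

/-! # Row 265, task Q-UNI: the universal pairs of ideals inside the Quot scheme -/

set_option autoImplicit false
set_option linter.dupNamespace false
noncomputable section
open MvPolynomial Module TensorProduct

namespace Crest.Agent.N265.M
open Crest.Agent.R274
open Defs_781 Lat_781 SnapA_99 SnapB_99 SnapE_99 Gen7_750 Xs1_781 SkDefs_474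
open Alg GV Br N Fib _root_.Crest.Agent.N265.Pow
variable {Sg : Surf} {β₁ β₂ : Sg.V.G} {n₁ n₂ : ℕ}

namespace Par
variable (P : Par (r2 Sg))
/-- the Hilbert polynomial of a pair of ideals of these types is the right one -/
def Fit (β₁ β₂ : Sg.V.G) (n₁ n₂ : ℕ) : Prop := ∀ e : ℤ,
  Sg.V.chi (-β₁ + e • Sg.V.h) - n₁ + (Sg.V.chi (-β₂ + e • Sg.V.h) - n₂) = P.hp e
/-- the weight of the fixed points -/
def wt (β₂ : Sg.V.G) (n₂ : ℕ) : ℤ :=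
  ∑ j : JJ P.p P.q, (Sg.V.chi (-β₂ + (j.1 : ℤ) • Sg.V.h) - n₂)
/-- `u` is the space of the points of `Qa` of the given types -/
structure IsU (u : Uni Sg P.p β₁ β₂ n₁ n₂ 0 1 P.b) : Prop where
  sub : u.F.Sub P.Qa
  eqv : ∀ x ∈ u.F.pts, EqL (P.Lq x) (piX ![u.I₁ x, u.I₂ x])
  mem : ∀ x ∈ P.Qa.pts, ∀ J₁ J₂ : XL Sg Sg.F, Ty J₁ β₁ n₁ → Ty J₂ β₂ n₂ →
    EqL (P.Lq x) (piX ![J₁, J₂]) → x ∈ u.F.pts
variable {P}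
/-- `stab_of_fix`, `split_of_stab` -/
theorem split_of_fix {x : Pt} (hx : x ∈ P.Qa.pts) {w : ℕ → ℤ}
    (hw : ∀ v : Var, x v ≠ 0 → v.2.2 = w v.1) :
    EqL (P.Lq x) (piX ![smd (P.Lq x) 0, smd (P.Lq x) 1]) :=
  split_of_stab (Lq_le x) (Lq_spec hx).2.1 (stab_of_fix hx hw le_rfl)
/-- what the summands of a point inherit -/
lemma pair_spec {x : Pt} (hx : x ∈ P.Qa.pts) {J₁ J₂ : XL Sg Sg.F}
    (e : EqL (P.Lq x) (piX ![J₁, J₂])) :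
    (LeL J₁ (OX Sg.V.X) ∧ LeL J₂ (OX Sg.V.X)) ∧ (RegL J₁.toLat P.p ∧ RegL J₂.toLat P.p) ∧
      ((∃ e, Gm J₁.toLat e ≠ ⊥) ∧ ∃ e, Gm J₂.toLat e ≠ ⊥) ∧
      cL (piX ![J₁, J₂]).toLat = P.hp := by
  have le : LeL (piX ![J₁, J₂]) (r2 Sg).O := e.symm.le.trans (Lq_le x)
  have hc : cL (piX ![J₁, J₂]).toLat = P.hp := (cL_congr e.symm).trans (Lq_spec hx).1
  refine ⟨pair_le.1 le, regL_pair.1 (regL_congr e (Lq_spec hx).2.1), ne_bot_of_pair le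
    (d := P.d) (c := P.c) (hc.trans ?_), hc⟩
  rw [Par.hp, Fintype.card_fin]
/-- `GrD.wt_eq`, `finrank_part`, `Amb.finrank_pc`, `Ty.cL` -/
theorem wt_of_pair {x : Pt} (hx : x ∈ P.Qa.pts) {J₁ J₂ : XL Sg Sg.F} (h₂ : Ty J₂ β₂ n₂)
    (e : EqL (P.Lq x) (piX ![J₁, J₂])) {v : Var} (hv : x v ≠ 0) : v.2.2 = P.wt β₂ n₂ := by
  have hU : ∀ j : JJ P.p P.q, P.Γ.U j x = (r2 Sg).pc (piX ![J₁, J₂]) j.1 := fun j =>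
    ((Lq_spec hx).2.2 j).symm.trans (Amb.pc_congr (𝔞 := r2 Sg) e _)
  obtain ⟨⟨-, l₂⟩, ⟨-, g₂⟩, -⟩ := pair_spec hx e
  refine (GrD.wt_eq (Γ := P.Γ) (P.Qa_sub.2 hx) (fun j => ?_) (fun j => part_sup j.1) hv).trans
    (Finset.sum_congr rfl fun j _ => ?_)
  · rw [hU]; exact stab_pair J₁ J₂ j.1
  · rw [hU, ← h₂.cL]
    exact (congrArg Nat.cast (finrank_part J₁ J₂ j.1)).trans (Amb.finrank_pc (𝔞 := r1 Sg 1)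
      (L := J₂) (l₂.trans (r1_O 1).symm.le) g₂ (j.le.trans (Nat.le_succ _)))
lemma Fit.cL (h : P.Fit β₁ β₂ n₁ n₂) {J₁ J₂ : XL Sg Sg.F} (h₁ : Ty J₁ β₁ n₁) (h₂ : Ty J₂ β₂ n₂) :
    cL (piX ![J₁, J₂]).toLat = P.hp := funext fun e => by
  rw [cL_pair, h₁.cL, h₂.cL, h e]
/-- the space of the points of the given types -/
lemma exists_spc (P : Par (r2 Sg)) (β₁ β₂ : Sg.V.G) (n₁ n₂ : ℕ) : ∃ F : Spc,
    F.Sub (P.Qa.fix fun _ => P.wt β₂ n₂) ∧ ∀ x ∈ (P.Qa.fix fun _ => P.wt β₂ n₂).pts,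
      x ∈ F.pts ↔ Ty (smd (P.Lq x) 0) β₁ n₁ ∧ Ty (smd (P.Lq x) 1) β₂ n₂ := by
  have hs := P.Qa.fix_sub fun _ => P.wt β₂ n₂
  have sp := fun x (hx : x ∈ (P.Qa.fix fun _ => P.wt β₂ n₂).pts) =>
    split_of_fix (w := fun _ => P.wt β₂ n₂) (Spc.mem_fix.1 hx).1 (Spc.mem_fix.1 hx).2
  have ab := fun j hj => isAB_smd (((lfam (P := P)).mono hs).ab j hj) sp
  have pr := fun x hx => pair_spec (hs.2 hx) (sp x hx)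
  obtain ⟨Z₁, s₁, m₁⟩ := exists_tySpc (k := 0) (fun x hx => (pr x hx).1.1)
    (fun x hx => (pr x hx).2.1.1) (fun x hx => (pr x hx).2.2.1.1) (fun j hj => (ab j hj).1) β₁ n₁
  obtain ⟨Z₂, s₂, m₂⟩ := exists_tySpc (k := 1) (X := Z₁) (fun x hx => (pr x (s₁.2 hx)).1.2)
    (fun x hx => (pr x (s₁.2 hx)).2.1.2) (fun x hx => (pr x (s₁.2 hx)).2.2.1.2)
    (fun j hj => (ab j hj).2.mono s₁) β₂ n₂
  exact ⟨Z₂, s₂.trans s₁, fun x hx => ⟨fun h => ⟨(m₁ x hx).1 (s₂.2 h), (m₂ x (s₂.2 h)).1 h⟩,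
    fun h => (m₂ x ((m₁ x hx).2 h.1)).2 h.2⟩⟩
end Par

/-- the projections to the summands -/
def prj (Sg : Surf) (k : ℤ) (i : Fin 2) (j : ℕ) : ((r2 Sg).G j).V →ₗ[ℂ] ((r1 Sg k).G j).V :=
  LinearMap.pi fun _ => LinearMap.proj (R := ℂ) (φ := fun _ : Fin 2 => SA Sg j) i
lemma mem_pc_prj {J₁ J₂ : XL Sg Sg.F} {j : ℕ} {w : ((r2 Sg).G j).V} :
    w ∈ (r2 Sg).pc (piX ![J₁, J₂]) j ↔
      prj Sg 0 0 j w ∈ (r1 Sg 0).pc J₁ j ∧ prj Sg 1 1 j w ∈ (r1 Sg 1).pc J₂ j :=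
  mem_pc_pair.trans (and_congr (mem_pc_r1 (k := 0) (w := prj Sg 0 0 j w)).symm
    (mem_pc_r1 (k := 1) (w := prj Sg 1 1 j w)).symm)
/-- a pair does not vary if the summands do not -/
lemma ks_pair {X : Spc} {L : Pt → XL Sg (Fin 2 → Sg.F)} {I₁ I₂ : Pt → XL Sg Sg.F} {j : ℕ}
    (e : ∀ x ∈ X.pts, EqL (L x) (piX ![I₁ x, I₂ x])) {x ξ : Pt} (hx : x ∈ X.pts)
    (h₁ : KS X (V := (r1 Sg 0).G j) (fun y => (r1 Sg 0).pc (I₁ y) j) hx ξ 0)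
    (h₂ : KS X (V := (r1 Sg 1).G j) (fun y => (r1 Sg 1).pc (I₂ y) j) hx ξ 0) :
    KS X (V := (r2 Sg).G j) (fun y => (r2 Sg).pc (L y) j) hx ξ 0 := fun σ hσ hm => by
  have hm' : ∀ y : X.pts, σ y ∈ (r2 Sg).pc (piX ![I₁ y.1, I₂ y.1]) j := fun y =>
    Amb.pc_congr (𝔞 := r2 Sg) (e _ y.2) j ▸ hm y
  have a₁ := h₁ _ (RegV.lin' (prj Sg 0 0 j) hσ) fun y => (mem_pc_prj.1 (hm' y)).1
  have a₂ := h₂ _ (RegV.lin' (prj Sg 1 1 j) hσ) fun y => (mem_pc_prj.1 (hm' y)).2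
  rw [LinearMap.zero_apply, sub_zero, dV_lin] at a₁ a₂
  rw [LinearMap.zero_apply, sub_zero]
  exact (Amb.pc_congr (𝔞 := r2 Sg) (e x hx) j).ge (mem_pc_prj.2 ⟨a₁, a₂⟩)

namespace Par
variable {P : Par (r2 Sg)}
/-- `F` is cut out of `Qa.fix (fun _ => wt)` by `exists_tySpc` twice, `I_i = smd (Lq x) i`;
`graph` from `Par.graph` and `LFam.pair`; `tan` from `Par.tan0` -/
theorem exists_uni (h : P.Fit β₁ β₂ n₁ n₂) :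
    ∃ u : Uni Sg P.p β₁ β₂ n₁ n₂ 0 1 P.b, P.IsU u := by
  obtain ⟨F, hF, hm⟩ := P.exists_spc β₁ β₂ n₁ n₂
  have hs : F.Sub P.Qa := hF.trans (P.Qa.fix_sub _)
  have sp := fun x (hx : x ∈ F.pts) =>
    split_of_fix (w := fun _ => P.wt β₂ n₂) (hs.2 hx) (Spc.mem_fix.1 (hF.2 hx)).2
  have ab := fun j hj => isAB_smd (((lfam (P := P)).mono hs).ab j hj) sp
  have pr := fun x hx => pair_spec (hs.2 hx) (sp x hx)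
  have ty := fun x hx => (hm x (hF.2 hx)).1 hx
  have sm : ∀ x {J₁ J₂ : XL Sg Sg.F}, EqL (P.Lq x) (piX ![J₁, J₂]) →
      EqL (smd (P.Lq x) 0) J₁ ∧ EqL (smd (P.Lq x) 1) J₂ := fun x J₁ J₂ e =>
    ⟨(smd_congr e 0).trans (smd_pair J₁ J₂).1, (smd_congr e 1).trans (smd_pair J₁ J₂).2⟩
  have mem : ∀ x ∈ P.Qa.pts, ∀ J₁ J₂ : XL Sg Sg.F, Ty J₁ β₁ n₁ → Ty J₂ β₂ n₂ →
      EqL (P.Lq x) (piX ![J₁, J₂]) → x ∈ F.pts := fun x hx J₁ J₂ t₁ t₂ e =>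
    (hm x (Spc.mem_fix.2 ⟨hx, fun v hv => wt_of_pair hx t₂ e hv⟩)).2
      ⟨t₁.congr (sm x e).1.symm, t₂.congr (sm x e).2.symm⟩
  have f₁ : IFam F P.p β₁ n₁ 0 fun x => smd (P.Lq x) 0 :=
    ⟨⟨P.two, fun x hx => (pr x hx).1.1.trans (r1_O 0).symm.le, fun x hx => (pr x hx).2.1.1,
      ⟨_, _, fun x hx => (ty x hx).1.hp (pr x hx).1.1⟩, fun j hj => (ab j hj).1⟩,
      fun x hx => (ty x hx).1⟩
  have f₂ : IFam F P.p β₂ n₂ 1 fun x => smd (P.Lq x) 1 :=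
    ⟨⟨P.two, fun x hx => (pr x hx).1.2.trans (r1_O 1).symm.le, fun x hx => (pr x hx).2.1.2,
      ⟨_, _, fun x hx => (ty x hx).2.hp (pr x hx).1.2⟩, fun j hj => (ab j hj).2⟩,
      fun x hx => (ty x hx).2⟩
  have hB : F.B = {P.b} := hs.1.trans P.Qa_B
  refine ⟨⟨F, hB, P.b0, P.wt β₂ n₂, fun x hx => (Spc.mem_fix.1 (hF.2 hx)).2, _, _, f₁, f₂,
    fun J₁ J₂ l₁ l₂ t₁ t₂ => ?_, fun x hx x' hx' e₁ e₂ => ?_, fun Z J₁ J₂ hb g₁ g₂ => ?_,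
    fun x hx ξ hξ k₁ k₂ => tan0 hs hx hξ (ks_pair sp hx k₁ k₂)⟩, hs, sp, mem⟩
  · obtain ⟨y, hy, e⟩ := exists_pt (P := P) (pair_le.2 ⟨l₁, l₂⟩) (h.cL t₁ t₂)
    exact ⟨y, mem y hy _ _ t₁ t₂ e, sm y e⟩
  · exact uniq (hs.2 hx) (hs.2 hx') ((sp x hx).trans ((pair_congr e₁ e₂).trans (sp x' hx').symm))
  · obtain ⟨W, A, y, a1, a2, a3⟩ := graph (P := P) hb (g₁.fam.pair g₂.fam)
      fun x hx => h.cL (g₁.ty x hx) (g₂.ty x hx)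
    refine ⟨W, A, y, a1, a2, fun z => (a3 z).trans ?_⟩
    have hbb : P.b ∈ F.B := hB ▸ Finset.mem_singleton_self _
    rw [Spc.mem_fib, Spc.mem_fib, ← hs.1, ← P.Lq_restr hbb z]
    constructor
    · rintro ⟨⟨b1, b2, b3⟩, e⟩
      exact ⟨⟨b1, mem _ b2 _ _ (g₁.ty _ b1) (g₂.ty _ b1) e, b3⟩, sm _ e⟩
    · rintro ⟨⟨b1, b2, b3⟩, e₁, e₂⟩
      exact ⟨⟨b1, hs.2 b2, b3⟩, (sp _ b2).trans (pair_congr e₁ e₂)⟩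
/-- fixed points have types -/
theorem cover {x : Pt} (hx : x ∈ P.Qa.pts) {w : ℕ → ℤ} (hw : ∀ v : Var, x v ≠ 0 → v.2.2 = w v.1) :
    ∃ (J₁ J₂ : XL Sg Sg.F) (β₁ β₂ : Sg.V.G) (n₁ n₂ : ℕ), P.Fit β₁ β₂ n₁ n₂ ∧
      Ch.HasSec Sg.V β₁ ∧ Ch.HasSec Sg.V β₂ ∧ Ty J₁ β₁ n₁ ∧ Ty J₂ β₂ n₂ ∧
      EqL (P.Lq x) (piX ![J₁, J₂]) := by
  have e := split_of_fix hx hw
  obtain ⟨⟨l₁, l₂⟩, -, ⟨z₁, z₂⟩, hc⟩ := pair_spec hx e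
  obtain ⟨β₁, n₁, t₁⟩ := exists_ty l₁ z₁
  obtain ⟨β₂, n₂, t₂⟩ := exists_ty l₂ z₂
  refine ⟨_, _, β₁, β₂, n₁, n₂, fun a => ?_, t₁.hasSec l₁, t₂.hasSec l₂, t₁, t₂, e⟩
  rw [← t₁.cL, ← t₂.cL, ← cL_pair, hc]
end Par

end Crest.Agent.N265.M
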